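import Vale.Agent.Lib.P226K.BBRules

/-!
Soundness of the recursive cover.
-/

open Finset

namespace Vale.Agent.Lib.P226K.BB

variable {p : Par} {k K : ℕ} {a q : ℕ → ℝ}

/-- The recursive cover is sound. -/
theorem cover_false (h : Hyp p k a q) (hk : 6 ≤ k) (hKk : K ≤ k) (hok : Par.ok K p = true) :
    ∀ (fuel l0 l1 l2 l3 l4 u0 u1 u2 u3 u4 : ℕ),
    (l0 : ℝ) ≤ 4096 * a 0 → (l1 : ℝ) ≤ 4096 * a 1 → (l2 : ℝ) ≤ 4096 * a 2 →
    (l3 : ℝ) ≤ 4096 * a 3 → (l4 : ℝ) ≤ 4096 * a 4 →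
    4096 * a 0 ≤ u0 → 4096 * a 1 ≤ u1 → 4096 * a 2 ≤ u2 → 4096 * a 3 ≤ u3 → 4096 * a 4 ≤ u4 →
    u0 ≤ 4096 → u1 ≤ 4096 → u2 ≤ 4096 → u3 ≤ 4096 → u4 ≤ 4096 →
    cover p fuel l0 l1 l2 l3 l4 u0 u1 u2 u3 u4 = true → False := by
  have h01 := h.anti 0 1 (by norm_num) (by omega)
  have h12 := h.anti 1 2 (by norm_num) (by omega)
  have h23 := h.anti 2 3 (by norm_num) (by omega)
  have h34 := h.anti 3 4 (by norm_num) (by omega)
  intro fuel
  induction fuel with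
  | zero =>
    intro l0 l1 l2 l3 l4 u0 u1 u2 u3 u4 _ _ _ _ _ _ _ _ _ _ _ _ _ _ _ hc
    simp [cover] at hc
  | succ n ih =>
    intro l0 l1 l2 l3 l4 u0 u1 u2 u3 u4 b0 b1 b2 b3 b4 c0 c1 c2 c3 c4 d0 d1 d2 d3 d4 hc
    rw [cover] at hc
    simp only [lit_eq] at hc
    -- the tightened box
    have hu1 : 4096 * a 1 ≤ (nmn u1 u0 : ℕ) := by
      rw [nmn_eq, Nat.cast_min]
      exact le_min c1 (by linarith only [c0, h01])
    have hu1' : nmn u1 u0 ≤ 4096 := by rw [nmn_eq]; exact (min_le_left _ _).trans d1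
    generalize nmn u1 u0 = U1 at hc hu1 hu1'
    have hu2 : 4096 * a 2 ≤ (nmn u2 U1 : ℕ) := by
      rw [nmn_eq, Nat.cast_min]
      exact le_min c2 (by linarith only [hu1, h12])
    have hu2' : nmn u2 U1 ≤ 4096 := by rw [nmn_eq]; exact (min_le_left _ _).trans d2
    generalize nmn u2 U1 = U2 at hc hu2 hu2'
    have hu3 : 4096 * a 3 ≤ (nmn u3 U2 : ℕ) := by
      rw [nmn_eq, Nat.cast_min]
      exact le_min c3 (by linarith only [hu2, h23])
    have hu3' : nmn u3 U2 ≤ 4096 := by rw [nmn_eq]; exact (min_le_left _ _).trans d3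
    generalize nmn u3 U2 = U3 at hc hu3 hu3'
    have hu4 : 4096 * a 4 ≤ (nmn u4 U3 : ℕ) := by
      rw [nmn_eq, Nat.cast_min]
      exact le_min c4 (by linarith only [hu3, h34])
    have hu4' : nmn u4 U3 ≤ 4096 := by rw [nmn_eq]; exact (min_le_left _ _).trans d4
    generalize nmn u4 U3 = U4 at hc hu4 hu4'
    have hl3 : ((nmx l3 l4 : ℕ) : ℝ) ≤ 4096 * a 3 := by
      rw [nmx_eq, Nat.cast_max]
      exact max_le b3 (by linarith only [b4, h34])
    generalize nmx l3 l4 = L3 at hc hl3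
    have hl2 : ((nmx l2 L3 : ℕ) : ℝ) ≤ 4096 * a 2 := by
      rw [nmx_eq, Nat.cast_max]
      exact max_le b2 (by linarith only [hl3, h23])
    generalize nmx l2 L3 = L2 at hc hl2
    have hl1 : ((nmx l1 L2 : ℕ) : ℝ) ≤ 4096 * a 1 := by
      rw [nmx_eq, Nat.cast_max]
      exact max_le b1 (by linarith only [hl2, h12])
    generalize nmx l1 L2 = L1 at hc hl1
    have hl0 : ((nmx l0 L1 : ℕ) : ℝ) ≤ 4096 * a 0 := by
      rw [nmx_eq, Nat.cast_max]
      exact max_le b0 (by linarith only [hl1, h01])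
    generalize nmx l0 L1 = L0 at hc hl0
    -- order tests fail
    have hno : ∀ {x : ℝ} {L U : ℕ}, (L : ℝ) ≤ x → x ≤ U → Nat.blt U L = true → False := by
      intro x L U h1 h2 h3
      have h4 : U < L := (blt_iff _ _).1 h3
      have h5 : (L : ℝ) ≤ U := h1.trans h2
      have h6 : L ≤ U := by exact_mod_cast h5
      omega
    simp only [Bool.or_eq_true] at hc
    rcases hc with (((((h1 | h2) | h3) | h4) | h5) | h6) | h7
    · exact hno hl0 c0 h1
    · exact hno hl1 hu1 h2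
    · exact hno hl2 hu2 h3
    · exact hno hl3 hu3 h4
    · exact hno b4 hu4 h5
    · exact rules_false h hk hKk hok hl0 hl1 hl2 hl3 b4 c0 hu1 hu2 hu3 hu4 d0 hu1' hu2' hu3' hu4' h6
    · -- the split
      have hmid : ∀ {L U : ℕ} {x : ℝ}, (L : ℝ) ≤ x → x ≤ U → U ≤ 4096 → (L + U) / 2 ≤ 4096 := by
        intro L U x h1 h2 h3
        have h5 : (L : ℝ) ≤ U := h1.trans h2
        have h6 : L ≤ U := by exact_mod_cast h5
        omega
      generalize U4 = V4 at *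
      cases hm0 : Nat.ble (nmx (u0 - L0) (nmx (U1 - L1) (nmx (U2 - L2) (nmx (U3 - L3) (V4 - l4))))) (u0 - L0) with
      | true =>
        simp only [hm0, cond_true, Bool.and_eq_true] at h7
        rcases le_total (4096 * a 0) (((L0 + u0) / 2 : ℕ) : ℝ) with hs | hs
        · exact ih _ _ _ _ _ _ _ _ _ _ hl0 hl1 hl2 hl3 b4 hs hu1 hu2 hu3 hu4 (hmid hl0 c0 d0) hu1' hu2' hu3' hu4' h7.1
        · exact ih _ _ _ _ _ _ _ _ _ _ hs hl1 hl2 hl3 b4 c0 hu1 hu2 hu3 hu4 d0 hu1' hu2' hu3' hu4' h7.2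
      | false =>
        simp only [hm0, cond_false] at h7
        cases hm1 : Nat.ble (nmx (u0 - L0) (nmx (U1 - L1) (nmx (U2 - L2) (nmx (U3 - L3) (V4 - l4))))) (U1 - L1) with
        | true =>
          simp only [hm1, cond_true, Bool.and_eq_true] at h7
          rcases le_total (4096 * a 1) (((L1 + U1) / 2 : ℕ) : ℝ) with hs | hs
          · exact ih _ _ _ _ _ _ _ _ _ _ hl0 hl1 hl2 hl3 b4 c0 hs hu2 hu3 hu4 d0 (hmid hl1 hu1 hu1') hu2' hu3' hu4' h7.1
          · exact ih _ _ _ _ _ _ _ _ _ _ hl0 hs hl2 hl3 b4 c0 hu1 hu2 hu3 hu4 d0 hu1' hu2' hu3' hu4' h7.2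
        | false =>
          simp only [hm1, cond_false] at h7
          cases hm2 : Nat.ble (nmx (u0 - L0) (nmx (U1 - L1) (nmx (U2 - L2) (nmx (U3 - L3) (V4 - l4))))) (U2 - L2) with
          | true =>
            simp only [hm2, cond_true, Bool.and_eq_true] at h7
            rcases le_total (4096 * a 2) (((L2 + U2) / 2 : ℕ) : ℝ) with hs | hs
            · exact ih _ _ _ _ _ _ _ _ _ _ hl0 hl1 hl2 hl3 b4 c0 hu1 hs hu3 hu4 d0 hu1' (hmid hl2 hu2 hu2') hu3' hu4' h7.1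
            · exact ih _ _ _ _ _ _ _ _ _ _ hl0 hl1 hs hl3 b4 c0 hu1 hu2 hu3 hu4 d0 hu1' hu2' hu3' hu4' h7.2
          | false =>
            simp only [hm2, cond_false] at h7
            cases hm3 : Nat.ble (nmx (u0 - L0) (nmx (U1 - L1) (nmx (U2 - L2) (nmx (U3 - L3) (V4 - l4))))) (U3 - L3) with
            | true =>
              simp only [hm3, cond_true, Bool.and_eq_true] at h7
              rcases le_total (4096 * a 3) (((L3 + U3) / 2 : ℕ) : ℝ) with hs | hs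
              · exact ih _ _ _ _ _ _ _ _ _ _ hl0 hl1 hl2 hl3 b4 c0 hu1 hu2 hs hu4 d0 hu1' hu2' (hmid hl3 hu3 hu3') hu4' h7.1
              · exact ih _ _ _ _ _ _ _ _ _ _ hl0 hl1 hl2 hs b4 c0 hu1 hu2 hu3 hu4 d0 hu1' hu2' hu3' hu4' h7.2
            | false =>
              simp only [hm3, cond_false, Bool.and_eq_true] at h7
              rcases le_total (4096 * a 4) (((l4 + V4) / 2 : ℕ) : ℝ) with hs | hs
              · exact ih _ _ _ _ _ _ _ _ _ _ hl0 hl1 hl2 hl3 b4 c0 hu1 hu2 hu3 hs d0 hu1' hu2' hu3' (hmid b4 hu4 hu4') h7.1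
              · exact ih _ _ _ _ _ _ _ _ _ _ hl0 hl1 hl2 hl3 hs c0 hu1 hu2 hu3 hu4 d0 hu1' hu2' hu3' hu4' h7.2

/-- The closure: a successful run of the checker contradicts the real hypotheses. -/
theorem closure (h : Hyp p k a q) (hk : 6 ≤ k) (hKk : K ≤ k) (hok : Par.ok K p = true) {fuel : ℕ}
    (hrun : cover p fuel 0 0 0 0 0 4096 4096 4096 4096 4096 = true) : False := by
  have hb : ∀ i, (0 : ℝ) ≤ 4096 * a i := fun i => by have := h.aNN i; positivity
  have hu : ∀ i, 4096 * a i ≤ ((4096 : ℕ) : ℝ) := fun i => by have := h.one i; push_cast; linarith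
  refine cover_false h hk hKk hok fuel 0 0 0 0 0 4096 4096 4096 4096 4096 ?_ ?_ ?_ ?_ ?_ (hu 0) (hu 1)
    (hu 2) (hu 3) (hu 4) le_rfl le_rfl le_rfl le_rfl le_rfl hrun
  all_goals (simp only [Nat.cast_zero]; exact hb _)

end Vale.Agent.Lib.P226K.BB
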