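import Mathlib.Data.Rat.Defs
import Mathlib.Algebra.Order.Field.Rat
import Mathlib.Tactic.NormNum

/-!
The branch and bound checker for the closure of the all-`k` step: computable part, natural number
arithmetic with the scales `G = 4096`, `S = 2^20`, `W = G S = 2^32`.
-/

namespace Vale.Agent.Lib.P226K.BB

/-- maximum of two numbers -/
def nmx (a b : ℕ) : ℕ := cond (Nat.ble a b) b a

/-- minimum of two numbers -/
def nmn (a b : ℕ) : ℕ := cond (Nat.ble a b) a b

/-- Data of a level of the tail bound. -/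
structure Lev where
  D : ℚ
  am : ℚ
  ents : List (ℚ × ℚ)
  Gq : ℚ
  D2 : ℕ
  sig : ℕ
  Gn : ℕ
  amN : ℕ
  amD : ℕ

/-- Data of an entry of the floor table. -/
structure Fl where
  D : ℚ
  th : ℚ
  D2 : ℕ
  As : ℕ
  F : ℕ

/-- The parameters of one run. -/
structure Par where
  l0 : ℕ × ℕ
  ls : List (ℕ × ℕ)
  mu : ℕ
  C : ℕ
  M94 : ℕ
  levels : List Lev
  fl3 : List Fl
  fl4 : List Fl
  fm3 : ℕ
  fm4 : ℕ

/-- The lower bound for `W q` given by the lines at `a = l / G`. -/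
def qlow : List (ℕ × ℕ) → ℕ → ℕ
  | [], _ => 0
  | (P, Z) :: t, l => nmx (P * l - Z * 4096) (qlow t l)

/-- The lower bound for `W (q - μ a²) + C` on `l ≤ G a ≤ u`. -/
def gbox (mu C : ℕ) : List (ℕ × ℕ) → ℕ → ℕ → ℕ
  | [], _, _ => 0
  | (P, Z) :: t, l, u =>
      nmx (nmn (P * l + C - (Z * 4096 + mu * (l * l))) (P * u + C - (Z * 4096 + mu * (u * u))))
        (gbox mu C t l u)

/-- The value of the upper bound for `a² + κ (1 - q)` at one end. -/
def hval (tc P Z x : ℕ) : ℕ :=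
  x * x * 209715200 + (tc * (Z * 4096 + 4294967296) - tc * P * x)

/-- The upper bound for `a² + κ (1 - q)` for one line. -/
def hmax (tc : ℕ) (L : ℕ × ℕ) (l u : ℕ) : ℕ :=
  nmx (hval tc L.1 L.2 l) (hval tc L.1 L.2 u)

/-- The best upper bound among the lines. -/
def hfold (tc : ℕ) : List (ℕ × ℕ) → ℕ → ℕ → ℕ → ℕ
  | [], acc, _, _ => acc
  | L :: t, acc, l, u => hfold tc t (nmn acc (hmax tc L l u)) l u

/-- The thickness test for one pair. -/
def optOK (n D2 sig L RA RB : ℕ) : Bool :=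
  Nat.ble (n * n * D2 + RA * RA + n * n * L * sig) (n * n * L * RA) &&
    Nat.ble (n * n * D2 + RB * RB + n * n * L * sig) (n * n * L * RB)

/-- The thickness test with `n ≤ 2`. -/
def any2 (D2 sig l0 l1 l2 u1 u2 : ℕ) : Bool :=
  optOK 1 D2 sig (l0 * l0) (l1 * l1) (u1 * u1) || optOK 2 D2 sig (l1 * l1) (l2 * l2) (u2 * u2)

/-- The thickness test with `n ≤ 3`. -/
def any3 (D2 sig l0 l1 l2 l3 u1 u2 u3 : ℕ) : Bool :=
  any2 D2 sig l0 l1 l2 u1 u2 || optOK 3 D2 sig (l2 * l2) (l3 * l3) (u3 * u3)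

/-- The thickness test with `n ≤ 4`. -/
def any4 (D2 sig l0 l1 l2 l3 l4 u1 u2 u3 u4 : ℕ) : Bool :=
  any3 D2 sig l0 l1 l2 l3 u1 u2 u3 || optOK 4 D2 sig (l3 * l3) (l4 * l4) (u4 * u4)

/-- The rule with a level of the tail bound. -/
def lagRule (l0 l1 l2 l3 l4 u1 u2 u3 u4 g M94 C rem : ℕ) : List Lev → Bool
  | [] => false
  | lev :: t =>
      cond (Nat.ble (4294967296 + 5 * C) (g + lev.Gn + M94))
        ((Nat.ble (709 * rem * lev.amD) (lev.amN * 200 * 4294967296) &&
            any4 lev.D2 lev.sig l0 l1 l2 l3 l4 u1 u2 u3 u4) ||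
          lagRule l0 l1 l2 l3 l4 u1 u2 u3 u4 g M94 C rem t)
        false

/-- The floor rule for `b = 3`. -/
def floor3 (l0 l1 l2 u1 u2 u3 sig : ℕ) : List Fl → Bool
  | [] => false
  | e :: t =>
      (Nat.ble u3 e.F && Nat.ble sig e.As && any2 e.D2 sig l0 l1 l2 u1 u2) ||
        floor3 l0 l1 l2 u1 u2 u3 sig t

/-- The floor rule for `b = 4`. -/
def floor4 (l0 l1 l2 l3 u1 u2 u3 u4 sig : ℕ) : List Fl → Bool
  | [] => false
  | e :: t =>
      (Nat.ble u4 e.F && Nat.ble sig e.As && any3 e.D2 sig l0 l1 l2 l3 u1 u2 u3) ||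
        floor4 l0 l1 l2 l3 u1 u2 u3 u4 sig t

/-- All rules at a tightened box. -/
def rules (p : Par) (l0 l1 l2 l3 l4 u0 u1 u2 u3 u4 : ℕ) : Bool :=
  let lines := p.l0 :: p.ls
  let Q0 := qlow lines l0
  let Q1 := qlow lines l1
  let Q2 := qlow lines l2
  let Q3 := qlow lines l3
  let Q4 := qlow lines l4
  let Qs := Q0 + Q1 + Q2 + Q3 + Q4
  Nat.blt 4294967296 Qs ||
    (let rem := 4294967296 - Qs
     let g := gbox p.mu p.C lines l0 u0 + gbox p.mu p.C lines l1 u1 + gbox p.mu p.C lines l2 u2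
        + gbox p.mu p.C lines l3 u3 + gbox p.mu p.C lines l4 u4
     (Nat.ble (709 * rem * 5) (4 * 200 * 4294967296) &&
        Nat.ble (4294967296 + 5 * p.C) (g + p.M94)) ||
     (let t := nmn u4 (709 * rem / (200 * 1048576) + 1)
      let tc := t * 709
      let H := hfold tc p.ls (hmax tc p.l0 l0 u0) l0 u0 + hfold tc p.ls (hmax tc p.l0 l1 u1) l1 u1
        + hfold tc p.ls (hmax tc p.l0 l2 u2) l2 u2 + hfold tc p.ls (hmax tc p.l0 l3 u3) l3 u3
        + hfold tc p.ls (hmax tc p.l0 l4 u4) l4 u4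
      Nat.blt (4 * H) (9 * 3518437208883200 + 16 * tc * 4294967296)) ||
     lagRule l0 l1 l2 l3 l4 u1 u2 u3 u4 g p.M94 p.C rem p.levels ||
     (Nat.blt u3 p.fm3 &&
        floor3 l0 l1 l2 u1 u2 u3 ((u3 * 709 * (4294967296 - (Q0 + Q1 + Q2)) * 4096) / (200 * 4294967296) + 1)
          p.fl3) ||
     (Nat.blt u4 p.fm4 &&
        floor4 l0 l1 l2 l3 u1 u2 u3 u4
          ((u4 * 709 * (4294967296 - (Q0 + Q1 + Q2 + Q3)) * 4096) / (200 * 4294967296) + 1) p.fl4))

/-- Evaluate a number before using it. -/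
def lit (n : ℕ) (f : ℕ → Bool) : Bool :=
  Nat.rec (f 0) (fun m _ => f (Nat.succ m)) n

/-- The recursive cover: split the widest side. -/
def cover (p : Par) : ℕ → ℕ → ℕ → ℕ → ℕ → ℕ → ℕ → ℕ → ℕ → ℕ → ℕ → Bool
  | 0, _, _, _, _, _, _, _, _, _, _ => false
  | fuel + 1, l0, l1, l2, l3, l4, u0, u1, u2, u3, u4 =>
      lit (nmn u1 u0) fun u1' => lit (nmn u2 u1') fun u2' => lit (nmn u3 u2') fun u3' =>
      lit (nmn u4 u3') fun u4' => lit (nmx l3 l4) fun l3' => lit (nmx l2 l3') fun l2' =>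
      lit (nmx l1 l2') fun l1' => lit (nmx l0 l1') fun l0' =>
      Nat.blt u0 l0' || Nat.blt u1' l1' || Nat.blt u2' l2' || Nat.blt u3' l3' || Nat.blt u4' l4 ||
      rules p l0' l1' l2' l3' l4 u0 u1' u2' u3' u4' ||
      (lit (u0 - l0') fun w0 => lit (u1' - l1') fun w1 => lit (u2' - l2') fun w2 =>
       lit (u3' - l3') fun w3 => lit (u4' - l4) fun w4 =>
       lit (nmx w0 (nmx w1 (nmx w2 (nmx w3 w4)))) fun m =>
       cond (Nat.ble m w0)
         (lit ((l0' + u0) / 2) fun c =>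
            cover p fuel l0' l1' l2' l3' l4 c u1' u2' u3' u4' &&
            cover p fuel c l1' l2' l3' l4 u0 u1' u2' u3' u4')
         (cond (Nat.ble m w1)
           (lit ((l1' + u1') / 2) fun c =>
              cover p fuel l0' l1' l2' l3' l4 u0 c u2' u3' u4' &&
              cover p fuel l0' c l2' l3' l4 u0 u1' u2' u3' u4')
           (cond (Nat.ble m w2)
             (lit ((l2' + u2') / 2) fun c =>
                cover p fuel l0' l1' l2' l3' l4 u0 u1' c u3' u4' &&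
                cover p fuel l0' l1' c l3' l4 u0 u1' u2' u3' u4')
             (cond (Nat.ble m w3)
               (lit ((l3' + u3') / 2) fun c =>
                  cover p fuel l0' l1' l2' l3' l4 u0 u1' u2' c u4' &&
                  cover p fuel l0' l1' l2' c l4 u0 u1' u2' u3' u4')
               (lit ((l4 + u4') / 2) fun c =>
                  cover p fuel l0' l1' l2' l3' l4 u0 u1' u2' u3' c &&
                  cover p fuel l0' l1' l2' l3' c u0 u1' u2' u3' u4')))))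

end Vale.Agent.Lib.P226K.BB
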