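import Vale.Agent.Lib.P226K.BBDefs
import Mathlib

/-!
Real valued specifications of the arithmetic of the checker.
-/

namespace Vale.Agent.Lib.P226K.BB

theorem nmx_eq (a b : ℕ) : nmx a b = max a b := by
  unfold nmx
  by_cases h : a ≤ b
  · rw [Nat.ble_eq_true_of_le h, max_eq_right h]; rfl
  · have h' : Nat.ble a b = false := by
      rw [← Bool.not_eq_true, Nat.ble_eq]; exact h
    rw [h', max_eq_left (by omega)]; rfl

theorem nmn_eq (a b : ℕ) : nmn a b = min a b := by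
  unfold nmn
  by_cases h : a ≤ b
  · rw [Nat.ble_eq_true_of_le h, min_eq_left h]; rfl
  · have h' : Nat.ble a b = false := by
      rw [← Bool.not_eq_true, Nat.ble_eq]; exact h
    rw [h', min_eq_right (by omega)]; rfl

theorem lit_eq (n : ℕ) (f : ℕ → Bool) : lit n f = f n := by
  cases n <;> rfl

/-- A truncated difference is at least the real difference. -/
theorem cast_sub_ge (x y : ℕ) : (x : ℝ) - y ≤ ((x - y : ℕ) : ℝ) := by
  by_cases h : y ≤ x
  · rw [Nat.cast_sub h]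
  · have h1 : x - y = 0 := by omega
    have h2 : (x : ℝ) ≤ y := by exact_mod_cast (by omega : x ≤ y)
    rw [h1]; simp only [Nat.cast_zero]; linarith

/-- Concavity: a concave quadratic on an interval is at least the minimum of its end values. -/
theorem concave_min {α β m l u X : ℝ} (hm : 0 ≤ m) (hl : l ≤ X) (hu : X ≤ u) :
    min (α * l + β - m * l ^ 2) (α * u + β - m * u ^ 2) ≤ α * X + β - m * X ^ 2 := by
  by_cases hlu : l = u
  · have h1 : X = l := le_antisymm (by rw [hlu]; exact hu) hl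
    rw [h1]; exact min_le_left _ _
  have hlt : l < u := lt_of_le_of_ne (hl.trans hu) hlu
  have hd : 0 < u - l := by linarith
  set A := α * l + β - m * l ^ 2 with hA
  set B := α * u + β - m * u ^ 2 with hB
  set V := α * X + β - m * X ^ 2 with hV
  have key : (u - l) * V = (u - X) * A + (X - l) * B + m * (X - l) * (u - X) * (u - l) := by
    rw [hA, hB, hV]; ring
  have h1 : min A B ≤ A := min_le_left _ _
  have h2 : min A B ≤ B := min_le_right _ _
  have h3 : 0 ≤ m * (X - l) * (u - X) * (u - l) := by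
    have : 0 ≤ X - l := by linarith
    have : 0 ≤ u - X := by linarith
    positivity
  have h4 : (u - l) * min A B ≤ (u - l) * V := by
    rw [key]
    have h5 : (u - X) * min A B ≤ (u - X) * A :=
      mul_le_mul_of_nonneg_left h1 (by linarith)
    have h6 : (X - l) * min A B ≤ (X - l) * B :=
      mul_le_mul_of_nonneg_left h2 (by linarith)
    nlinarith
  exact le_of_mul_le_mul_left h4 hd

/-- Convexity: a convex quadratic on an interval is at most the maximum of its end values. -/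
theorem convex_max {α β m l u X : ℝ} (hm : 0 ≤ m) (hl : l ≤ X) (hu : X ≤ u) :
    m * X ^ 2 + α * X + β ≤ max (m * l ^ 2 + α * l + β) (m * u ^ 2 + α * u + β) := by
  have h := concave_min (α := -α) (β := -β) hm hl hu
  have e1 : -α * l + -β - m * l ^ 2 = -(m * l ^ 2 + α * l + β) := by ring
  have e2 : -α * u + -β - m * u ^ 2 = -(m * u ^ 2 + α * u + β) := by ring
  have e3 : -α * X + -β - m * X ^ 2 = -(m * X ^ 2 + α * X + β) := by ring
  rw [e1, e2, e3, min_neg_neg] at h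
  linarith

/-- Specification of `qlow`. -/
theorem qlow_spec (L : List (ℕ × ℕ)) {l : ℕ} {x q : ℝ} (hq : 0 ≤ q) (hl : (l : ℝ) ≤ 4096 * x)
    (hL : ∀ e ∈ L, (e.1 : ℝ) * x - e.2 ≤ 1048576 * q) :
    (qlow L l : ℝ) ≤ 4294967296 * q := by
  induction L with
  | nil => simp only [qlow, Nat.cast_zero]; positivity
  | cons e t ih =>
    obtain ⟨P, Z⟩ := e
    simp only [qlow, nmx_eq]
    rw [Nat.cast_max]
    refine max_le ?_ (ih fun e he => hL e (List.mem_cons_of_mem _ he))
    have h1 := hL (P, Z) List.mem_cons_self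
    simp only at h1
    by_cases h : Z * 4096 ≤ P * l
    · rw [Nat.cast_sub h]
      push_cast
      have hP : (0 : ℝ) ≤ P := Nat.cast_nonneg P
      have h2 : (P : ℝ) * l ≤ P * (4096 * x) := mul_le_mul_of_nonneg_left hl hP
      nlinarith
    · have h0 : P * l - Z * 4096 = 0 := by omega
      rw [h0]
      simp only [Nat.cast_zero]
      positivity

/-- Specification of `gbox`. -/
theorem gbox_spec (mu C : ℕ) (L : List (ℕ × ℕ)) {l u : ℕ} {x q : ℝ} (hq : 0 ≤ q)
    (hl : (l : ℝ) ≤ 4096 * x) (hux : 4096 * x ≤ u) (hu : u ≤ 4096)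
    (hC0 : mu * (4096 * 4096) ≤ C) (hC : ∀ e ∈ L, e.2 * 4096 + mu * (4096 * 4096) ≤ C)
    (hL : ∀ e ∈ L, (e.1 : ℝ) * x - e.2 ≤ 1048576 * q) :
    (gbox mu C L l u : ℝ) ≤ 4294967296 * (q - (mu / 256) * x ^ 2) + C := by
  have hlu : (l : ℝ) ≤ u := hl.trans hux
  have hlu' : l ≤ u := by exact_mod_cast hlu
  have hl0 : (0 : ℝ) ≤ l := Nat.cast_nonneg l
  have hu' : (u : ℝ) ≤ 4096 := by exact_mod_cast hu
  have hX0 : 0 ≤ 4096 * x := hl0.trans hl
  have hXu : 4096 * x ≤ 4096 := hux.trans hu'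
  have hmu : (0 : ℝ) ≤ mu := Nat.cast_nonneg mu
  have hC0' : (mu : ℝ) * (4096 * 4096) ≤ C := by exact_mod_cast hC0
  induction L with
  | nil =>
    simp only [gbox, Nat.cast_zero]
    have h1 : (4096 * x) ^ 2 ≤ 4096 ^ 2 := pow_le_pow_left₀ hX0 hXu 2
    have h2 : (mu : ℝ) * (4096 * x) ^ 2 ≤ mu * 4096 ^ 2 := mul_le_mul_of_nonneg_left h1 hmu
    nlinarith
  | cons e t ih =>
    obtain ⟨P, Z⟩ := e
    simp only [gbox, nmx_eq, nmn_eq]
    rw [Nat.cast_max]
    refine max_le ?_ (ih (fun e he => hC e (List.mem_cons_of_mem _ he))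
      fun e he => hL e (List.mem_cons_of_mem _ he))
    have h1 := hL (P, Z) List.mem_cons_self
    have hCZ := hC (P, Z) List.mem_cons_self
    simp only at h1 hCZ
    have hlu4 : l ≤ 4096 := hlu'.trans hu
    have hll : l * l ≤ 4096 * 4096 := Nat.mul_le_mul hlu4 hlu4
    have huu : u * u ≤ 4096 * 4096 := Nat.mul_le_mul hu hu
    have e1 : ((P * l + C - (Z * 4096 + mu * (l * l)) : ℕ) : ℝ) =
        (P : ℝ) * l + C - Z * 4096 - mu * (l : ℝ) ^ 2 := by
      have : Z * 4096 + mu * (l * l) ≤ P * l + C := by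
        have h5 : mu * (l * l) ≤ mu * (4096 * 4096) := Nat.mul_le_mul_left mu hll
        have h6 : Z * 4096 + mu * (l * l) ≤ Z * 4096 + mu * (4096 * 4096) := Nat.add_le_add_left h5 _
        exact (h6.trans hCZ).trans (Nat.le_add_left _ _)
      rw [Nat.cast_sub this]
      push_cast
      ring
    have e2 : ((P * u + C - (Z * 4096 + mu * (u * u)) : ℕ) : ℝ) =
        (P : ℝ) * u + C - Z * 4096 - mu * (u : ℝ) ^ 2 := by
      have : Z * 4096 + mu * (u * u) ≤ P * u + C := by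
        have h5 : mu * (u * u) ≤ mu * (4096 * 4096) := Nat.mul_le_mul_left mu huu
        have h6 : Z * 4096 + mu * (u * u) ≤ Z * 4096 + mu * (4096 * 4096) := Nat.add_le_add_left h5 _
        exact (h6.trans hCZ).trans (Nat.le_add_left _ _)
      rw [Nat.cast_sub this]
      push_cast
      ring
    rw [Nat.cast_min, e1, e2]
    have hc := concave_min (α := (P : ℝ)) (β := (C : ℝ) - Z * 4096) hmu hl hux
    have e3 : (P : ℝ) * l + C - Z * 4096 - mu * (l : ℝ) ^ 2 = P * l + (C - Z * 4096) - mu * (l : ℝ) ^ 2 := by ring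
    have e4 : (P : ℝ) * u + C - Z * 4096 - mu * (u : ℝ) ^ 2 = P * u + (C - Z * 4096) - mu * (u : ℝ) ^ 2 := by ring
    rw [e3, e4]
    refine hc.trans ?_
    nlinarith

/-- Specification of `hmax`. -/
theorem hmax_spec (tc : ℕ) {e : ℕ × ℕ} {l u : ℕ} {x q : ℝ}
    (hl : (l : ℝ) ≤ 4096 * x) (hux : 4096 * x ≤ u)
    (hL : (e.1 : ℝ) * x - e.2 ≤ 1048576 * q) :
    x ^ 2 * 3518437208883200 + (tc : ℝ) * 4294967296 * (1 - q) ≤ (hmax tc e l u : ℝ) := by
  obtain ⟨P, Z⟩ := e
  simp only at hL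
  have htc : (0 : ℝ) ≤ tc := Nat.cast_nonneg tc
  have hv : ∀ y : ℕ, (y : ℝ) ^ 2 * 209715200 + ((tc : ℝ) * (Z * 4096 + 4294967296) - tc * P * y)
      ≤ (hval tc P Z y : ℝ) := by
    intro y
    unfold hval
    push_cast
    have := cast_sub_ge (tc * (Z * 4096 + 4294967296)) (tc * P * y)
    push_cast at this
    nlinarith
  have hc := convex_max (m := 209715200) (α := -((tc : ℝ) * P))
    (β := (tc : ℝ) * (Z * 4096 + 4294967296)) (by norm_num) hl hux
  have h1 : x ^ 2 * 3518437208883200 + (tc : ℝ) * 4294967296 * (1 - q) ≤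
      209715200 * (4096 * x) ^ 2 + -((tc : ℝ) * P) * (4096 * x) + (tc : ℝ) * (Z * 4096 + 4294967296) := by
    have h2 : (tc : ℝ) * 4096 * ((P : ℝ) * x - Z) ≤ (tc : ℝ) * 4096 * (1048576 * q) :=
      mul_le_mul_of_nonneg_left hL (by positivity)
    nlinarith
  refine h1.trans (hc.trans ?_)
  simp only [hmax, nmx_eq]
  rw [Nat.cast_max]
  apply max_le_max
  · have := hv l; linarith
  · have := hv u; linarith

/-- Specification of `hfold`. -/
theorem hfold_spec (tc : ℕ) (L : List (ℕ × ℕ)) {acc l u : ℕ} {x q : ℝ}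
    (hl : (l : ℝ) ≤ 4096 * x) (hux : 4096 * x ≤ u)
    (hL : ∀ e ∈ L, (e.1 : ℝ) * x - e.2 ≤ 1048576 * q)
    (hacc : x ^ 2 * 3518437208883200 + (tc : ℝ) * 4294967296 * (1 - q) ≤ (acc : ℝ)) :
    x ^ 2 * 3518437208883200 + (tc : ℝ) * 4294967296 * (1 - q) ≤ (hfold tc L acc l u : ℝ) := by
  induction L generalizing acc with
  | nil => exact hacc
  | cons e t ih =>
    simp only [hfold]
    refine ih (fun e he => hL e (List.mem_cons_of_mem _ he)) ?_
    rw [nmn_eq, Nat.cast_min]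
    exact le_min hacc (hmax_spec tc hl hux (hL e List.mem_cons_self))

/-- Specification of `optOK`. -/
theorem optOK_spec {n D2 sig L RA RB : ℕ} (hn : 0 < n) (hD2 : 0 < D2)
    (h : optOK n D2 sig L RA RB = true) {A R σ : ℝ} (hA : (L : ℝ) ≤ A)
    (hR1 : (RA : ℝ) ≤ R) (hR2 : R ≤ RB) (hσ : σ ≤ sig) :
    (D2 : ℝ) ≤ A * (R - σ) - R ^ 2 / (n : ℝ) ^ 2 := by
  simp only [optOK, Bool.and_eq_true, Nat.ble_eq] at h
  obtain ⟨h1, h2⟩ := h
  have hn' : (0 : ℝ) < n := by exact_mod_cast hn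
  have hnn : (0 : ℝ) < (n : ℝ) ^ 2 := by positivity
  have hL0 : (0 : ℝ) ≤ L := Nat.cast_nonneg L
  have hD2' : (0 : ℝ) < D2 := by exact_mod_cast hD2
  have h1' : (n : ℝ) * n * D2 + RA * RA + n * n * L * sig ≤ n * n * L * RA := by exact_mod_cast h1
  have h2' : (n : ℝ) * n * D2 + RB * RB + n * n * L * sig ≤ n * n * L * RB := by exact_mod_cast h2
  -- `L > 0` and `RA ≥ sig`
  have hRA0 : (0 : ℝ) ≤ RA := Nat.cast_nonneg RA
  have hsigRA : (sig : ℝ) ≤ RA := by
    by_contra hcon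
    push Not at hcon
    have h3 : (n : ℝ) * n * L * RA ≤ n * n * L * sig :=
      mul_le_mul_of_nonneg_left hcon.le (by positivity)
    have h4 : 0 < (n : ℝ) * n * D2 := by positivity
    nlinarith [mul_self_nonneg (RA : ℝ)]
  -- concavity in `R`
  have hc := concave_min (m := 1) (α := (n : ℝ) * n * L) (β := -((n : ℝ) * n * L * sig)) (by norm_num)
    hR1 hR2
  have hm : (n : ℝ) * n * D2 ≤ min ((n : ℝ) * n * L * RA + -((n : ℝ) * n * L * sig) - 1 * (RA : ℝ) ^ 2)
      ((n : ℝ) * n * L * RB + -((n : ℝ) * n * L * sig) - 1 * (RB : ℝ) ^ 2) := by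
    apply le_min <;> nlinarith
  have h5 := hm.trans hc
  have hRσ : 0 ≤ R - σ := by
    have : (sig : ℝ) ≤ R := hsigRA.trans hR1
    linarith
  have h6 : (L : ℝ) * (R - sig) ≤ A * (R - σ) := by
    have h7 : (L : ℝ) * (R - sig) ≤ L * (R - σ) :=
      mul_le_mul_of_nonneg_left (by linarith) hL0
    have h8 : (L : ℝ) * (R - σ) ≤ A * (R - σ) := mul_le_mul_of_nonneg_right hA hRσ
    exact h7.trans h8
  rw [le_sub_iff_add_le, ← le_sub_iff_add_le', ]
  rw [div_le_iff₀ hnn]
  have h9 : (n : ℝ) ^ 2 * ((L : ℝ) * (R - sig)) ≤ (n : ℝ) ^ 2 * (A * (R - σ)) :=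
    mul_le_mul_of_nonneg_left h6 hnn.le
  nlinarith

theorem cast_div_succ (x y : ℕ) (hy : 0 < y) : (x : ℝ) ≤ (y : ℝ) * ((x / y + 1 : ℕ) : ℝ) := by
  have h : x < y * (x / y + 1) := Nat.lt_mul_div_succ x hy
  exact_mod_cast h.le

end Vale.Agent.Lib.P226K.BB
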