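import Vale.Agent.Lib.P226K.BBSound

/-!
Soundness of the rules of the checker at one box, and of the recursive cover.
-/

open Finset

namespace Vale.Agent.Lib.P226K.BB

variable {p : Par} {k K : ℕ} {a q : ℕ → ℝ}

/-- The Boolean checks of the parameters, unpacked. -/
theorem Par.ok_spec (hok : Par.ok K p = true) :
    (∀ L ∈ p.levels, Lev.ok K ((p.mu : ℚ) / 256) L = true) ∧ (∀ e ∈ p.fl3, Fl.ok 3 e = true) ∧
    (∀ e ∈ p.fl4, Fl.ok 4 e = true) ∧ p.mu * (4096 * 4096) ≤ p.C ∧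
    (∀ e ∈ p.l0 :: p.ls, e.2 * 4096 + p.mu * (4096 * 4096) ≤ p.C) ∧
    p.M94 = p.mu * 37748736 ∧ p.mu * 2836 ≤ 256000 ∧ 0 < p.mu := by
  simp only [Par.ok, Bool.and_eq_true, List.all_eq_true, Nat.ble_eq, Nat.beq_eq] at hok
  obtain ⟨⟨⟨⟨⟨⟨⟨h1, h2⟩, h3⟩, h4⟩, h5⟩, h6⟩, h7⟩, h8⟩ := hok
  exact ⟨h1, h2, h3, h4, h5, h6, h7, (blt_iff _ _).1 h8⟩

section cases

variable (h : Hyp p k a q)
include h

/-- The rule with the empty tail bound. -/
theorem case_lag0 {rem C g M94 mu : ℕ} (hk : 6 ≤ k) (hmu : 0 < mu) (hM : M94 = mu * 37748736)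
    (hmu2 : mu * 2836 ≤ 256000)
    (hgs : (g : ℝ) ≤ ∑ i ∈ range 5, (4294967296 * (q i - ((mu : ℝ) / 256) * (a i) ^ 2) + C))
    (hremtq : 4294967296 * ∑ i ∈ Ico 5 k, q i ≤ (rem : ℝ))
    (h1 : Nat.ble (709 * rem * 5) (4 * 200 * 4294967296) = true)
    (h2 : Nat.ble (4294967296 + 5 * C) (g + M94) = true) : False := by
  have h1' : (709 : ℝ) * rem * 5 ≤ 4 * 200 * 4294967296 := by exact_mod_cast Nat.le_of_ble_eq_true h1
  have hA5 := h.tailA 5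
  have hmu0 : (0 : ℝ) < mu := by exact_mod_cast hmu
  refine lag_final h hk (Gn := 0) (Gt := 0) hmu hM hgs (by simp) ?_ (by simpa using h2)
  refine Finset.sum_nonneg fun i hi => ?_
  obtain ⟨hi1, hi2⟩ := Finset.mem_Ico.mp hi
  have h3 := h.a_le_tailA hi1 hi2
  have h4 := h.haz i hi2
  have h5 := h.aNN i
  have h6 : a i ≤ 4 / 5 := by linarith
  have h7 : (mu : ℝ) * 2836 ≤ 256000 := by exact_mod_cast hmu2
  have h8 : ((mu : ℝ) / 256) * a i ≤ 200 / 709 := by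
    have : ((mu : ℝ) / 256) * a i ≤ ((mu : ℝ) / 256) * (4 / 5) :=
      mul_le_mul_of_nonneg_left h6 (by positivity)
    linarith
  nlinarith

/-- The rule bounding the total `T`. -/
theorem case_T {t H0 H1 H2 H3 H4 : ℕ} (hk : 6 ≤ k) (ha5t : 4096 * a 5 ≤ (t : ℝ))
    (e0 : (a 0) ^ 2 * 3518437208883200 + ((t * 709 : ℕ) : ℝ) * 4294967296 * (1 - q 0) ≤ H0)
    (e1 : (a 1) ^ 2 * 3518437208883200 + ((t * 709 : ℕ) : ℝ) * 4294967296 * (1 - q 1) ≤ H1)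
    (e2 : (a 2) ^ 2 * 3518437208883200 + ((t * 709 : ℕ) : ℝ) * 4294967296 * (1 - q 2) ≤ H2)
    (e3 : (a 3) ^ 2 * 3518437208883200 + ((t * 709 : ℕ) : ℝ) * 4294967296 * (1 - q 3) ≤ H3)
    (e4 : (a 4) ^ 2 * 3518437208883200 + ((t * 709 : ℕ) : ℝ) * 4294967296 * (1 - q 4) ≤ H4)
    (hT : Nat.blt (4 * (H0 + H1 + H2 + H3 + H4)) (9 * 3518437208883200 + 16 * (t * 709) * 4294967296) = true) :
    False := by
  have hT1 := (blt_iff _ _).1 hT
  have hT' : (4 : ℝ) * ((H0 : ℝ) + H1 + H2 + H3 + H4) < 9 * 3518437208883200 + 16 * ((t : ℝ) * 709) * 4294967296 := by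
    exact_mod_cast hT1
  have ht5 := h.tailQ (b := 5) (by omega)
  simp only [Finset.sum_range_succ, Finset.sum_range_zero, zero_add] at ht5
  have hA5 := h.tailA 5
  have hA50 := h.tailA_nonneg 5
  have hsig5 := h.sigma_le (b := 5)
  have hTsplit := Finset.sum_range_add_sum_Ico (fun i => (a i) ^ 2) (show 5 ≤ k by omega)
  simp only [Finset.sum_range_succ, Finset.sum_range_zero, zero_add] at hTsplit
  have hbig := h.big
  have ha50 := h.aNN 5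
  have ht0 : (0 : ℝ) ≤ t := Nat.cast_nonneg t
  have htq : 0 ≤ ∑ i ∈ Ico 5 k, q i := Finset.sum_nonneg fun i _ => h.qNN i
  generalize (∑ i ∈ Ico 5 k, q i) = tq at *
  generalize (∑ i ∈ Ico 5 k, a i) = ta at *
  generalize (∑ i ∈ Ico 5 k, (a i) ^ 2) = s5 at *
  generalize (∑ i ∈ range k, (a i) ^ 2) = Tt at *
  have h9 : a 5 * ta ≤ ((t : ℝ) / 4096) * ((709 / 200) * tq) :=
    mul_le_mul (by linarith) hA5 hA50 (by positivity)
  push_cast at e0 e1 e2 e3 e4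
  set w := (t : ℝ) * 709 * 4294967296 with hw
  have hs5le : 3518437208883200 * s5 ≤ w * tq := by
    rw [hw]
    nlinarith
  have e6 : w * (1 - q 0) + w * (1 - q 1) + w * (1 - q 2) + w * (1 - q 3) + w * (1 - q 4)
      = w * tq + 4 * w := by
    rw [ht5]
    ring
  have hT'' : (4 : ℝ) * ((H0 : ℝ) + H1 + H2 + H3 + H4) < 9 * 3518437208883200 + 16 * w := by
    rw [hw]; linarith
  linarith

/-- The rule with a level of the tail bound. -/
theorem case_lev {lev : Lev} {C g M94 mu rem l0 l1 l2 l3 l4 u1 u2 u3 u4 : ℕ} (hk : 6 ≤ k) (hKk : K ≤ k)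
    (hmu : 0 < mu) (hM : M94 = mu * 37748736)
    (hgs : (g : ℝ) ≤ ∑ i ∈ range 5, (4294967296 * (q i - ((mu : ℝ) / 256) * (a i) ^ 2) + C))
    (hremtq : 4294967296 * ∑ i ∈ Ico 5 k, q i ≤ (rem : ℝ))
    (hlo : Lev.ok K ((mu : ℚ) / 256) lev = true)
    (b0 : (l0 : ℝ) ≤ 4096 * a 0) (b1 : (l1 : ℝ) ≤ 4096 * a 1) (b2 : (l2 : ℝ) ≤ 4096 * a 2)
    (b3 : (l3 : ℝ) ≤ 4096 * a 3) (b4 : (l4 : ℝ) ≤ 4096 * a 4)
    (c1 : 4096 * a 1 ≤ u1) (c2 : 4096 * a 2 ≤ u2) (c3 : 4096 * a 3 ≤ u3) (c4 : 4096 * a 4 ≤ u4)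
    (h1 : Nat.ble (4294967296 + 5 * C) (g + lev.Gn + M94) = true)
    (h2 : Nat.ble (709 * rem * lev.amD) (lev.amN * 200 * 4294967296) = true)
    (h3 : any4 lev.D2 lev.sig l0 l1 l2 l3 l4 u1 u2 u3 u4 = true) : False := by
  simp only [Lev.ok, Bool.and_eq_true, decide_eq_true_eq] at hlo
  obtain ⟨⟨⟨⟨⟨⟨⟨⟨⟨⟨hl1, hl2⟩, hl3⟩, hl4⟩, hl5⟩, hl6⟩, hl7⟩, hl8⟩, hl9⟩, hl10⟩, hl11⟩ := hlo
  have hl3' : (lev.am : ℝ) * (709 / 200) * (((mu : ℚ) / 256 : ℚ) : ℝ) ≤ 1 := by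
    have h0 := (Rat.cast_le (K := ℝ)).2 hl3
    push_cast at h0 ⊢
    exact h0
  have hl4' : (lev.D : ℝ) ^ 2 * 4096 ^ 4 ≤ (lev.D2 : ℝ) := by exact_mod_cast hl4
  have hl6' : (0 : ℝ) < (lev.amD : ℝ) := by exact_mod_cast hl6
  have hl7' : (lev.amN : ℝ) ≤ (lev.am : ℝ) * (lev.amD : ℝ) := by exact_mod_cast hl7
  have hl8' : (lev.Gn : ℝ) ≤ (lev.Gq : ℝ) * 4294967296 := by exact_mod_cast hl8
  have hl9' : (lev.Gq : ℝ) ≤ ((entsSum ((mu : ℚ) / 256) lev.am lev.ents : ℚ) : ℝ) := by exact_mod_cast hl9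
  have h2' : (709 : ℝ) * rem * lev.amD ≤ lev.amN * 200 * 4294967296 := by
    exact_mod_cast Nat.le_of_ble_eq_true h2
  have hA5 := h.tailA 5
  have hAam : ∑ i ∈ Ico 5 k, a i ≤ (lev.am : ℝ) := by
    refine hA5.trans ?_
    generalize (∑ i ∈ Ico 5 k, q i) = tq at *
    have h5 : (709 : ℝ) * (4294967296 * tq) * lev.amD ≤ 709 * rem * lev.amD :=
      mul_le_mul_of_nonneg_right (mul_le_mul_of_nonneg_left hremtq (by norm_num)) hl6'.le
    have h6 : (lev.amN : ℝ) * 200 * 4294967296 ≤ lev.am * lev.amD * 200 * 4294967296 :=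
      mul_le_mul_of_nonneg_right (mul_le_mul_of_nonneg_right hl7' (by norm_num)) (by norm_num)
    have h7 : (lev.amD : ℝ) * ((709 / 200) * tq) * (200 * 4294967296) ≤
        lev.amD * lev.am * (200 * 4294967296) := by linarith
    have h8 := le_of_mul_le_mul_right h7 (by norm_num)
    exact le_of_mul_le_mul_left h8 hl6'
  have hT0 := any4_real (x := a) (D := (lev.D : ℝ)) (σ := (lev.sig : ℝ) / 4096 ^ 2) hl5 h3
    b0 b1 b2 b3 b4 c1 c2 c3 c4 (by field_simp; exact le_refl _) hl4'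
  have hE := h.ents_bound (D := lev.D) (am := lev.am) (mu := (mu : ℚ) / 256) (sig := lev.sig) hl1 hl3'
    (by positivity) hAam hT0 lev.ents 5 (le_refl 5) (by omega) hl10
  have hE' : (lev.Gq : ℝ) ≤ ∑ i ∈ Ico 5 k, (q i - ((mu : ℝ) / 256) * (a i) ^ 2) := by
    refine hl9'.trans (hE.trans (le_of_eq ?_))
    refine Finset.sum_congr rfl fun i _ => ?_
    push_cast
    ring
  exact lag_final h hk hmu hM hgs (by linarith) hE' h1

/-- The variance bound used by the floor rules. -/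
theorem sig_bound {b u rem Qb : ℕ} (hbk : b < k) (hrem : ((rem : ℕ) : ℝ) = 4294967296 - Qb)
    (hu : 4096 * a b ≤ u)
    (hQb : (Qb : ℝ) ≤ 4294967296 * ∑ i ∈ range b, q i) :
    (∑ i ∈ Ico b k, (a i) ^ 2) * 4096 ^ 2 ≤ (((u * 709 * rem * 4096) / (200 * 4294967296) + 1 : ℕ) : ℝ) := by
  have h6 := cast_div_succ (u * 709 * rem * 4096) (200 * 4294967296) (by norm_num)
  generalize (((u * 709 * rem * 4096) / (200 * 4294967296) + 1 : ℕ) : ℝ) = S at *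
  push_cast at h6
  have ht := h.tailQ (b := b) hbk.le
  have hA := h.tailA b
  have hA0 := h.tailA_nonneg b
  have hs := h.sigma_le (b := b)
  have htq : 0 ≤ ∑ i ∈ Ico b k, q i := Finset.sum_nonneg fun i _ => h.qNN i
  have h7 : (∑ i ∈ Ico b k, (a i) ^ 2) ≤ ((u : ℝ) / 4096) * ((709 / 200) * ∑ i ∈ Ico b k, q i) :=
    hs.trans (mul_le_mul (by linarith) hA hA0 (by positivity))
  have h8 : 4294967296 * ∑ i ∈ Ico b k, q i ≤ (rem : ℝ) := by
    rw [ht, hrem]; linarith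
  have hu0 : (0 : ℝ) ≤ u := Nat.cast_nonneg u
  have h9 : (u : ℝ) * (4294967296 * ∑ i ∈ Ico b k, q i) ≤ u * rem :=
    mul_le_mul_of_nonneg_left h8 hu0
  generalize (∑ i ∈ Ico b k, q i) = tq at *
  generalize (∑ i ∈ Ico b k, (a i) ^ 2) = s at *
  have h10 : (u : ℝ) * 709 * rem * 4096 ≤ 200 * 4294967296 * S := by linarith only [h6]
  have h11 : s * 4096 ^ 2 ≤ (u : ℝ) * 4096 * (709 / 200) * tq := by
    have : s * 4096 ^ 2 ≤ ((u : ℝ) / 4096) * ((709 / 200) * tq) * 4096 ^ 2 :=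
      mul_le_mul_of_nonneg_right h7 (by norm_num)
    refine this.trans (le_of_eq ?_)
    ring
  have h12 : (u : ℝ) * 4096 * (709 / 200) * tq * (200 * 4294967296) ≤ (u : ℝ) * 709 * rem * 4096 := by
    have : (u : ℝ) * 4096 * (709 / 200) * tq * (200 * 4294967296) = 4096 * 709 * ((u : ℝ) * (4294967296 * tq)) := by ring
    rw [this]
    have e : (u : ℝ) * 709 * rem * 4096 = 4096 * 709 * ((u : ℝ) * rem) := by ring
    rw [e]
    exact mul_le_mul_of_nonneg_left h9 (by norm_num)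
  have h13 : (u : ℝ) * 4096 * (709 / 200) * tq ≤ S := by
    have : (u : ℝ) * 4096 * (709 / 200) * tq * (200 * 4294967296) ≤ S * (200 * 4294967296) := by linarith
    exact le_of_mul_le_mul_right this (by norm_num)
  linarith

end cases

/-- Soundness of the rules. -/
theorem rules_false (h : Hyp p k a q) (hk : 6 ≤ k) (hKk : K ≤ k) (hok : Par.ok K p = true)
    {l0 l1 l2 l3 l4 u0 u1 u2 u3 u4 : ℕ}
    (b0 : (l0 : ℝ) ≤ 4096 * a 0) (b1 : (l1 : ℝ) ≤ 4096 * a 1) (b2 : (l2 : ℝ) ≤ 4096 * a 2)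
    (b3 : (l3 : ℝ) ≤ 4096 * a 3) (b4 : (l4 : ℝ) ≤ 4096 * a 4)
    (c0 : 4096 * a 0 ≤ u0) (c1 : 4096 * a 1 ≤ u1) (c2 : 4096 * a 2 ≤ u2)
    (c3 : 4096 * a 3 ≤ u3) (c4 : 4096 * a 4 ≤ u4)
    (d0 : u0 ≤ 4096) (d1 : u1 ≤ 4096) (d2 : u2 ≤ 4096) (d3 : u3 ≤ 4096) (d4 : u4 ≤ 4096)
    (hr : rules p l0 l1 l2 l3 l4 u0 u1 u2 u3 u4 = true) : False := by
  obtain ⟨hLev, hF3, hF4, hC0, hCL, hM, hmu2, hmu⟩ := Par.ok_spec hok
  have hlines : ∀ i, i < k → ∀ e ∈ p.l0 :: p.ls, (e.1 : ℝ) * a i - e.2 ≤ 1048576 * q i :=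
    fun i hi e he => h.lines e he i hi
  have hQ : ∀ (i l : ℕ), i < k → (l : ℝ) ≤ 4096 * a i → (qlow (p.l0 :: p.ls) l : ℝ) ≤ 4294967296 * q i :=
    fun i l hi hl => qlow_spec _ (h.qNN i) hl (hlines i hi)
  have hg : ∀ (i l u : ℕ), i < k → (l : ℝ) ≤ 4096 * a i → 4096 * a i ≤ u → u ≤ 4096 →
      (gbox p.mu p.C (p.l0 :: p.ls) l u : ℝ) ≤ 4294967296 * (q i - ((p.mu : ℝ) / 256) * (a i) ^ 2) + p.C :=
    fun i l u hi hl hu hu4 => gbox_spec p.mu p.C _ (h.qNN i) hl hu hu4 hC0 hCL (hlines i hi)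
  have hH : ∀ (tc i l u : ℕ), i < k → (l : ℝ) ≤ 4096 * a i → 4096 * a i ≤ u →
      (a i) ^ 2 * 3518437208883200 + (tc : ℝ) * 4294967296 * (1 - q i) ≤
        (hfold tc p.ls (hmax tc p.l0 l u) l u : ℝ) := by
    intro tc i l u hi hl hu
    refine hfold_spec tc p.ls hl hu (fun e he => hlines i hi e (List.mem_cons_of_mem _ he)) ?_
    exact hmax_spec tc hl hu (hlines i hi _ List.mem_cons_self)
  have hQ0 := hQ 0 l0 (by omega) b0
  have hQ1 := hQ 1 l1 (by omega) b1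
  have hQ2 := hQ 2 l2 (by omega) b2
  have hQ3 := hQ 3 l3 (by omega) b3
  have hQ4 := hQ 4 l4 (by omega) b4
  have hg0 := hg 0 l0 u0 (by omega) b0 c0 d0
  have hg1 := hg 1 l1 u1 (by omega) b1 c1 d1
  have hg2 := hg 2 l2 u2 (by omega) b2 c2 d2
  have hg3 := hg 3 l3 u3 (by omega) b3 c3 d3
  have hg4 := hg 4 l4 u4 (by omega) b4 c4 d4
  have hH0 := fun tc => hH tc 0 l0 u0 (by omega) b0 c0
  have hH1 := fun tc => hH tc 1 l1 u1 (by omega) b1 c1
  have hH2 := fun tc => hH tc 2 l2 u2 (by omega) b2 c2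
  have hH3 := fun tc => hH tc 3 l3 u3 (by omega) b3 c3
  have hH4 := fun tc => hH tc 4 l4 u4 (by omega) b4 c4
  clear hQ hg hH hlines
  simp only [rules, Bool.or_eq_true, Bool.and_eq_true] at hr
  generalize qlow (p.l0 :: p.ls) l0 = Q0 at hr hQ0
  generalize qlow (p.l0 :: p.ls) l1 = Q1 at hr hQ1
  generalize qlow (p.l0 :: p.ls) l2 = Q2 at hr hQ2
  generalize qlow (p.l0 :: p.ls) l3 = Q3 at hr hQ3
  generalize qlow (p.l0 :: p.ls) l4 = Q4 at hr hQ4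
  generalize gbox p.mu p.C (p.l0 :: p.ls) l0 u0 = g0 at hr hg0
  generalize gbox p.mu p.C (p.l0 :: p.ls) l1 u1 = g1 at hr hg1
  generalize gbox p.mu p.C (p.l0 :: p.ls) l2 u2 = g2 at hr hg2
  generalize gbox p.mu p.C (p.l0 :: p.ls) l3 u3 = g3 at hr hg3
  generalize gbox p.mu p.C (p.l0 :: p.ls) l4 u4 = g4 at hr hg4
  -- the budget
  have hq0 := h.qNN 0
  have hq1 := h.qNN 1
  have hq2 := h.qNN 2
  have hq3 := h.qNN 3
  have hq4 := h.qNN 4
  have ht5 := h.tailQ (b := 5) (by omega)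
  simp only [Finset.sum_range_succ, Finset.sum_range_zero, zero_add] at ht5
  have htq : 0 ≤ ∑ i ∈ Ico 5 k, q i := Finset.sum_nonneg fun i _ => h.qNN i
  have hQsR : ((Q0 : ℝ) + Q1 + Q2 + Q3 + Q4) ≤ 4294967296 * (q 0 + q 1 + q 2 + q 3 + q 4) := by
    linarith only [hQ0, hQ1, hQ2, hQ3, hQ4]
  have hQs : Q0 + Q1 + Q2 + Q3 + Q4 ≤ 4294967296 := by
    have : ((Q0 : ℝ) + Q1 + Q2 + Q3 + Q4) ≤ 4294967296 := by
      linarith only [hQsR, ht5, htq]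
    exact_mod_cast this
  have hrem : ((4294967296 - (Q0 + Q1 + Q2 + Q3 + Q4) : ℕ) : ℝ) = 4294967296 - ((Q0 : ℝ) + Q1 + Q2 + Q3 + Q4) := by
    rw [Nat.cast_sub hQs]
    push_cast
    ring
  generalize hremd : 4294967296 - (Q0 + Q1 + Q2 + Q3 + Q4) = rem at hr hrem
  have hremtq : 4294967296 * ∑ i ∈ Ico 5 k, q i ≤ (rem : ℝ) := by
    rw [hrem]
    linarith only [hQsR, ht5]
  have hgs : ((g0 + g1 + g2 + g3 + g4 : ℕ) : ℝ) ≤
      ∑ i ∈ range 5, (4294967296 * (q i - ((p.mu : ℝ) / 256) * (a i) ^ 2) + p.C) := by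
    simp only [Finset.sum_range_succ, Finset.sum_range_zero, zero_add]
    push_cast
    linarith only [hg0, hg1, hg2, hg3, hg4]
  rcases hr with hb | (((((⟨h1, h2⟩ | hT) | hL) | ⟨_, hFl3⟩) | ⟨_, hFl4⟩))
  · have := (blt_iff _ _).1 hb
    exact absurd hQs (not_le.mpr this)
  · exact case_lag0 h hk hmu hM hmu2 hgs hremtq h1 h2
  · -- the total
    have h5k : 5 < k := by omega
    have ha5t : 4096 * a 5 ≤ ((nmn u4 (709 * rem / (200 * 1048576) + 1) : ℕ) : ℝ) := by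
      rw [nmn_eq, Nat.cast_min]
      apply le_min
      · refine le_trans ?_ c4
        have := h.anti 4 5 (by norm_num) h5k
        linarith only [this]
      · have h6 := cast_div_succ (709 * rem) (200 * 1048576) (by norm_num)
        have h7 := h.a_le_tailA (le_refl 5) h5k
        have h8 := h.tailA 5
        generalize ((709 * rem / (200 * 1048576) + 1 : ℕ) : ℝ) = S at *
        push_cast at h6
        generalize (∑ j ∈ Ico 5 k, a j) = ta at *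
        generalize (∑ i ∈ Ico 5 k, q i) = tq at *
        linarith only [h6, h7, h8, hremtq]
    exact case_T h hk ha5t (hH0 _) (hH1 _) (hH2 _) (hH3 _) (hH4 _) hT
  · obtain ⟨lev, hlev, h1, h2, h3⟩ := lagRule_spec _ hL
    exact case_lev h hk hKk hmu hM hgs hremtq (hLev lev hlev) b0 b1 b2 b3 b4 c1 c2 c3 c4 h1 h2 h3
  · -- the floor at `b = 3`
    obtain ⟨e, he, h1, h2, h3⟩ := floor3_spec _ hFl3
    have hok3 := hF3 e he
    obtain ⟨_, _, _, hD2, hD, _, _⟩ := fl_real hok3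
    have h3k : 3 < k := by omega
    have hQs3 : Q0 + Q1 + Q2 ≤ 4294967296 := by omega
    have hrem3 : ((4294967296 - (Q0 + Q1 + Q2) : ℕ) : ℝ) = 4294967296 - ((Q0 + Q1 + Q2 : ℕ) : ℝ) := by
      rw [Nat.cast_sub hQs3]
      push_cast
      ring
    have hQb : ((Q0 + Q1 + Q2 : ℕ) : ℝ) ≤ 4294967296 * ∑ i ∈ range 3, q i := by
      simp only [Finset.sum_range_succ, Finset.sum_range_zero, zero_add]
      push_cast
      linarith only [hQ0, hQ1, hQ2]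
    have hsig := sig_bound h h3k hrem3 c3 hQb
    obtain ⟨n, hn1, hn2, hn3⟩ := any2_real hD2 h3 b0 b1 b2 c1 c2 (D := (e.D : ℝ)) hsig hD
    exact floor_contra h hok3 (by norm_num) h3k c3 h1 h2 hsig ⟨n, hn1, by omega, hn3⟩
  · -- the floor at `b = 4`
    obtain ⟨e, he, h1, h2, h3⟩ := floor4_spec _ hFl4
    have hok4 := hF4 e he
    obtain ⟨_, _, _, hD2, hD, _, _⟩ := fl_real hok4
    have h4k : 4 < k := by omega
    have hQs4 : Q0 + Q1 + Q2 + Q3 ≤ 4294967296 := by omega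
    have hrem4 : ((4294967296 - (Q0 + Q1 + Q2 + Q3) : ℕ) : ℝ) = 4294967296 - ((Q0 + Q1 + Q2 + Q3 : ℕ) : ℝ) := by
      rw [Nat.cast_sub hQs4]
      push_cast
      ring
    have hQb : ((Q0 + Q1 + Q2 + Q3 : ℕ) : ℝ) ≤ 4294967296 * ∑ i ∈ range 4, q i := by
      simp only [Finset.sum_range_succ, Finset.sum_range_zero, zero_add]
      push_cast
      linarith only [hQ0, hQ1, hQ2, hQ3]
    have hsig := sig_bound h h4k hrem4 c4 hQb
    obtain ⟨n, hn1, hn2, hn3⟩ := any3_real hD2 h3 b0 b1 b2 b3 c1 c2 c3 (D := (e.D : ℝ)) hsig hD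
    exact floor_contra h hok4 (by norm_num) h4k c4 h1 h2 hsig ⟨n, hn1, by omega, hn3⟩

end Vale.Agent.Lib.P226K.BB
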