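import Vale.Agent.Lib.P226K.BBReal

/-!
Soundness of the branch and bound checker: the real hypotheses of the closure are contradictory as
soon as the checker returns `true`.
-/

open Finset

namespace Vale.Agent.Lib.P226K.BB

/-- A lower approximation of `π`. -/
def piL : ℚ := 31415 / 10000

/-- The checks on the entries of a level. -/
def entsOK (D am : ℚ) (sig : ℕ) : ℕ → List (ℚ × ℚ) → Bool
  | _, [] => true
  | b, e :: t =>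
      decide (0 ≤ e.1) && decide (e.1 ≤ am) && decide (0 < e.2) && decide (e.2 < 1) &&
      decide (e.1 * am ≤ (3 * piL * D * e.2 ^ 2) ^ 2) &&
      decide (e.1 ≤ 3 * piL * D * (1 - e.2) ^ 2 / (b : ℚ) ^ 2) &&
      decide (e.1 * am * 4096 ^ 2 ≤ (sig : ℚ)) &&
      entsOK D am sig (b + 1) t

/-- The value of the tail bound of a level. -/
def entsSum (mu am : ℚ) : List (ℚ × ℚ) → ℚ
  | [] => 0
  | e :: t => min (e.1 * (200 / 709) - mu * e.1 ^ 2) (am * (200 / 709) - mu * am ^ 2) + entsSum mu am t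

/-- The checks on a level. -/
def Lev.ok (K : ℕ) (mu : ℚ) (L : Lev) : Bool :=
  decide (0 < L.D) && decide (0 < L.am) && decide (L.am * (709 / 200) * mu ≤ 1) &&
  decide (L.D ^ 2 * 4096 ^ 4 ≤ (L.D2 : ℚ)) && decide (0 < L.D2) &&
  decide (0 < L.amD) && decide ((L.amN : ℚ) ≤ L.am * (L.amD : ℚ)) &&
  decide ((L.Gn : ℚ) ≤ L.Gq * 4294967296) && decide (L.Gq ≤ entsSum mu L.am L.ents) &&
  entsOK L.D L.am L.sig 5 L.ents && decide (L.ents.length + 5 ≤ K)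

/-- The checks on an entry of the floor table. -/
def Fl.ok (b : ℕ) (e : Fl) : Bool :=
  decide (0 < e.D) && decide (0 < e.th) && decide (e.th < 1) &&
  decide (e.D ^ 2 * 4096 ^ 4 ≤ (e.D2 : ℚ)) && decide (0 < e.D2) &&
  decide ((e.As : ℚ) ≤ (3 * piL * e.D * e.th ^ 2) ^ 2 * 4096 ^ 2) &&
  decide ((e.F : ℚ) ≤ 3 * piL * e.D * (1 - e.th) ^ 2 / (b : ℚ) ^ 2 * 4096)

/-- The checks on the parameters. -/
def Par.ok (K : ℕ) (p : Par) : Bool :=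
  p.levels.all (Lev.ok K ((p.mu : ℚ) / 256)) && p.fl3.all (Fl.ok 3) && p.fl4.all (Fl.ok 4) &&
  Nat.ble (p.mu * (4096 * 4096)) p.C &&
  (p.l0 :: p.ls).all (fun e => Nat.ble (e.2 * 4096 + p.mu * (4096 * 4096)) p.C) &&
  Nat.beq p.M94 (p.mu * 37748736) && Nat.ble (p.mu * 2836) 256000 && Nat.blt 0 p.mu

/-- The real hypotheses of the closure. -/
structure Hyp (p : Par) (k : ℕ) (a q : ℕ → ℝ) : Prop where
  aNN : ∀ n, 0 ≤ a n
  qNN : ∀ n, 0 ≤ q n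
  anti : ∀ m n, m ≤ n → n < k → a n ≤ a m
  one : ∀ n, a n ≤ 1
  sum1 : ∑ i ∈ range k, q i = 1
  haz : ∀ n, n < k → a n ≤ (709 / 200) * q n
  lines : ∀ e ∈ p.l0 :: p.ls, ∀ n, n < k → (e.1 : ℝ) * a n - e.2 ≤ 1048576 * q n
  big : 9 / 4 < ∑ i ∈ range k, (a i) ^ 2
  floor : ∀ (b n : ℕ) (D θ : ℝ), 3 ≤ b → b < k → 1 ≤ n → n < b → 0 < D → 0 < θ → θ < 1 →
    D ^ 2 ≤ (a (n - 1)) ^ 2 * ((a n) ^ 2 - ∑ i ∈ Ico b k, (a i) ^ 2) - (a n) ^ 4 / (n : ℝ) ^ 2 →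
    ∑ i ∈ Ico b k, (a i) ^ 2 ≤ (3 * Real.pi * D * θ ^ 2) ^ 2 →
    3 * Real.pi * D * (1 - θ) ^ 2 / (b : ℝ) ^ 2 < a b

variable {p : Par} {k : ℕ} {a q : ℕ → ℝ}

theorem piL_le : ((piL : ℚ) : ℝ) ≤ Real.pi := by
  have : ((piL : ℚ) : ℝ) = 3.1415 := by norm_num [piL]
  rw [this]
  exact Real.pi_gt_d4.le

theorem blt_iff (a b : ℕ) : Nat.blt a b = true ↔ a < b := by
  simp [Nat.blt]

namespace Hyp

variable (h : Hyp p k a q)
include h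

theorem tailQ {b : ℕ} (hb : b ≤ k) : ∑ i ∈ Ico b k, q i = 1 - ∑ i ∈ range b, q i := by
  have := Finset.sum_range_add_sum_Ico q hb
  rw [h.sum1] at this
  linarith

theorem tailA (b : ℕ) : ∑ i ∈ Ico b k, a i ≤ (709 / 200) * ∑ i ∈ Ico b k, q i := by
  rw [Finset.mul_sum]
  exact Finset.sum_le_sum fun i hi => h.haz i (Finset.mem_Ico.mp hi).2

theorem tailA_nonneg (b : ℕ) : 0 ≤ ∑ i ∈ Ico b k, a i :=
  Finset.sum_nonneg fun i _ => h.aNN i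

theorem sigma_le {b : ℕ} : ∑ i ∈ Ico b k, (a i) ^ 2 ≤ a b * ∑ i ∈ Ico b k, a i := by
  rw [Finset.mul_sum]
  refine Finset.sum_le_sum fun i hi => ?_
  obtain ⟨h1, h2⟩ := Finset.mem_Ico.mp hi
  have h3 := h.anti b i h1 h2
  have h4 := h.aNN i
  nlinarith

theorem a_le_tailA {b i : ℕ} (h1 : b ≤ i) (h2 : i < k) : a i ≤ ∑ j ∈ Ico b k, a j :=
  Finset.single_le_sum (f := a) (fun j _ => h.aNN j) (Finset.mem_Ico.mpr ⟨h1, h2⟩)

end Hyp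

/-- The thickness test in real terms. -/
theorem opt_real {n D2 sig l l' u' : ℕ} (hn : 0 < n) (hD2 : 0 < D2)
    (ho : optOK n D2 sig (l * l) (l' * l') (u' * u') = true) {x y σ D : ℝ}
    (hx : (l : ℝ) ≤ 4096 * x) (hy1 : (l' : ℝ) ≤ 4096 * y) (hy2 : 4096 * y ≤ u')
    (hσ : σ * 4096 ^ 2 ≤ sig) (hD : D ^ 2 * 4096 ^ 4 ≤ D2) :
    D ^ 2 ≤ x ^ 2 * (y ^ 2 - σ) - y ^ 4 / (n : ℝ) ^ 2 := by
  have hl0 : (0 : ℝ) ≤ l := Nat.cast_nonneg l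
  have hl'0 : (0 : ℝ) ≤ l' := Nat.cast_nonneg l'
  have hA : ((l * l : ℕ) : ℝ) ≤ (4096 * x) ^ 2 := by
    push_cast
    rw [← pow_two]
    exact pow_le_pow_left₀ hl0 hx 2
  have hR1 : ((l' * l' : ℕ) : ℝ) ≤ (4096 * y) ^ 2 := by
    push_cast
    rw [← pow_two]
    exact pow_le_pow_left₀ hl'0 hy1 2
  have hR2 : (4096 * y) ^ 2 ≤ ((u' * u' : ℕ) : ℝ) := by
    push_cast
    rw [← pow_two]
    exact pow_le_pow_left₀ (hl'0.trans hy1) hy2 2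
  have key := optOK_spec hn hD2 ho hA hR1 hR2 (σ := σ * 4096 ^ 2) hσ
  have hn' : (0 : ℝ) < (n : ℝ) ^ 2 := by
    have : (0 : ℝ) < n := by exact_mod_cast hn
    positivity
  have e : (4096 * x) ^ 2 * ((4096 * y) ^ 2 - σ * 4096 ^ 2) - ((4096 * y) ^ 2) ^ 2 / (n : ℝ) ^ 2
      = 4096 ^ 4 * (x ^ 2 * (y ^ 2 - σ) - y ^ 4 / (n : ℝ) ^ 2) := by
    field_simp
  rw [e] at key
  have h2 := hD.trans key
  have h3 : (4096 : ℝ) ^ 4 * D ^ 2 ≤ 4096 ^ 4 * (x ^ 2 * (y ^ 2 - σ) - y ^ 4 / (n : ℝ) ^ 2) := by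
    linarith
  exact le_of_mul_le_mul_left h3 (by norm_num)

theorem any2_spec {D2 sig l0 l1 l2 u1 u2 : ℕ} (hc : any2 D2 sig l0 l1 l2 u1 u2 = true) :
    optOK 1 D2 sig (l0 * l0) (l1 * l1) (u1 * u1) = true ∨
      optOK 2 D2 sig (l1 * l1) (l2 * l2) (u2 * u2) = true := by
  simpa [any2, Bool.or_eq_true] using hc

theorem any3_spec {D2 sig l0 l1 l2 l3 u1 u2 u3 : ℕ} (hc : any3 D2 sig l0 l1 l2 l3 u1 u2 u3 = true) :
    any2 D2 sig l0 l1 l2 u1 u2 = true ∨ optOK 3 D2 sig (l2 * l2) (l3 * l3) (u3 * u3) = true := by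
  simpa [any3, Bool.or_eq_true] using hc

theorem any4_spec {D2 sig l0 l1 l2 l3 l4 u1 u2 u3 u4 : ℕ}
    (hc : any4 D2 sig l0 l1 l2 l3 l4 u1 u2 u3 u4 = true) :
    any3 D2 sig l0 l1 l2 l3 u1 u2 u3 = true ∨ optOK 4 D2 sig (l3 * l3) (l4 * l4) (u4 * u4) = true := by
  simpa [any4, Bool.or_eq_true] using hc

/-- Thickness for `n ≤ 2`, in real terms. -/
theorem any2_real {D2 sig l0 l1 l2 u1 u2 : ℕ} (hD2 : 0 < D2)
    (hc : any2 D2 sig l0 l1 l2 u1 u2 = true) {D σ : ℝ} {x : ℕ → ℝ}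
    (h0 : (l0 : ℝ) ≤ 4096 * x 0) (h1 : (l1 : ℝ) ≤ 4096 * x 1) (h2 : (l2 : ℝ) ≤ 4096 * x 2)
    (h1' : 4096 * x 1 ≤ u1) (h2' : 4096 * x 2 ≤ u2)
    (hσ : σ * 4096 ^ 2 ≤ sig) (hD : D ^ 2 * 4096 ^ 4 ≤ D2) :
    ∃ n : ℕ, 1 ≤ n ∧ n ≤ 2 ∧ D ^ 2 ≤ (x (n - 1)) ^ 2 * ((x n) ^ 2 - σ) - (x n) ^ 4 / (n : ℝ) ^ 2 := by
  rcases any2_spec hc with ho | ho
  · exact ⟨1, le_refl _, by norm_num, opt_real (by norm_num) hD2 ho h0 h1 h1' hσ hD⟩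
  · exact ⟨2, by norm_num, le_refl _, opt_real (by norm_num) hD2 ho h1 h2 h2' hσ hD⟩

/-- Thickness for `n ≤ 3`, in real terms. -/
theorem any3_real {D2 sig l0 l1 l2 l3 u1 u2 u3 : ℕ} (hD2 : 0 < D2)
    (hc : any3 D2 sig l0 l1 l2 l3 u1 u2 u3 = true) {D σ : ℝ} {x : ℕ → ℝ}
    (h0 : (l0 : ℝ) ≤ 4096 * x 0) (h1 : (l1 : ℝ) ≤ 4096 * x 1) (h2 : (l2 : ℝ) ≤ 4096 * x 2)
    (h3 : (l3 : ℝ) ≤ 4096 * x 3)
    (h1' : 4096 * x 1 ≤ u1) (h2' : 4096 * x 2 ≤ u2) (h3' : 4096 * x 3 ≤ u3)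
    (hσ : σ * 4096 ^ 2 ≤ sig) (hD : D ^ 2 * 4096 ^ 4 ≤ D2) :
    ∃ n : ℕ, 1 ≤ n ∧ n ≤ 3 ∧ D ^ 2 ≤ (x (n - 1)) ^ 2 * ((x n) ^ 2 - σ) - (x n) ^ 4 / (n : ℝ) ^ 2 := by
  rcases any3_spec hc with ho | ho
  · obtain ⟨n, a1, a2, a3⟩ := any2_real hD2 ho h0 h1 h2 h1' h2' hσ hD
    exact ⟨n, a1, by omega, a3⟩
  · exact ⟨3, by norm_num, le_refl _, opt_real (by norm_num) hD2 ho h2 h3 h3' hσ hD⟩

/-- Thickness for `n ≤ 4`, in real terms. -/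
theorem any4_real {D2 sig l0 l1 l2 l3 l4 u1 u2 u3 u4 : ℕ} (hD2 : 0 < D2)
    (hc : any4 D2 sig l0 l1 l2 l3 l4 u1 u2 u3 u4 = true) {D σ : ℝ} {x : ℕ → ℝ}
    (h0 : (l0 : ℝ) ≤ 4096 * x 0) (h1 : (l1 : ℝ) ≤ 4096 * x 1) (h2 : (l2 : ℝ) ≤ 4096 * x 2)
    (h3 : (l3 : ℝ) ≤ 4096 * x 3) (h4 : (l4 : ℝ) ≤ 4096 * x 4)
    (h1' : 4096 * x 1 ≤ u1) (h2' : 4096 * x 2 ≤ u2) (h3' : 4096 * x 3 ≤ u3) (h4' : 4096 * x 4 ≤ u4)
    (hσ : σ * 4096 ^ 2 ≤ sig) (hD : D ^ 2 * 4096 ^ 4 ≤ D2) :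
    ∃ n : ℕ, 1 ≤ n ∧ n ≤ 4 ∧ D ^ 2 ≤ (x (n - 1)) ^ 2 * ((x n) ^ 2 - σ) - (x n) ^ 4 / (n : ℝ) ^ 2 := by
  rcases any4_spec hc with ho | ho
  · obtain ⟨n, a1, a2, a3⟩ := any3_real hD2 ho h0 h1 h2 h3 h1' h2' h3' hσ hD
    exact ⟨n, a1, by omega, a3⟩
  · exact ⟨4, by norm_num, le_refl _, opt_real (by norm_num) hD2 ho h3 h4 h4' hσ hD⟩

/-- Monotonicity of the thickness hypothesis in `σ`. -/
theorem thick_mono {x y σ σ' D : ℝ} {n : ℝ} (hh : D ^ 2 ≤ x ^ 2 * (y ^ 2 - σ') - y ^ 4 / n)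
    (hσ : σ ≤ σ') : D ^ 2 ≤ x ^ 2 * (y ^ 2 - σ) - y ^ 4 / n := by
  have : x ^ 2 * (y ^ 2 - σ') ≤ x ^ 2 * (y ^ 2 - σ) :=
    mul_le_mul_of_nonneg_left (by linarith) (sq_nonneg x)
  linarith

namespace Hyp

variable (h : Hyp p k a q)
include h

/-- The entries of a level give the tail bound. -/
theorem ents_bound {D am mu : ℚ} {sig : ℕ} (hD : 0 < D) (ham : (am : ℝ) * (709 / 200) * mu ≤ 1)
    (hmu : 0 ≤ mu) (hA : ∑ i ∈ Ico 5 k, a i ≤ (am : ℝ))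
    (hT : ∃ n : ℕ, 1 ≤ n ∧ n ≤ 4 ∧ ((D : ℚ) : ℝ) ^ 2 ≤
      (a (n - 1)) ^ 2 * ((a n) ^ 2 - (sig : ℝ) / 4096 ^ 2) - (a n) ^ 4 / (n : ℝ) ^ 2) :
    ∀ (E : List (ℚ × ℚ)) (b : ℕ), 5 ≤ b → b + E.length ≤ k → entsOK D am sig b E = true →
      ((entsSum mu am E : ℚ) : ℝ) ≤ ∑ i ∈ Ico b k, (q i - (mu : ℝ) * (a i) ^ 2) := by
  have hmu' : (0 : ℝ) ≤ (mu : ℝ) := by exact_mod_cast hmu
  -- each vertex of the tail is small
  have hsmall : ∀ i, 5 ≤ i → i < k → a i ≤ (am : ℝ) := fun i h1 h2 => (h.a_le_tailA h1 h2).trans hA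
  have hterm : ∀ i, 5 ≤ i → i < k → a i * (200 / 709) - (mu : ℝ) * (a i) ^ 2 ≤ q i - (mu : ℝ) * (a i) ^ 2 := by
    intro i _ h2
    have := h.haz i h2
    linarith
  have hpos : ∀ i, 5 ≤ i → i < k → 0 ≤ q i - (mu : ℝ) * (a i) ^ 2 := by
    intro i h1 h2
    refine le_trans ?_ (hterm i h1 h2)
    have h3 := hsmall i h1 h2
    have h4 := h.aNN i
    have h5 : (mu : ℝ) * a i ≤ 200 / 709 := by
      have h6 : a i * (709 / 200) * (mu : ℝ) ≤ 1 :=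
        le_trans (by
          apply mul_le_mul_of_nonneg_right _ hmu'
          apply mul_le_mul_of_nonneg_right h3 (by norm_num)) ham
      nlinarith
    nlinarith
  intro E
  induction E with
  | nil =>
    intro b hb _ _
    simp only [entsSum, Rat.cast_zero]
    exact Finset.sum_nonneg fun i hi => hpos i (hb.trans (Finset.mem_Ico.mp hi).1) (Finset.mem_Ico.mp hi).2
  | cons e t ih =>
    intro b hb hlen hok
    simp only [entsOK, Bool.and_eq_true, decide_eq_true_eq] at hok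
    obtain ⟨⟨⟨⟨⟨⟨⟨h1, h2⟩, h3⟩, h4⟩, h5⟩, h6⟩, h7⟩, h8⟩ := hok
    simp only [List.length_cons] at hlen
    have hbk : b < k := by omega
    rw [Finset.sum_eq_sum_Ico_succ_bot hbk]
    simp only [entsSum]
    push_cast
    have hrest := ih (b + 1) (by omega) (by omega) h8
    -- casts of the checks
    have h1' : (0 : ℝ) ≤ (e.1 : ℝ) := by exact_mod_cast h1
    have h2' : (e.1 : ℝ) ≤ (am : ℝ) := by exact_mod_cast h2
    have h3' : (0 : ℝ) < (e.2 : ℝ) := by exact_mod_cast h3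
    have h4' : (e.2 : ℝ) < 1 := by exact_mod_cast h4
    have h5' : (e.1 : ℝ) * am ≤ (3 * (piL : ℝ) * D * (e.2 : ℝ) ^ 2) ^ 2 := by exact_mod_cast h5
    have h6' : (e.1 : ℝ) ≤ 3 * (piL : ℝ) * D * (1 - (e.2 : ℝ)) ^ 2 / (b : ℝ) ^ 2 := by exact_mod_cast h6
    have h7' : (e.1 : ℝ) * am * 4096 ^ 2 ≤ (sig : ℝ) := by exact_mod_cast h7
    have hD' : (0 : ℝ) < (D : ℝ) := by exact_mod_cast hD
    have hpi := piL_le
    have hpi0 : (0 : ℝ) < (piL : ℝ) := by norm_num [piL]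
    have hb0 : (0 : ℝ) < (b : ℝ) ^ 2 := by
      have : (0 : ℝ) < b := by exact_mod_cast (by omega : 0 < b)
      positivity
    -- the floor
    have hfl : (e.1 : ℝ) ≤ a b := by
      by_contra hcon
      push Not at hcon
      have hσ1 : ∑ i ∈ Ico b k, (a i) ^ 2 ≤ (e.1 : ℝ) * am := by
        refine (h.sigma_le).trans ?_
        have h9 : ∑ i ∈ Ico b k, a i ≤ (am : ℝ) := by
          refine le_trans ?_ hA
          exact Finset.sum_le_sum_of_subset_of_nonneg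
            (Finset.Ico_subset_Ico hb le_rfl) (fun i _ _ => h.aNN i)
        exact mul_le_mul hcon.le h9 (h.tailA_nonneg b) h1'
      have hσ2 : ∑ i ∈ Ico b k, (a i) ^ 2 ≤ (3 * Real.pi * D * (e.2 : ℝ) ^ 2) ^ 2 := by
        refine hσ1.trans (h5'.trans ?_)
        apply pow_le_pow_left₀ (by positivity)
        have : 0 ≤ (D : ℝ) * (e.2 : ℝ) ^ 2 := by positivity
        nlinarith
      have hσ3 : ∑ i ∈ Ico b k, (a i) ^ 2 ≤ (sig : ℝ) / 4096 ^ 2 := by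
        rw [le_div_iff₀ (by norm_num)]
        refine le_trans ?_ h7'
        exact mul_le_mul_of_nonneg_right hσ1 (by norm_num)
      obtain ⟨n, hn1, hn2, hn3⟩ := hT
      have hfloor := h.floor b n D e.2 (by omega) hbk hn1 (by omega) hD' h3' h4'
        (thick_mono hn3 hσ3) hσ2
      have h10 : (e.1 : ℝ) ≤ 3 * Real.pi * D * (1 - (e.2 : ℝ)) ^ 2 / (b : ℝ) ^ 2 := by
        refine h6'.trans ?_
        apply div_le_div_of_nonneg_right _ hb0.le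
        have : 0 ≤ (D : ℝ) * (1 - (e.2 : ℝ)) ^ 2 := by positivity
        nlinarith
      linarith
    have hbam := hsmall b hb hbk
    have hc := concave_min (m := (mu : ℝ)) (α := 200 / 709) (β := 0) hmu' hfl hbam
    have hbt := hterm b hb hbk
    have e1 : ((e.1 : ℝ) * (200 / 709) - (mu : ℝ) * (e.1 : ℝ) ^ 2) = 200 / 709 * (e.1 : ℝ) + 0 - (mu : ℝ) * (e.1 : ℝ) ^ 2 := by ring
    have e2 : ((am : ℝ) * (200 / 709) - (mu : ℝ) * (am : ℝ) ^ 2) = 200 / 709 * (am : ℝ) + 0 - (mu : ℝ) * (am : ℝ) ^ 2 := by ring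
    have hsum := add_le_add (hc.trans (by linarith : 200 / 709 * a b + 0 - (mu : ℝ) * a b ^ 2 ≤ q b - (mu : ℝ) * a b ^ 2)) hrest
    simpa [e1, e2] using hsum

end Hyp

/-- A level gives the bound of the rule. -/
theorem lagRule_spec {l0 l1 l2 l3 l4 u1 u2 u3 u4 g M94 C rem : ℕ} :
    ∀ (L : List Lev), lagRule l0 l1 l2 l3 l4 u1 u2 u3 u4 g M94 C rem L = true →
      ∃ lev ∈ L, Nat.ble (4294967296 + 5 * C) (g + lev.Gn + M94) = true ∧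
        Nat.ble (709 * rem * lev.amD) (lev.amN * 200 * 4294967296) = true ∧
        any4 lev.D2 lev.sig l0 l1 l2 l3 l4 u1 u2 u3 u4 = true := by
  intro L
  induction L with
  | nil => intro hc; simp [lagRule] at hc
  | cons lev t ih =>
    intro hc
    simp only [lagRule] at hc
    cases hb : Nat.ble (4294967296 + 5 * C) (g + lev.Gn + M94) with
    | false => rw [hb] at hc; simp at hc
    | true =>
      rw [hb] at hc
      simp only [cond_true, Bool.or_eq_true, Bool.and_eq_true] at hc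
      rcases hc with ⟨h1, h2⟩ | h3
      · exact ⟨lev, List.mem_cons_self, hb, h1, h2⟩
      · obtain ⟨l, hl, h4⟩ := ih h3
        exact ⟨l, List.mem_cons_of_mem _ hl, h4⟩

theorem floor3_spec {l0 l1 l2 u1 u2 u3 sig : ℕ} :
    ∀ (L : List Fl), floor3 l0 l1 l2 u1 u2 u3 sig L = true →
      ∃ e ∈ L, u3 ≤ e.F ∧ sig ≤ e.As ∧ any2 e.D2 sig l0 l1 l2 u1 u2 = true := by
  intro L
  induction L with
  | nil => intro hc; simp [floor3] at hc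
  | cons e t ih =>
    intro hc
    simp only [floor3, Bool.or_eq_true, Bool.and_eq_true, Nat.ble_eq] at hc
    rcases hc with ⟨⟨h1, h2⟩, h3⟩ | h4
    · exact ⟨e, List.mem_cons_self, h1, h2, h3⟩
    · obtain ⟨l, hl, h5⟩ := ih h4
      exact ⟨l, List.mem_cons_of_mem _ hl, h5⟩

theorem floor4_spec {l0 l1 l2 l3 u1 u2 u3 u4 sig : ℕ} :
    ∀ (L : List Fl), floor4 l0 l1 l2 l3 u1 u2 u3 u4 sig L = true →
      ∃ e ∈ L, u4 ≤ e.F ∧ sig ≤ e.As ∧ any3 e.D2 sig l0 l1 l2 l3 u1 u2 u3 = true := by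
  intro L
  induction L with
  | nil => intro hc; simp [floor4] at hc
  | cons e t ih =>
    intro hc
    simp only [floor4, Bool.or_eq_true, Bool.and_eq_true, Nat.ble_eq] at hc
    rcases hc with ⟨⟨h1, h2⟩, h3⟩ | h4
    · exact ⟨e, List.mem_cons_self, h1, h2, h3⟩
    · obtain ⟨l, hl, h5⟩ := ih h4
      exact ⟨l, List.mem_cons_of_mem _ hl, h5⟩

/-- The data of a floor table entry in real terms. -/
theorem fl_real {b : ℕ} {e : Fl} (hok : Fl.ok b e = true) :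
    (0 : ℝ) < (e.D : ℝ) ∧ (0 : ℝ) < (e.th : ℝ) ∧ (e.th : ℝ) < 1 ∧ 0 < e.D2 ∧
      (e.D : ℝ) ^ 2 * 4096 ^ 4 ≤ (e.D2 : ℝ) ∧
      (e.As : ℝ) ≤ (3 * (piL : ℝ) * e.D * (e.th : ℝ) ^ 2) ^ 2 * 4096 ^ 2 ∧
      (e.F : ℝ) ≤ 3 * (piL : ℝ) * e.D * (1 - (e.th : ℝ)) ^ 2 / (b : ℝ) ^ 2 * 4096 := by
  simp only [Fl.ok, Bool.and_eq_true, decide_eq_true_eq] at hok
  obtain ⟨⟨⟨⟨⟨⟨h1, h2⟩, h3⟩, h4⟩, h5⟩, h6⟩, h7⟩ := hok
  refine ⟨by exact_mod_cast h1, by exact_mod_cast h2, by exact_mod_cast h3, h5, ?_, ?_, ?_⟩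
  · exact_mod_cast h4
  · exact_mod_cast h6
  · exact_mod_cast h7

section rules

variable (h : Hyp p k a q)
include h

/-- The floor test in real terms. -/
theorem floor_contra {b u : ℕ} {e : Fl} (hok : Fl.ok b e = true) (hb : 3 ≤ b) (hbk : b < k)
    (hu : 4096 * a b ≤ u) (huF : u ≤ e.F) {sig : ℕ} (hsA : sig ≤ e.As)
    (hσ : (∑ i ∈ Ico b k, (a i) ^ 2) * 4096 ^ 2 ≤ sig)
    (hT : ∃ n : ℕ, 1 ≤ n ∧ n < b ∧ (e.D : ℝ) ^ 2 ≤
      (a (n - 1)) ^ 2 * ((a n) ^ 2 - ∑ i ∈ Ico b k, (a i) ^ 2) - (a n) ^ 4 / (n : ℝ) ^ 2) : False := by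
  obtain ⟨h1, h2, h3, _, _, h6, h7⟩ := fl_real hok
  obtain ⟨n, hn1, hn2, hn3⟩ := hT
  have hpi := piL_le
  have hpi0 : (0 : ℝ) < (piL : ℝ) := by norm_num [piL]
  have hb0 : (0 : ℝ) < (b : ℝ) ^ 2 := by
    have : (0 : ℝ) < b := by exact_mod_cast (by omega : 0 < b)
    positivity
  have hσ2 : ∑ i ∈ Ico b k, (a i) ^ 2 ≤ (3 * Real.pi * e.D * (e.th : ℝ) ^ 2) ^ 2 := by
    have h8 : (sig : ℝ) ≤ e.As := by exact_mod_cast hsA
    have h9 : (∑ i ∈ Ico b k, (a i) ^ 2) * 4096 ^ 2 ≤ (3 * (piL : ℝ) * e.D * (e.th : ℝ) ^ 2) ^ 2 * 4096 ^ 2 :=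
      hσ.trans (h8.trans h6)
    have h10 := le_of_mul_le_mul_right h9 (by norm_num)
    refine h10.trans ?_
    apply pow_le_pow_left₀ (by positivity)
    have : 0 ≤ (e.D : ℝ) * (e.th : ℝ) ^ 2 := by positivity
    nlinarith
  have hfl := h.floor b n e.D e.th hb hbk hn1 hn2 h1 h2 h3 hn3 hσ2
  have hu' : (u : ℝ) ≤ e.F := by exact_mod_cast huF
  have h11 : 4096 * a b ≤ 3 * (piL : ℝ) * e.D * (1 - (e.th : ℝ)) ^ 2 / (b : ℝ) ^ 2 * 4096 :=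
    hu.trans (hu'.trans h7)
  have h12 : 3 * (piL : ℝ) * e.D * (1 - (e.th : ℝ)) ^ 2 / (b : ℝ) ^ 2 ≤
      3 * Real.pi * e.D * (1 - (e.th : ℝ)) ^ 2 / (b : ℝ) ^ 2 := by
    apply div_le_div_of_nonneg_right _ hb0.le
    have : 0 ≤ (e.D : ℝ) * (1 - (e.th : ℝ)) ^ 2 := by positivity
    nlinarith
  linarith

/-- The final step of the rules with a Lagrange multiplier. -/
theorem lag_final (hk : 6 ≤ k) {g Gn C M94 mu : ℕ} {Gt : ℝ} (hmu : 0 < mu)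
    (hM : M94 = mu * 37748736)
    (hg : (g : ℝ) ≤ ∑ i ∈ range 5, (4294967296 * (q i - ((mu : ℝ) / 256) * (a i) ^ 2) + C))
    (hG : (Gn : ℝ) ≤ 4294967296 * Gt)
    (hGt : Gt ≤ ∑ i ∈ Ico 5 k, (q i - ((mu : ℝ) / 256) * (a i) ^ 2))
    (hb : Nat.ble (4294967296 + 5 * C) (g + Gn + M94) = true) : False := by
  have hsplit := Finset.sum_range_add_sum_Ico (fun i => q i - ((mu : ℝ) / 256) * (a i) ^ 2)
    (show 5 ≤ k by omega)
  have htot : ∑ i ∈ range k, (q i - ((mu : ℝ) / 256) * (a i) ^ 2) =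
      1 - ((mu : ℝ) / 256) * ∑ i ∈ range k, (a i) ^ 2 := by
    rw [Finset.sum_sub_distrib, h.sum1, Finset.mul_sum]
  have hg2 : (g : ℝ) ≤ 4294967296 * ∑ i ∈ range 5, (q i - ((mu : ℝ) / 256) * (a i) ^ 2) + 5 * C := by
    refine hg.trans (le_of_eq ?_)
    rw [Finset.sum_add_distrib, ← Finset.mul_sum]
    simp
  have hb' : (4294967296 : ℝ) + 5 * C ≤ g + Gn + M94 := by
    have := Nat.le_of_ble_eq_true hb
    exact_mod_cast this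
  have hmu' : (0 : ℝ) < mu := by exact_mod_cast hmu
  have hM' : (M94 : ℝ) = mu * 37748736 := by rw [hM]; push_cast; ring
  have hbig := h.big
  have h1 : ((mu : ℝ) / 256) * (9 / 4) < ((mu : ℝ) / 256) * ∑ i ∈ range k, (a i) ^ 2 :=
    mul_lt_mul_of_pos_left hbig (by positivity)
  nlinarith

end rules

end Vale.Agent.Lib.P226K.BB
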