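import Vale.Agent.Lib.P226K.BBCover

/-!
Boxes without a point: a manual splitting of the top of the cover, so that every run of the checker
stays small.
-/

namespace Vale.Agent.Lib.P226K.BB

/-- The box contains no point of the sequence `a`. -/
def NoBox (a : ℕ → ℝ) (l0 l1 l2 l3 l4 u0 u1 u2 u3 u4 : ℕ) : Prop :=
  (l0 : ℝ) ≤ 4096 * a 0 → (l1 : ℝ) ≤ 4096 * a 1 → (l2 : ℝ) ≤ 4096 * a 2 →
  (l3 : ℝ) ≤ 4096 * a 3 → (l4 : ℝ) ≤ 4096 * a 4 →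
  4096 * a 0 ≤ u0 → 4096 * a 1 ≤ u1 → 4096 * a 2 ≤ u2 → 4096 * a 3 ≤ u3 → 4096 * a 4 ≤ u4 → False

variable {p : Par} {k K : ℕ} {a q : ℕ → ℝ} {l0 l1 l2 l3 l4 u0 u1 u2 u3 u4 : ℕ}

theorem NoBox.split0 (c : ℕ) (h1 : NoBox a l0 l1 l2 l3 l4 c u1 u2 u3 u4)
    (h2 : NoBox a c l1 l2 l3 l4 u0 u1 u2 u3 u4) : NoBox a l0 l1 l2 l3 l4 u0 u1 u2 u3 u4 := by
  intro a0 a1 a2 a3 a4 b0 b1 b2 b3 b4
  rcases le_total (4096 * a 0) (c : ℝ) with hc | hc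
  · exact h1 a0 a1 a2 a3 a4 hc b1 b2 b3 b4
  · exact h2 hc a1 a2 a3 a4 b0 b1 b2 b3 b4

theorem NoBox.split1 (c : ℕ) (h1 : NoBox a l0 l1 l2 l3 l4 u0 c u2 u3 u4)
    (h2 : NoBox a l0 c l2 l3 l4 u0 u1 u2 u3 u4) : NoBox a l0 l1 l2 l3 l4 u0 u1 u2 u3 u4 := by
  intro a0 a1 a2 a3 a4 b0 b1 b2 b3 b4
  rcases le_total (4096 * a 1) (c : ℝ) with hc | hc
  · exact h1 a0 a1 a2 a3 a4 b0 hc b2 b3 b4
  · exact h2 a0 hc a2 a3 a4 b0 b1 b2 b3 b4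

theorem NoBox.split2 (c : ℕ) (h1 : NoBox a l0 l1 l2 l3 l4 u0 u1 c u3 u4)
    (h2 : NoBox a l0 l1 c l3 l4 u0 u1 u2 u3 u4) : NoBox a l0 l1 l2 l3 l4 u0 u1 u2 u3 u4 := by
  intro a0 a1 a2 a3 a4 b0 b1 b2 b3 b4
  rcases le_total (4096 * a 2) (c : ℝ) with hc | hc
  · exact h1 a0 a1 a2 a3 a4 b0 b1 hc b3 b4
  · exact h2 a0 a1 hc a3 a4 b0 b1 b2 b3 b4

theorem NoBox.split3 (c : ℕ) (h1 : NoBox a l0 l1 l2 l3 l4 u0 u1 u2 c u4)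
    (h2 : NoBox a l0 l1 l2 c l4 u0 u1 u2 u3 u4) : NoBox a l0 l1 l2 l3 l4 u0 u1 u2 u3 u4 := by
  intro a0 a1 a2 a3 a4 b0 b1 b2 b3 b4
  rcases le_total (4096 * a 3) (c : ℝ) with hc | hc
  · exact h1 a0 a1 a2 a3 a4 b0 b1 b2 hc b4
  · exact h2 a0 a1 a2 hc a4 b0 b1 b2 b3 b4

theorem NoBox.split4 (c : ℕ) (h1 : NoBox a l0 l1 l2 l3 l4 u0 u1 u2 u3 c)
    (h2 : NoBox a l0 l1 l2 l3 c u0 u1 u2 u3 u4) : NoBox a l0 l1 l2 l3 l4 u0 u1 u2 u3 u4 := by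
  intro a0 a1 a2 a3 a4 b0 b1 b2 b3 b4
  rcases le_total (4096 * a 4) (c : ℝ) with hc | hc
  · exact h1 a0 a1 a2 a3 a4 b0 b1 b2 b3 hc
  · exact h2 a0 a1 a2 a3 hc b0 b1 b2 b3 b4

/-- A successful run of the checker clears a box. -/
theorem NoBox.of_cover (h : Hyp p k a q) (hk : 6 ≤ k) (hKk : K ≤ k) (hok : Par.ok K p = true) {fuel : ℕ}
    (hrun : cover p fuel l0 l1 l2 l3 l4 u0 u1 u2 u3 u4 = true)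
    (hu : u0 ≤ 4096 ∧ u1 ≤ 4096 ∧ u2 ≤ 4096 ∧ u3 ≤ 4096 ∧ u4 ≤ 4096) :
    NoBox a l0 l1 l2 l3 l4 u0 u1 u2 u3 u4 :=
  fun a0 a1 a2 a3 a4 b0 b1 b2 b3 b4 =>
    cover_false h hk hKk hok fuel l0 l1 l2 l3 l4 u0 u1 u2 u3 u4 a0 a1 a2 a3 a4 b0 b1 b2 b3 b4
      hu.1 hu.2.1 hu.2.2.1 hu.2.2.2.1 hu.2.2.2.2 hrun

/-- The whole box is cleared: contradiction. -/
theorem NoBox.top (h : Hyp p k a q) (hb : NoBox a 0 0 0 0 0 4096 4096 4096 4096 4096) : False := by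
  have h0 : ∀ i, (0 : ℝ) ≤ 4096 * a i := fun i => by have := h.aNN i; positivity
  have h1 : ∀ i, 4096 * a i ≤ ((4096 : ℕ) : ℝ) := fun i => by have := h.one i; push_cast; linarith
  refine hb ?_ ?_ ?_ ?_ ?_ (h1 0) (h1 1) (h1 2) (h1 3) (h1 4)
  all_goals (simp only [Nat.cast_zero]; exact h0 _)

end Vale.Agent.Lib.P226K.BB
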