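import Vale.Agent.Lib.P226K.Defs
import Vale.Agent.Lib.P226.CapDBound

/-!
Cap inequalities for cones in odd dimensions, in the form used by the closure of the all-`k` step.
-/

open MeasureTheory ProbabilityTheory Real Set Filter
open Vale.Agent.Lib.P226

namespace Vale.Agent.Lib.P226K

theorem cap_five {C : Set (E 5)} (hC : MeasurableSet C)
    (hcone : ∀ x ∈ C, ∀ c : ℝ, 0 < c → c • x ∈ C) {s : ℝ} (h0 : 0 ≤ s) (h1 : s ≤ 1) :
    ‖nz C‖ ≤ (16 / 3) * s * (gam 5).real C + (1 - (8 / 3) * s + 2 * s ^ 2 - s ^ 4 / 3) := by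
  have h := cap5_bound hC hcone h0 h1
  linarith

theorem cap_seven {C : Set (E 7)} (hC : MeasurableSet C)
    (hcone : ∀ x ∈ C, ∀ c : ℝ, 0 < c → c • x ∈ C) {s : ℝ} (h0 : 0 ≤ s) (h1 : s ≤ 1) :
    ‖nz C‖ ≤ (32 / 5) * s * (gam 7).real C +
      ((1 - s ^ 2) ^ 3 - (16 / 5) * s + 6 * s ^ 2 - 4 * s ^ 4 + (6 / 5) * s ^ 6) := by
  have h := cap7_bound hC hcone h0 h1
  have e : (32 / 5) * s * (gam 7).real C + 1 - (16 / 5) * s + 3 * s ^ 2 - s ^ 4 + s ^ 6 / 5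
      = (32 / 5) * s * (gam 7).real C +
      ((1 - s ^ 2) ^ 3 - (16 / 5) * s + 6 * s ^ 2 - 4 * s ^ 4 + (6 / 5) * s ^ 6) := by ring
  linarith

theorem cap_nine {C : Set (E 9)} (hC : MeasurableSet C)
    (hcone : ∀ x ∈ C, ∀ c : ℝ, 0 < c → c • x ∈ C) {s : ℝ} (h0 : 0 ≤ s) (h1 : s ≤ 1) :
    ‖nz C‖ ≤ (256 / 35) * s * (gam 9).real C +
      ((1 - s ^ 2) ^ 4 - (128 / 35) * s + 8 * s ^ 2 - 8 * s ^ 4 + (24 / 5) * s ^ 6 - (8 / 7) * s ^ 8) := by
  have h := cap9_bound hC hcone h0 h1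
  have e : (256 / 35) * s * (gam 9).real C + 1 - (128 / 35) * s + 4 * s ^ 2 - 2 * s ^ 4
      + (4 / 5) * s ^ 6 - s ^ 8 / 7
      = (256 / 35) * s * (gam 9).real C +
      ((1 - s ^ 2) ^ 4 - (128 / 35) * s + 8 * s ^ 2 - 8 * s ^ 4 + (24 / 5) * s ^ 6 - (8 / 7) * s ^ 8) := by
    ring
  linarith

lemma capA_two : capA 2 = 2 * π := by
  unfold capA
  have e : ((2:ℕ):ℝ) / 2 + 1 = ((1:ℕ):ℝ) + 1 := by norm_num
  rw [e, Real.Gamma_nat_eq_factorial]
  have hs : √π ^ 2 = π := Real.sq_sqrt pi_nonneg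
  rw [hs]
  norm_num [Nat.factorial]

/-- angular integral in dimension 3 -/
lemma capDK_two {β : ℝ} (h1 : β ≤ π / 2) :
    capDK 2 β = 1 / 2 - sin β + sin β ^ 2 / 2 := by
  unfold capDK
  rw [integral_Ioc_eq_integral_Ioo.symm, ← intervalIntegral.integral_of_le h1]
  have hd : ∀ θ ∈ uIcc β (π / 2), HasDerivAt
      (fun θ => sin θ ^ 2 / 2 - sin β * sin θ)
      (cos θ ^ (2 - 1) * (sin θ - sin β)) θ := by
    intro θ _
    have h2 := Real.hasDerivAt_sin θ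
    have h3 := (h2.fun_pow 2).div_const 2
    have h4 := h3.fun_sub (h2.const_mul (sin β))
    refine h4.congr_deriv ?_
    norm_num
    ring
  rw [intervalIntegral.integral_eq_sub_of_hasDerivAt hd]
  · simp only [sin_pi_div_two]
    ring
  · apply Continuous.intervalIntegrable
    fun_prop

theorem cap_three {C : Set (E 3)} (hC : MeasurableSet C)
    (hcone : ∀ x ∈ C, ∀ c : ℝ, 0 < c → c • x ∈ C) {s : ℝ} (h0 : 0 ≤ s) (h1 : s ≤ 1) :
    ‖nz C‖ ≤ 4 * s * (gam 3).real C + (1 - s) ^ 2 := by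
  have hb0 : 0 ≤ arcsin s := Real.arcsin_nonneg.2 h0
  have hb1 : arcsin s ≤ π / 2 := Real.arcsin_le_pi_div_two s
  have hsin : sin (arcsin s) = s := Real.sin_arcsin (by linarith) h1
  have h := capD_bound (m := 2) (by norm_num) hC hcone hb0 hb1
  rw [capDK_two hb1, hsin, rM_two, rM_three, capA_two] at h
  have e1 : √(2 * π) * (2 / √(π / 2)) = 4 := by
    have h2 := sqrt_two_pi_div sqrt_two_pi_mul
    have h3 : 0 < √(π / 2) := by positivity
    calc √(2 * π) * (2 / √(π / 2)) = (√(2 * π) / √(π / 2)) * 2 := by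
          field_simp
      _ = 4 := by rw [h2]; norm_num
  have e2 : √(2 * π) * (2 * π * capCd 3 * 2) = 2 := by
    unfold capCd
    have h4 := sqrt_two_pi_pow 1
    have h5 : 0 < √(2 * π) := by positivity
    have h6 : √(2 * π) * ((√(2 * π))⁻¹ ^ 3) = ((2 * π) ^ 1)⁻¹ := by
      rw [← h4, inv_pow]
      field_simp
    calc √(2 * π) * (2 * π * (√(2 * π))⁻¹ ^ 3 * 2)
        = (√(2 * π) * ((√(2 * π))⁻¹ ^ 3)) * (4 * π) := by ring
      _ = 2 := by
          rw [h6]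
          field_simp
          ring
  calc ‖nz C‖ ≤ _ := h
    _ = (√(2 * π) * (2 / √(π / 2))) * (s * (gam 3).real C)
        + (√(2 * π) * (2 * π * capCd 3 * 2)) * (1 / 2 - s + s ^ 2 / 2) := by ring
    _ = _ := by
        rw [e1, e2]
        ring

end Vale.Agent.Lib.P226K
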