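import Vale.Agent.Lib.P226K.Par11

namespace Vale.Agent.Lib.P226K.BB

theorem lf11_14 : cover par11 45 2048 2048 2048 2048 0 2560 4096 4096 4096 1024 = true := by decide +kernel

theorem lf11_15 : cover par11 45 2560 2048 2048 2048 0 3072 2560 4096 4096 1024 = true := by decide +kernel

theorem lf11_16 : cover par11 45 2560 2560 2048 2048 0 3072 4096 2560 4096 1024 = true := by decide +kernel

theorem lf11_17 : cover par11 45 2560 2560 2560 2048 0 3072 4096 4096 2560 1024 = true := by decide +kernel

theorem lf11_18 : cover par11 45 2560 2560 2560 2560 0 3072 4096 4096 4096 512 = true := by decide +kernel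

theorem lf11_19 : cover par11 45 2560 2560 2560 2560 512 2816 4096 4096 4096 1024 = true := by decide +kernel

theorem lf11_20 : cover par11 45 2816 2560 2560 2560 512 3072 2816 4096 4096 1024 = true := by decide +kernel

theorem lf11_21 : cover par11 45 2816 2816 2560 2560 512 3072 4096 2816 4096 1024 = true := by decide +kernel

theorem lf11_22 : cover par11 45 2816 2816 2816 2560 512 3072 4096 4096 2816 1024 = true := by decide +kernel

theorem lf11_23 : cover par11 45 2816 2816 2816 2816 512 3072 4096 4096 4096 768 = true := by decide +kernel

theorem lf11_24 : cover par11 45 2816 2816 2816 2816 768 3072 4096 4096 4096 1024 = true := by decide +kernel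

theorem lf11_25 : cover par11 45 2048 2048 2048 2048 1024 2560 4096 4096 4096 2048 = true := by decide +kernel

theorem lf11_26 : cover par11 45 2560 2048 2048 2048 1024 3072 2560 4096 4096 2048 = true := by decide +kernel

theorem lf11_27 : cover par11 45 2560 2560 2048 2048 1024 3072 4096 2560 4096 2048 = true := by decide +kernel

theorem lf11_28 : cover par11 45 2560 2560 2560 2048 1024 3072 4096 4096 2560 2048 = true := by decide +kernel

theorem lf11_29 : cover par11 45 2560 2560 2560 2560 1024 2816 4096 4096 4096 1536 = true := by decide +kernel

theorem lf11_30 : cover par11 45 2816 2560 2560 2560 1024 3072 2816 4096 4096 1536 = true := by decide +kernel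

theorem lf11_31 : cover par11 45 2816 2816 2560 2560 1024 3072 4096 2816 4096 1536 = true := by decide +kernel

theorem lf11_32 : cover par11 45 2816 2816 2816 2560 1024 3072 4096 4096 2816 1536 = true := by decide +kernel

theorem lf11_33 : cover par11 45 2816 2816 2816 2816 1024 3072 4096 4096 4096 1280 = true := by decide +kernel

theorem lf11_34 : cover par11 45 2816 2816 2816 2816 1280 3072 4096 4096 4096 1536 = true := by decide +kernel

theorem lf11_35 : cover par11 45 2560 2560 2560 2560 1536 2816 4096 4096 4096 2048 = true := by decide +kernel

theorem lf11_36 : cover par11 45 2816 2560 2560 2560 1536 3072 2816 4096 4096 2048 = true := by decide +kernel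

theorem lf11_37 : cover par11 45 2816 2816 2560 2560 1536 3072 4096 2816 4096 2048 = true := by decide +kernel

end Vale.Agent.Lib.P226K.BB
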