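import Vale.Agent.Lib.P226K.Par11

namespace Vale.Agent.Lib.P226K.BB

theorem lf11_38 : cover par11 45 2816 2816 2816 2560 1536 3072 4096 4096 4096 2048 = true := by decide +kernel

theorem lf11_39 : cover par11 45 3072 2048 2048 2048 0 3584 2560 4096 4096 1024 = true := by decide +kernel

theorem lf11_40 : cover par11 45 3072 2560 2048 2048 0 3584 3072 2560 4096 1024 = true := by decide +kernel

theorem lf11_41 : cover par11 45 3072 2560 2560 2048 0 3584 3072 4096 2560 1024 = true := by decide +kernel

theorem lf11_42 : cover par11 45 3072 2560 2560 2560 0 3328 2816 4096 4096 512 = true := by decide +kernel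

theorem lf11_43 : cover par11 45 3072 2816 2560 2560 0 3328 3072 2816 4096 512 = true := by decide +kernel

theorem lf11_44 : cover par11 45 3072 2816 2816 2560 0 3328 3072 4096 2816 512 = true := by decide +kernel

theorem lf11_45 : cover par11 45 3072 2816 2816 2816 0 3328 3072 4096 4096 256 = true := by decide +kernel

theorem lf11_46 : cover par11 45 3072 2816 2816 2816 256 3200 2944 4096 4096 512 = true := by decide +kernel

theorem lf11_47 : cover par11 45 3072 2944 2816 2816 256 3200 3072 2944 4096 512 = true := by decide +kernel

theorem lf11_48 : cover par11 45 3072 2944 2944 2816 256 3200 3072 4096 2944 512 = true := by decide +kernel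

theorem lf11_49 : cover par11 45 3072 2944 2944 2944 256 3200 3072 4096 4096 512 = true := by decide +kernel

theorem lf11_50 : cover par11 45 3200 2816 2816 2816 256 3328 2944 4096 4096 512 = true := by decide +kernel

theorem lf11_51 : cover par11 45 3200 2944 2816 2816 256 3328 3072 2944 4096 512 = true := by decide +kernel

theorem lf11_52 : cover par11 45 3200 2944 2944 2816 256 3328 3072 4096 4096 512 = true := by decide +kernel

end Vale.Agent.Lib.P226K.BB
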