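import Vale.Agent.Lib.P226K.Par11

namespace Vale.Agent.Lib.P226K.BB

theorem lf11_53 : cover par11 45 3328 2560 2560 2560 0 3584 2816 4096 4096 512 = true := by decide +kernel

theorem lf11_54 : cover par11 45 3328 2816 2560 2560 0 3584 3072 2816 4096 512 = true := by decide +kernel

theorem lf11_55 : cover par11 45 3328 2816 2816 2560 0 3584 3072 4096 2816 512 = true := by decide +kernel

theorem lf11_56 : cover par11 45 3328 2816 2816 2816 0 3584 3072 4096 4096 512 = true := by decide +kernel

theorem lf11_57 : cover par11 45 3072 2560 2560 2560 512 3328 2816 4096 4096 1024 = true := by decide +kernel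

theorem lf11_58 : cover par11 45 3072 2816 2560 2560 512 3328 3072 2816 4096 1024 = true := by decide +kernel

theorem lf11_59 : cover par11 45 3072 2816 2816 2560 512 3200 3072 4096 2816 768 = true := by decide +kernel

theorem lf11_60 : cover par11 45 3200 2816 2816 2560 512 3328 3072 4096 2816 768 = true := by decide +kernel

theorem lf11_61 : cover par11 45 3072 2816 2816 2560 768 3328 3072 4096 2816 1024 = true := by decide +kernel

theorem lf11_62 : cover par11 45 3072 2816 2816 2816 512 3200 2944 4096 4096 768 = true := by decide +kernel

theorem lf11_63 : cover par11 45 3072 2944 2816 2816 512 3200 3072 2944 4096 768 = true := by decide +kernel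

theorem lf11_64 : cover par11 45 3072 2944 2944 2816 512 3136 3072 4096 2944 640 = true := by decide +kernel

theorem lf11_65 : cover par11 45 3136 2944 2944 2816 512 3200 3072 4096 2944 640 = true := by decide +kernel

end Vale.Agent.Lib.P226K.BB
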