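import Vale.Agent.Lib.P226K.Par11

namespace Vale.Agent.Lib.P226K.BB

theorem lf11_66 : cover par11 45 3072 2944 2944 2816 640 3200 3072 4096 2944 768 = true := by decide +kernel

theorem lf11_67 : cover par11 45 3072 2944 2944 2944 512 3200 3072 4096 4096 768 = true := by decide +kernel

theorem lf11_68 : cover par11 45 3200 2816 2816 2816 512 3328 2944 4096 4096 768 = true := by decide +kernel

theorem lf11_69 : cover par11 45 3200 2944 2816 2816 512 3328 3072 2944 4096 640 = true := by decide +kernel

theorem lf11_70 : cover par11 45 3200 2944 2816 2816 640 3328 3072 2944 4096 768 = true := by decide +kernel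

theorem lf11_71 : cover par11 45 3200 2944 2944 2816 512 3328 3072 4096 4096 768 = true := by decide +kernel

theorem lf11_72 : cover par11 45 3072 2816 2816 2816 768 3200 3072 4096 4096 1024 = true := by decide +kernel

theorem lf11_73 : cover par11 45 3200 2816 2816 2816 768 3328 3072 4096 4096 1024 = true := by decide +kernel

theorem lf11_74 : cover par11 45 3328 2560 2560 2560 512 3584 2816 4096 4096 1024 = true := by decide +kernel

theorem lf11_75 : cover par11 45 3328 2816 2560 2560 512 3584 3072 2816 4096 1024 = true := by decide +kernel

theorem lf11_76 : cover par11 45 3328 2816 2816 2560 512 3584 3072 4096 2816 768 = true := by decide +kernel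

end Vale.Agent.Lib.P226K.BB
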