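import Vale.Agent.Lib.P226K.Par11

namespace Vale.Agent.Lib.P226K.BB

theorem lf11_77 : cover par11 45 3328 2816 2816 2560 768 3584 3072 4096 2816 1024 = true := by decide +kernel

theorem lf11_78 : cover par11 45 3328 2816 2816 2816 512 3584 3072 4096 4096 1024 = true := by decide +kernel

theorem lf11_79 : cover par11 45 3584 2048 2048 2048 0 4096 2560 4096 4096 1024 = true := by decide +kernel

theorem lf11_80 : cover par11 45 3584 2560 2048 2048 0 4096 3072 2560 4096 1024 = true := by decide +kernel

theorem lf11_81 : cover par11 45 3584 2560 2560 2048 0 4096 3072 4096 4096 1024 = true := by decide +kernel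

theorem lf11_82 : cover par11 45 3072 2048 2048 2048 1024 3584 2560 4096 4096 2048 = true := by decide +kernel

theorem lf11_83 : cover par11 45 3072 2560 2048 2048 1024 3584 3072 2560 4096 2048 = true := by decide +kernel

theorem lf11_84 : cover par11 45 3072 2560 2560 2048 1024 3584 3072 4096 2560 1536 = true := by decide +kernel

theorem lf11_85 : cover par11 45 3072 2560 2560 2048 1536 3584 3072 4096 2560 2048 = true := by decide +kernel

theorem lf11_86 : cover par11 45 3072 2560 2560 2560 1024 3328 2816 4096 4096 1536 = true := by decide +kernel

theorem lf11_87 : cover par11 45 3072 2816 2560 2560 1024 3328 3072 2816 4096 1536 = true := by decide +kernel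

theorem lf11_88 : cover par11 45 3072 2816 2816 2560 1024 3328 3072 4096 2816 1536 = true := by decide +kernel

theorem lf11_89 : cover par11 45 3072 2816 2816 2816 1024 3328 3072 4096 4096 1536 = true := by decide +kernel

end Vale.Agent.Lib.P226K.BB
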