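import Vale.Agent.Lib.P226K.Par11

namespace Vale.Agent.Lib.P226K.BB

theorem lf11_90 : cover par11 45 3328 2560 2560 2560 1024 3584 3072 4096 4096 1536 = true := by decide +kernel

theorem lf11_91 : cover par11 45 3072 2560 2560 2560 1536 3584 3072 4096 4096 2048 = true := by decide +kernel

theorem lf11_92 : cover par11 45 3584 2048 2048 2048 1024 4096 3072 4096 4096 2048 = true := by decide +kernel

theorem lf11_93 : cover par11 45 3072 3072 2048 2048 0 3584 4096 2560 4096 1024 = true := by decide +kernel

theorem lf11_94 : cover par11 45 3072 3072 2560 2048 0 3584 4096 3072 2560 512 = true := by decide +kernel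

theorem lf11_95 : cover par11 45 3072 3072 2560 2048 512 3328 4096 3072 2560 1024 = true := by decide +kernel

theorem lf11_96 : cover par11 45 3328 3072 2560 2048 512 3584 4096 3072 2560 1024 = true := by decide +kernel

theorem lf11_97 : cover par11 45 3072 3072 2560 2560 0 3328 4096 2816 4096 512 = true := by decide +kernel

theorem lf11_98 : cover par11 45 3072 3072 2816 2560 0 3328 4096 3072 2816 256 = true := by decide +kernel

theorem lf11_99 : cover par11 45 3072 3072 2816 2560 256 3200 4096 3072 2816 512 = true := by decide +kernel

theorem lf11_100 : cover par11 45 3200 3072 2816 2560 256 3328 3200 3072 2816 512 = true := by decide +kernel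

theorem lf11_101 : cover par11 45 3200 3200 2816 2560 256 3328 4096 3072 2816 512 = true := by decide +kernel

theorem lf11_102 : cover par11 45 3072 3072 2816 2816 0 3328 4096 3072 4096 256 = true := by decide +kernel

theorem lf11_103 : cover par11 45 3072 3072 2816 2816 256 3200 4096 2944 4096 512 = true := by decide +kernel

theorem lf11_104 : cover par11 45 3072 3072 2944 2816 256 3200 4096 3072 2944 384 = true := by decide +kernel

theorem lf11_105 : cover par11 45 3072 3072 2944 2816 384 3136 4096 3072 2944 512 = true := by decide +kernel

end Vale.Agent.Lib.P226K.BB
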