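import Vale.Agent.Lib.P226K.Par11

namespace Vale.Agent.Lib.P226K.BB

theorem lf11_106 : cover par11 45 3136 3072 2944 2816 384 3200 4096 3072 2944 512 = true := by decide +kernel

theorem lf11_107 : cover par11 45 3072 3072 2944 2944 256 3200 4096 3072 4096 512 = true := by decide +kernel

theorem lf11_108 : cover par11 45 3200 3072 2816 2816 256 3328 4096 3072 4096 512 = true := by decide +kernel

theorem lf11_109 : cover par11 45 3328 3072 2560 2560 0 3584 4096 3072 4096 512 = true := by decide +kernel

theorem lf11_110 : cover par11 45 3072 3072 2560 2560 512 3328 4096 2816 4096 1024 = true := by decide +kernel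

theorem lf11_111 : cover par11 45 3072 3072 2816 2560 512 3200 4096 3072 2816 768 = true := by decide +kernel

theorem lf11_112 : cover par11 45 3200 3072 2816 2560 512 3328 3200 3072 2816 768 = true := by decide +kernel

theorem lf11_113 : cover par11 45 3200 3200 2816 2560 512 3328 4096 3072 2816 768 = true := by decide +kernel

theorem lf11_114 : cover par11 45 3072 3072 2816 2560 768 3328 4096 3072 2816 1024 = true := by decide +kernel

end Vale.Agent.Lib.P226K.BB
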