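import Vale.Agent.Lib.P226K.Par11

namespace Vale.Agent.Lib.P226K.BB

theorem lf11_115 : cover par11 45 3072 3072 2816 2816 512 3200 4096 2944 4096 640 = true := by decide +kernel

theorem lf11_116 : cover par11 45 3072 3072 2816 2816 640 3200 4096 2944 4096 768 = true := by decide +kernel

theorem lf11_117 : cover par11 45 3072 3072 2944 2816 512 3200 4096 3072 4096 768 = true := by decide +kernel

theorem lf11_118 : cover par11 45 3200 3072 2816 2816 512 3328 4096 3072 4096 768 = true := by decide +kernel

theorem lf11_119 : cover par11 45 3072 3072 2816 2816 768 3328 4096 3072 4096 1024 = true := by decide +kernel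

theorem lf11_120 : cover par11 45 3328 3072 2560 2560 512 3584 4096 3072 4096 1024 = true := by decide +kernel

theorem lf11_121 : cover par11 45 3584 3072 2048 2048 0 4096 4096 3072 4096 1024 = true := by decide +kernel

theorem lf11_122 : cover par11 45 3072 3072 2048 2048 1024 4096 4096 3072 4096 2048 = true := by decide +kernel

theorem lf11_123 : cover par11 45 3072 3072 3072 2048 0 3584 4096 4096 2560 1024 = true := by decide +kernel

theorem lf11_124 : cover par11 45 3072 3072 3072 2560 0 3584 4096 4096 3072 1024 = true := by decide +kernel

end Vale.Agent.Lib.P226K.BB
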