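import Vale.Agent.Lib.P226K.Par11

namespace Vale.Agent.Lib.P226K.BB

theorem lf11_125 : cover par11 45 3584 3072 3072 2048 0 4096 4096 4096 3072 1024 = true := by decide +kernel

theorem lf11_126 : cover par11 45 3072 3072 3072 2048 1024 4096 4096 4096 3072 2048 = true := by decide +kernel

theorem lf11_127 : cover par11 45 3072 3072 3072 3072 0 4096 4096 4096 4096 2048 = true := by decide +kernel

theorem lf11_128 : cover par11 45 2048 2048 2048 2048 2048 2560 4096 4096 4096 4096 = true := by decide +kernel

theorem lf11_129 : cover par11 45 2560 2048 2048 2048 2048 3072 2560 4096 4096 4096 = true := by decide +kernel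

theorem lf11_130 : cover par11 45 2560 2560 2048 2048 2048 3072 4096 2560 4096 4096 = true := by decide +kernel

theorem lf11_131 : cover par11 45 2560 2560 2560 2048 2048 3072 4096 4096 2560 4096 = true := by decide +kernel

theorem lf11_132 : cover par11 45 2560 2560 2560 2560 2048 3072 4096 4096 4096 4096 = true := by decide +kernel

theorem lf11_133 : cover par11 45 3072 2048 2048 2048 2048 4096 4096 4096 4096 4096 = true := by decide +kernel

end Vale.Agent.Lib.P226K.BB
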