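import Vale.Agent.Lib.P226K.Run11_0
import Vale.Agent.Lib.P226K.Run11_1
import Vale.Agent.Lib.P226K.Run11_2
import Vale.Agent.Lib.P226K.Run11_3
import Vale.Agent.Lib.P226K.Run11_4
import Vale.Agent.Lib.P226K.Run11_5
import Vale.Agent.Lib.P226K.Run11_6
import Vale.Agent.Lib.P226K.Run11_7
import Vale.Agent.Lib.P226K.Run11_8
import Vale.Agent.Lib.P226K.Run11_9
import Vale.Agent.Lib.P226K.BBSplit

namespace Vale.Agent.Lib.P226K.BB

/-- The closure for the table `par11`. -/
theorem no11 {k : ℕ} {a q : ℕ → ℝ} (h : Hyp par11 k a q) (hk : 6 ≤ k) (hKk : 11 ≤ k) : False := by
  have nb : ∀ {l0 l1 l2 l3 l4 u0 u1 u2 u3 u4 : ℕ}, cover par11 45 l0 l1 l2 l3 l4 u0 u1 u2 u3 u4 = true →
      (u0 ≤ 4096 ∧ u1 ≤ 4096 ∧ u2 ≤ 4096 ∧ u3 ≤ 4096 ∧ u4 ≤ 4096) → NoBox a l0 l1 l2 l3 l4 u0 u1 u2 u3 u4 :=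
    fun hc hu => NoBox.of_cover h hk hKk ok11 hc hu
  exact NoBox.top h (
    (NoBox.split0 2048
     (nb lf11_0 (by decide))
     (NoBox.split1 2048
      (nb lf11_1 (by decide))
      (NoBox.split2 2048
       (nb lf11_2 (by decide))
       (NoBox.split3 2048
        (NoBox.split0 3072
         (nb lf11_3 (by decide))
         (NoBox.split1 3072
          (nb lf11_4 (by decide))
          (NoBox.split2 3072
           (NoBox.split3 1024
            (nb lf11_5 (by decide))
            (NoBox.split4 1024
             (NoBox.split0 3584
              (nb lf11_6 (by decide))
              (NoBox.split1 3584
               (nb lf11_7 (by decide))
               (nb lf11_8 (by decide))))
             (nb lf11_9 (by decide))))
           (NoBox.split3 1024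
            (nb lf11_10 (by decide))
            (NoBox.split4 1024
             (NoBox.split0 3584
              (nb lf11_11 (by decide))
              (nb lf11_12 (by decide)))
             (nb lf11_13 (by decide)))))))
        (NoBox.split4 2048
         (NoBox.split0 3072
          (NoBox.split4 1024
           (NoBox.split0 2560
            (nb lf11_14 (by decide))
            (NoBox.split1 2560
             (nb lf11_15 (by decide))
             (NoBox.split2 2560
              (nb lf11_16 (by decide))
              (NoBox.split3 2560
               (nb lf11_17 (by decide))
               (NoBox.split4 512
                (nb lf11_18 (by decide))
                (NoBox.split0 2816
                 (nb lf11_19 (by decide))
                 (NoBox.split1 2816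
                  (nb lf11_20 (by decide))
                  (NoBox.split2 2816
                   (nb lf11_21 (by decide))
                   (NoBox.split3 2816
                    (nb lf11_22 (by decide))
                    (NoBox.split4 768
                     (nb lf11_23 (by decide))
                     (nb lf11_24 (by decide))))))))))))
           (NoBox.split0 2560
            (nb lf11_25 (by decide))
            (NoBox.split1 2560
             (nb lf11_26 (by decide))
             (NoBox.split2 2560
              (nb lf11_27 (by decide))
              (NoBox.split3 2560
               (nb lf11_28 (by decide))
               (NoBox.split4 1536
                (NoBox.split0 2816
                 (nb lf11_29 (by decide))
                 (NoBox.split1 2816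
                  (nb lf11_30 (by decide))
                  (NoBox.split2 2816
                   (nb lf11_31 (by decide))
                   (NoBox.split3 2816
                    (nb lf11_32 (by decide))
                    (NoBox.split4 1280
                     (nb lf11_33 (by decide))
                     (nb lf11_34 (by decide)))))))
                (NoBox.split0 2816
                 (nb lf11_35 (by decide))
                 (NoBox.split1 2816
                  (nb lf11_36 (by decide))
                  (NoBox.split2 2816
                   (nb lf11_37 (by decide))
                   (nb lf11_38 (by decide)))))))))))
          (NoBox.split1 3072
           (NoBox.split4 1024
            (NoBox.split0 3584
             (NoBox.split1 2560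
              (nb lf11_39 (by decide))
              (NoBox.split2 2560
               (nb lf11_40 (by decide))
               (NoBox.split3 2560
                (nb lf11_41 (by decide))
                (NoBox.split4 512
                 (NoBox.split0 3328
                  (NoBox.split1 2816
                   (nb lf11_42 (by decide))
                   (NoBox.split2 2816
                    (nb lf11_43 (by decide))
                    (NoBox.split3 2816
                     (nb lf11_44 (by decide))
                     (NoBox.split4 256
                      (nb lf11_45 (by decide))
                      (NoBox.split0 3200
                       (NoBox.split1 2944
                        (nb lf11_46 (by decide))
                        (NoBox.split2 2944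
                         (nb lf11_47 (by decide))
                         (NoBox.split3 2944
                          (nb lf11_48 (by decide))
                          (nb lf11_49 (by decide)))))
                       (NoBox.split1 2944
                        (nb lf11_50 (by decide))
                        (NoBox.split2 2944
                         (nb lf11_51 (by decide))
                         (nb lf11_52 (by decide)))))))))
                  (NoBox.split1 2816
                   (nb lf11_53 (by decide))
                   (NoBox.split2 2816
                    (nb lf11_54 (by decide))
                    (NoBox.split3 2816
                     (nb lf11_55 (by decide))
                     (nb lf11_56 (by decide))))))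
                 (NoBox.split0 3328
                  (NoBox.split1 2816
                   (nb lf11_57 (by decide))
                   (NoBox.split2 2816
                    (nb lf11_58 (by decide))
                    (NoBox.split3 2816
                     (NoBox.split4 768
                      (NoBox.split0 3200
                       (nb lf11_59 (by decide))
                       (nb lf11_60 (by decide)))
                      (nb lf11_61 (by decide)))
                     (NoBox.split4 768
                      (NoBox.split0 3200
                       (NoBox.split1 2944
                        (nb lf11_62 (by decide))
                        (NoBox.split2 2944
                         (nb lf11_63 (by decide))
                         (NoBox.split3 2944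
                          (NoBox.split4 640
                           (NoBox.split0 3136
                            (nb lf11_64 (by decide))
                            (nb lf11_65 (by decide)))
                           (nb lf11_66 (by decide)))
                          (nb lf11_67 (by decide)))))
                       (NoBox.split1 2944
                        (nb lf11_68 (by decide))
                        (NoBox.split2 2944
                         (NoBox.split4 640
                          (nb lf11_69 (by decide))
                          (nb lf11_70 (by decide)))
                         (nb lf11_71 (by decide)))))
                      (NoBox.split0 3200
                       (nb lf11_72 (by decide))
                       (nb lf11_73 (by decide)))))))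
                  (NoBox.split1 2816
                   (nb lf11_74 (by decide))
                   (NoBox.split2 2816
                    (nb lf11_75 (by decide))
                    (NoBox.split3 2816
                     (NoBox.split4 768
                      (nb lf11_76 (by decide))
                      (nb lf11_77 (by decide)))
                     (nb lf11_78 (by decide))))))))))
             (NoBox.split1 2560
              (nb lf11_79 (by decide))
              (NoBox.split2 2560
               (nb lf11_80 (by decide))
               (nb lf11_81 (by decide)))))
            (NoBox.split0 3584
             (NoBox.split1 2560
              (nb lf11_82 (by decide))
              (NoBox.split2 2560
               (nb lf11_83 (by decide))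
               (NoBox.split3 2560
                (NoBox.split4 1536
                 (nb lf11_84 (by decide))
                 (nb lf11_85 (by decide)))
                (NoBox.split4 1536
                 (NoBox.split0 3328
                  (NoBox.split1 2816
                   (nb lf11_86 (by decide))
                   (NoBox.split2 2816
                    (nb lf11_87 (by decide))
                    (NoBox.split3 2816
                     (nb lf11_88 (by decide))
                     (nb lf11_89 (by decide)))))
                  (nb lf11_90 (by decide)))
                 (nb lf11_91 (by decide))))))
             (nb lf11_92 (by decide))))
           (NoBox.split2 3072
            (NoBox.split4 1024
             (NoBox.split0 3584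
              (NoBox.split2 2560
               (nb lf11_93 (by decide))
               (NoBox.split3 2560
                (NoBox.split4 512
                 (nb lf11_94 (by decide))
                 (NoBox.split0 3328
                  (nb lf11_95 (by decide))
                  (nb lf11_96 (by decide))))
                (NoBox.split4 512
                 (NoBox.split0 3328
                  (NoBox.split2 2816
                   (nb lf11_97 (by decide))
                   (NoBox.split3 2816
                    (NoBox.split4 256
                     (nb lf11_98 (by decide))
                     (NoBox.split0 3200
                      (nb lf11_99 (by decide))
                      (NoBox.split1 3200
                       (nb lf11_100 (by decide))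
                       (nb lf11_101 (by decide)))))
                    (NoBox.split4 256
                     (nb lf11_102 (by decide))
                     (NoBox.split0 3200
                      (NoBox.split2 2944
                       (nb lf11_103 (by decide))
                       (NoBox.split3 2944
                        (NoBox.split4 384
                         (nb lf11_104 (by decide))
                         (NoBox.split0 3136
                          (nb lf11_105 (by decide))
                          (nb lf11_106 (by decide))))
                        (nb lf11_107 (by decide))))
                      (nb lf11_108 (by decide))))))
                  (nb lf11_109 (by decide)))
                 (NoBox.split0 3328
                  (NoBox.split2 2816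
                   (nb lf11_110 (by decide))
                   (NoBox.split3 2816
                    (NoBox.split4 768
                     (NoBox.split0 3200
                      (nb lf11_111 (by decide))
                      (NoBox.split1 3200
                       (nb lf11_112 (by decide))
                       (nb lf11_113 (by decide))))
                     (nb lf11_114 (by decide)))
                    (NoBox.split4 768
                     (NoBox.split0 3200
                      (NoBox.split2 2944
                       (NoBox.split4 640
                        (nb lf11_115 (by decide))
                        (nb lf11_116 (by decide)))
                       (nb lf11_117 (by decide)))
                      (nb lf11_118 (by decide)))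
                     (nb lf11_119 (by decide)))))
                  (nb lf11_120 (by decide))))))
              (nb lf11_121 (by decide)))
             (nb lf11_122 (by decide)))
            (NoBox.split3 3072
             (NoBox.split4 1024
              (NoBox.split0 3584
               (NoBox.split3 2560
                (nb lf11_123 (by decide))
                (nb lf11_124 (by decide)))
               (nb lf11_125 (by decide)))
              (nb lf11_126 (by decide)))
             (nb lf11_127 (by decide))))))
         (NoBox.split0 3072
          (NoBox.split0 2560
           (nb lf11_128 (by decide))
           (NoBox.split1 2560
            (nb lf11_129 (by decide))
            (NoBox.split2 2560
             (nb lf11_130 (by decide))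
             (NoBox.split3 2560
              (nb lf11_131 (by decide))
              (nb lf11_132 (by decide))))))
          (nb lf11_133 (by decide)))))))))

end Vale.Agent.Lib.P226K.BB
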