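import Vale.Agent.Lib.P226K.Run6_0
import Vale.Agent.Lib.P226K.BBSplit

namespace Vale.Agent.Lib.P226K.BB

/-- The closure for the table `par6`. -/
theorem no6 {k : ℕ} {a q : ℕ → ℝ} (h : Hyp par6 k a q) (hk : 6 ≤ k) (hKk : 6 ≤ k) : False := by
  have nb : ∀ {l0 l1 l2 l3 l4 u0 u1 u2 u3 u4 : ℕ}, cover par6 45 l0 l1 l2 l3 l4 u0 u1 u2 u3 u4 = true →
      (u0 ≤ 4096 ∧ u1 ≤ 4096 ∧ u2 ≤ 4096 ∧ u3 ≤ 4096 ∧ u4 ≤ 4096) → NoBox a l0 l1 l2 l3 l4 u0 u1 u2 u3 u4 :=
    fun hc hu => NoBox.of_cover h hk hKk ok6 hc hu
  exact NoBox.top h (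
    (NoBox.split0 2048
     (nb lf6_0 (by decide))
     (NoBox.split1 2048
      (nb lf6_1 (by decide))
      (NoBox.split2 2048
       (nb lf6_2 (by decide))
       (NoBox.split3 2048
        (nb lf6_3 (by decide))
        (NoBox.split4 2048
         (NoBox.split0 3072
          (nb lf6_4 (by decide))
          (NoBox.split1 3072
           (NoBox.split4 1024
            (nb lf6_5 (by decide))
            (nb lf6_6 (by decide)))
           (NoBox.split2 3072
            (NoBox.split4 1024
             (NoBox.split0 3584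
              (NoBox.split2 2560
               (nb lf6_7 (by decide))
               (NoBox.split3 2560
                (nb lf6_8 (by decide))
                (nb lf6_9 (by decide))))
              (nb lf6_10 (by decide)))
             (nb lf6_11 (by decide)))
            (nb lf6_12 (by decide)))))
         (nb lf6_13 (by decide))))))))

end Vale.Agent.Lib.P226K.BB
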