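import Vale.Agent.Lib.P226K.Par7

namespace Vale.Agent.Lib.P226K.BB

theorem lf7_17 : cover par7 45 2048 2048 2048 2048 2048 4096 4096 4096 4096 4096 = true := by decide +kernel

end Vale.Agent.Lib.P226K.BB
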