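import Vale.Agent.Lib.P226K.Run7_0
import Vale.Agent.Lib.P226K.Run7_1
import Vale.Agent.Lib.P226K.BBSplit

namespace Vale.Agent.Lib.P226K.BB

/-- The closure for the table `par7`. -/
theorem no7 {k : ℕ} {a q : ℕ → ℝ} (h : Hyp par7 k a q) (hk : 6 ≤ k) (hKk : 7 ≤ k) : False := by
  have nb : ∀ {l0 l1 l2 l3 l4 u0 u1 u2 u3 u4 : ℕ}, cover par7 45 l0 l1 l2 l3 l4 u0 u1 u2 u3 u4 = true →
      (u0 ≤ 4096 ∧ u1 ≤ 4096 ∧ u2 ≤ 4096 ∧ u3 ≤ 4096 ∧ u4 ≤ 4096) → NoBox a l0 l1 l2 l3 l4 u0 u1 u2 u3 u4 :=
    fun hc hu => NoBox.of_cover h hk hKk ok7 hc hu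
  exact NoBox.top h (
    (NoBox.split0 2048
     (nb lf7_0 (by decide))
     (NoBox.split1 2048
      (nb lf7_1 (by decide))
      (NoBox.split2 2048
       (nb lf7_2 (by decide))
       (NoBox.split3 2048
        (NoBox.split0 3072
         (nb lf7_3 (by decide))
         (NoBox.split1 3072
          (nb lf7_4 (by decide))
          (NoBox.split2 3072
           (nb lf7_5 (by decide))
           (nb lf7_6 (by decide)))))
        (NoBox.split4 2048
         (NoBox.split0 3072
          (nb lf7_7 (by decide))
          (NoBox.split1 3072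
           (NoBox.split4 1024
            (NoBox.split0 3584
             (nb lf7_8 (by decide))
             (nb lf7_9 (by decide)))
            (nb lf7_10 (by decide)))
           (NoBox.split2 3072
            (NoBox.split4 1024
             (NoBox.split0 3584
              (NoBox.split2 2560
               (nb lf7_11 (by decide))
               (NoBox.split3 2560
                (nb lf7_12 (by decide))
                (nb lf7_13 (by decide))))
              (nb lf7_14 (by decide)))
             (nb lf7_15 (by decide)))
            (nb lf7_16 (by decide)))))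
         (nb lf7_17 (by decide))))))))

end Vale.Agent.Lib.P226K.BB
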