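import Vale.Agent.Lib.P226K.Par9

namespace Vale.Agent.Lib.P226K.BB

theorem lf9_15 : cover par9 45 3072 3072 3072 2048 0 4096 4096 4096 4096 2048 = true := by decide +kernel

theorem lf9_16 : cover par9 45 2048 2048 2048 2048 2048 4096 4096 4096 4096 4096 = true := by decide +kernel

end Vale.Agent.Lib.P226K.BB
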