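import Vale.Agent.Lib.P226K.Run9_0
import Vale.Agent.Lib.P226K.Run9_1
import Vale.Agent.Lib.P226K.BBSplit

namespace Vale.Agent.Lib.P226K.BB

/-- The closure for the table `par9`. -/
theorem no9 {k : ℕ} {a q : ℕ → ℝ} (h : Hyp par9 k a q) (hk : 6 ≤ k) (hKk : 9 ≤ k) : False := by
  have nb : ∀ {l0 l1 l2 l3 l4 u0 u1 u2 u3 u4 : ℕ}, cover par9 45 l0 l1 l2 l3 l4 u0 u1 u2 u3 u4 = true →
      (u0 ≤ 4096 ∧ u1 ≤ 4096 ∧ u2 ≤ 4096 ∧ u3 ≤ 4096 ∧ u4 ≤ 4096) → NoBox a l0 l1 l2 l3 l4 u0 u1 u2 u3 u4 :=
    fun hc hu => NoBox.of_cover h hk hKk ok9 hc hu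
  exact NoBox.top h (
    (NoBox.split0 2048
     (nb lf9_0 (by decide))
     (NoBox.split1 2048
      (nb lf9_1 (by decide))
      (NoBox.split2 2048
       (nb lf9_2 (by decide))
       (NoBox.split3 2048
        (NoBox.split0 3072
         (nb lf9_3 (by decide))
         (NoBox.split1 3072
          (nb lf9_4 (by decide))
          (NoBox.split2 3072
           (NoBox.split3 1024
            (nb lf9_5 (by decide))
            (nb lf9_6 (by decide)))
           (nb lf9_7 (by decide)))))
        (NoBox.split4 2048
         (NoBox.split0 3072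
          (nb lf9_8 (by decide))
          (NoBox.split1 3072
           (NoBox.split4 1024
            (NoBox.split0 3584
             (nb lf9_9 (by decide))
             (nb lf9_10 (by decide)))
            (nb lf9_11 (by decide)))
           (NoBox.split2 3072
            (NoBox.split4 1024
             (NoBox.split0 3584
              (nb lf9_12 (by decide))
              (nb lf9_13 (by decide)))
             (nb lf9_14 (by decide)))
            (nb lf9_15 (by decide)))))
         (nb lf9_16 (by decide))))))))

end Vale.Agent.Lib.P226K.BB
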