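import Vale.Agent.Lib.P226K.Defs
import Vale.Agent.Lib.P226R.Fixed
import Vale.Agent.Lib.P226R.Width
import Vale.Agent.Lib.P226R.Bdry

/-!
Extremal configurations: if `P(k-1)` holds and `P(k)` fails, then in every dimension `D ≥ k-1`
there is a centered pairwise obtuse configuration which is a fixed point of its own Voronoi moments,
with `W y = TT y > 9/4`.
-/

open MeasureTheory ProbabilityTheory

namespace Vale.Agent.Lib.P226K

open Vale.Agent.Lib.P226

variable {k D d : ℕ}

/-- `n+1` centered vectors embed isometrically into `ℝ^D` as soon as `n ≤ D`. -/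
theorem exists_embed {n : ℕ} (hD : n ≤ D) (y : Fin (n + 1) → E d) (h : ∑ i, y i = 0) :
    ∃ v : Fin (n + 1) → E D, ∀ i j, inner ℝ (y i) (y j) = (inner ℝ (v i) (v j) : ℝ) := by
  classical
  let S : Submodule ℝ (E d) := Submodule.span ℝ (Set.range (fun i : Fin n => y i.succ))
  have hdim : Module.finrank ℝ S ≤ D := by
    have := finrank_range_le_card (R := ℝ) (fun i : Fin n => y i.succ)
    have h2 : Module.finrank ℝ S ≤ n := by simpa [S, Set.finrank] using this
    exact h2.trans hD
  let b := stdOrthonormalBasis ℝ S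
  let c := EuclideanSpace.basisFun (Fin D) ℝ
  let e : Fin (Module.finrank ℝ S) → Fin D := Fin.castLE hdim
  have he : Function.Injective e := Fin.castLE_injective hdim
  let f : S →ₗ[ℝ] E D := b.toBasis.constr ℝ (fun i => c (e i))
  have hf : Orthonormal ℝ (f ∘ b.toBasis) := by
    have h1 : (f ∘ b.toBasis) = (fun i => c (e i)) := by
      ext1 i
      simp [f]
    rw [h1]
    exact c.orthonormal.comp e he
  have hv : Orthonormal ℝ (b.toBasis : Fin (Module.finrank ℝ S) → S) := by
    simp
  let L : S →ₗᵢ[ℝ] E D := f.isometryOfOrthonormal hv hf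
  have hmem : ∀ i, y i ∈ S := by
    intro i
    refine Fin.cases ?_ (fun j => Submodule.subset_span ⟨j, rfl⟩) i
    have h0 : y 0 = -∑ j : Fin n, y j.succ := by
      rw [Fin.sum_univ_succ] at h
      exact eq_neg_of_add_eq_zero_left h
    rw [h0]
    exact S.neg_mem (S.sum_mem fun j _ => Submodule.subset_span ⟨j, rfl⟩)
  refine ⟨fun i => L ⟨y i, hmem i⟩, fun i j => ?_⟩
  rw [L.inner_map_map]
  rfl

/-- A set squeezed between the open and the closed Voronoi cell is a.e. equal to the open cell. -/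
theorem ae_eq_squeeze {n : ℕ} {y : Fin (n + 1) → E d} {i : Fin (n + 1)}
    (hne : ∀ j, j ≠ i → y j ≠ y i) {B : Set (E d)}
    (h1 : ∀ x, (∀ j, j ≠ i → (inner ℝ x (y j) : ℝ) < inner ℝ x (y i)) → x ∈ B)
    (h2 : ∀ x ∈ B, ∀ j, (inner ℝ x (y j) : ℝ) ≤ inner ℝ x (y i)) :
    B =ᵐ[gam d] cellO (y i) (fun l : Fin n => y (i.succAbove l)) := by
  have h3 := cell_ae_eq (y i) (fun l : Fin n => y (i.succAbove l))
    (fun l => hne _ (Fin.succAbove_ne i l))
  have h1' : cellO (y i) (fun l : Fin n => y (i.succAbove l)) ≤ᵐ[gam d] B := by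
    refine Filter.Eventually.of_forall (fun x hx => h1 x (fun j hj => ?_))
    obtain ⟨l, rfl⟩ := Fin.exists_succAbove_eq hj
    exact hx l
  have h2' : B ≤ᵐ[gam d] cellC (y i) (fun l : Fin n => y (i.succAbove l)) :=
    Filter.Eventually.of_forall (fun x hx l => h2 x hx _)
  exact Filter.EventuallyLE.antisymm (h2'.trans h3.le) h1'

/-- Extremal configurations exist in every dimension `D ≥ k-1`, if `P(k-1)` holds and `P(k)` fails. -/
theorem exists_ext [NeZero k] (hk : 2 ≤ k) (hD : k - 1 ≤ D) (h1 : PartitionBound (k - 1))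
    (h2 : ¬ PartitionBound k) : ∃ (y : Fin k → E D) (A : Fin k → Set (E D)), Ext y A := by
  classical
  obtain ⟨n, rfl⟩ : ∃ n, k = n + 1 := ⟨k - 1, by omega⟩
  simp only [Nat.add_sub_cancel] at hD h1
  unfold PartitionBound at h2
  push Not at h2
  obtain ⟨d, A0, hA0, hF⟩ := h2
  have hpi : 0 < Real.pi := Real.pi_pos
  have h2pi : 0 < 2 * Real.pi := by positivity
  have hs2pi : 0 < Real.sqrt (2 * Real.pi) := Real.sqrt_pos.mpr h2pi
  -- the starting configuration
  set y0 : Fin (n + 1) → E d := fun i => nz (A0 i) with hy0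
  have hs0 : ∑ i, y0 i = 0 := sum_nz_eq_zero hA0
  have hT0 : TT y0 = 2 * Real.pi * FF A0 := TT_nz_eq A0
  have hTbig : 9 / 4 < TT y0 := by
    rw [hT0]
    have e : (9 / 4 : ℝ) = 2 * Real.pi * (9 / (8 * Real.pi)) := by field_simp; ring
    rw [e]
    exact mul_lt_mul_of_pos_left hF h2pi
  have hW0 : TT y0 ≤ W y0 := by
    have := sum_inner_nz_le_W hA0 y0
    refine le_trans (le_of_eq ?_) this
    simp [TT, hy0]
  -- transport to dimension `D`
  obtain ⟨v, hv⟩ := exists_embed (D := D) hD y0 hs0
  have hvs : ∑ i, v i = 0 := by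
    have h3 := norm_sum_sq_eq_of_gram y0 v hv (fun _ => 1)
    simp only [one_smul, hs0, norm_zero] at h3
    have h4 : ‖∑ i, v i‖ = 0 := by
      have h5 : ‖∑ i, v i‖ ^ 2 = 0 := by rw [← h3]; norm_num
      exact pow_eq_zero_iff (n := 2) (by norm_num) |>.mp h5
    exact norm_eq_zero.mp h4
  have hTv : TT v = TT y0 := by
    simp only [TT]
    refine Finset.sum_congr rfl (fun i _ => ?_)
    rw [← real_inner_self_eq_norm_sq, ← real_inner_self_eq_norm_sq, hv]
  have hWv : W v = W y0 := (W_congr_gram y0 v hv).symm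
  have hTpos : 0 < TT v := by rw [hTv]; linarith
  obtain ⟨K, y, B, hK, hsy, hW0K, hTy, hWy, hB, hnz, hO, hC⟩ := exists_fixed v hvs hTpos
  -- the extremal constant is large
  have hKT : Real.sqrt (TT v) ≤ K := by
    have h3 : Real.sqrt (TT v) * Real.sqrt (TT v) ≤ K * Real.sqrt (TT v) := by
      rw [Real.mul_self_sqrt hTpos.le, hTv]
      have := hW0K
      rw [hWv, hTv] at this
      exact hW0.trans this
    exact le_of_mul_le_mul_right h3 (Real.sqrt_pos.mpr hTpos)
  have hbig : 9 / 4 < TT y := by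
    rw [hTy]
    have h3 : TT v ≤ K ^ 2 := by
      have h4 := Real.sq_sqrt hTpos.le
      have h5 := Real.sqrt_nonneg (TT v)
      nlinarith
    rw [hTv] at h3
    linarith
  have hTB : TT y = 2 * Real.pi * FF B := by
    have : y = fun i => nz (B i) := by ext1 i; exact (hnz i).symm
    rw [this]; exact TT_nz_eq B
  have hFB : 9 / (8 * Real.pi) < FF B := by
    have e : (9 / 4 : ℝ) = 2 * Real.pi * (9 / (8 * Real.pi)) := by field_simp; ring
    rw [hTB, e] at hbig
    exact lt_of_mul_lt_mul_left hbig h2pi.le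
  -- strictly obtuse
  have hobt : ∀ i j, i ≠ j → (inner ℝ (y i) (y j) : ℝ) < 0 := by
    intro i j hij
    by_contra hne
    push Not at hne
    have hin : 0 ≤ (inner ℝ (mom (B i)) (mom (B j)) : ℝ) := by
      rw [← hnz i, ← hnz j, nz, nz, real_inner_smul_left, real_inner_smul_right] at hne
      have h5 := Real.mul_self_sqrt h2pi.le
      by_contra hlt
      push Not at hlt
      have h6 : Real.sqrt (2 * Real.pi) * (Real.sqrt (2 * Real.pi) *
          (inner ℝ (mom (B i)) (mom (B j)) : ℝ)) < 0 :=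
        mul_neg_of_pos_of_neg hs2pi (mul_neg_of_pos_of_neg hs2pi hlt)
      linarith
    exact absurd (merge_PBc (c := 9 / (8 * Real.pi)) h1 hB hij hin) (not_le.mpr hFB)
  have hne : ∀ i j, j ≠ i → y j ≠ y i := by
    intro i j hij e
    have h3 := hobt j i hij
    rw [e, real_inner_self_eq_norm_sq] at h3
    nlinarith [sq_nonneg ‖y i‖]
  -- the conic Voronoi cells
  refine ⟨y, fx_vorCell y, ⟨hsy, fx_vorCell_isPart y, ?_, ?_, ?_, ?_, hbig, hobt⟩⟩
  · intro i x hx c hc
    refine ⟨?_, fun j hj => ?_⟩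
    · rw [real_inner_smul_left, hx.1, mx_smul_point y hc.le]
    · rw [real_inner_smul_left, mx_smul_point y hc.le]
      exact mul_lt_mul_of_pos_left (hx.2 j hj) hc
  · intro i x hx j
    have h3 : (inner ℝ x (y i) : ℝ) = mx y x := hx.1
    rw [h3]
    exact inner_le_mx y x j
  · intro i
    have h3 : fx_vorCell y i =ᵐ[gam D] B i := by
      have h4 := ae_eq_squeeze (y := y) (i := i) (fun j hj => hne i j hj) (B := B i) (hO i) (hC i)
      have h5 : fx_vorCell y i =ᵐ[gam D] cellO (y i) (fun l : Fin n => y (i.succAbove l)) := by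
        refine ae_eq_squeeze (y := y) (i := i) (fun j hj => hne i j hj) ?_ ?_
        · intro x hx
          have hm : (inner ℝ x (y i) : ℝ) = mx y x := by
            obtain ⟨j, hj⟩ := exists_eq_mx y x
            by_cases hji : j = i
            · rw [← hj, hji]
            · have h6 := hx j hji
              have h7 := inner_le_mx y x i
              linarith
          refine ⟨hm, fun j hj => ?_⟩
          rw [← hm]
          exact hx j (ne_of_lt hj)
        · intro x hx j
          have h6 : (inner ℝ x (y i) : ℝ) = mx y x := hx.1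
          rw [h6]
          exact inner_le_mx y x j
      exact h5.trans h4.symm
    rw [← hnz i, nz, nz, mom, mom, setIntegral_congr_set h3]
  · rw [hWy, hTy]

end Vale.Agent.Lib.P226K
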