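import Vale.Agent.Lib.P226.Pair

/-! The propeller inequality for three cells, from the exact width of three points. -/

open MeasureTheory ProbabilityTheory

namespace Vale.Agent.Lib.P226K

open Vale.Agent.Lib.P226

/-- The width bound for three centered vectors. -/
theorem vbound_three : VBound 3 := by
  intro d y hy
  have hW : W y = (‖y 0 - y 1‖ + ‖y 0 - y 2‖ + ‖y 1 - y 2‖) / 2 := by
    rw [← width_three (y 0) (y 1) (y 2)]
    unfold W
    congr 2
    funext x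
    unfold mx
    apply le_antisymm
    · apply Finset.sup'_le
      intro i _
      fin_cases i
      · exact le_max_of_le_left (le_max_left _ _)
      · exact le_max_of_le_left (le_max_right _ _)
      · exact le_max_right _ _
    · apply max_le (max_le _ _)
      · exact Finset.le_sup' (fun i : Fin 3 => (inner ℝ x (y i) : ℝ)) (Finset.mem_univ 2)
      · exact Finset.le_sup' (fun i : Fin 3 => (inner ℝ x (y i) : ℝ)) (Finset.mem_univ 0)
      · exact Finset.le_sup' (fun i : Fin 3 => (inner ℝ x (y i) : ℝ)) (Finset.mem_univ 1)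
  have hT : TT y = ‖y 0‖ ^ 2 + ‖y 1‖ ^ 2 + ‖y 2‖ ^ 2 := by
    simp [TT, Fin.sum_univ_succ]
    ring
  have hs : y 0 + y 1 + y 2 = 0 := by
    simpa [Fin.sum_univ_succ, add_assoc] using hy
  have hz : ‖y 0 + y 1 + y 2‖ ^ 2 = 0 := by rw [hs]; simp
  have e1 : ‖y 0 - y 1‖ ^ 2 + ‖y 0 - y 2‖ ^ 2 + ‖y 1 - y 2‖ ^ 2 = 3 * TT y := by
    rw [hT]
    have h01 := @norm_sub_sq_real _ _ _ (y 0) (y 1)
    have h02 := @norm_sub_sq_real _ _ _ (y 0) (y 2)
    have h12 := @norm_sub_sq_real _ _ _ (y 1) (y 2)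
    have h3 : ‖y 0 + y 1 + y 2‖ ^ 2 = ‖y 0‖ ^ 2 + ‖y 1‖ ^ 2 + ‖y 2‖ ^ 2 +
        2 * (inner ℝ (y 0) (y 1) : ℝ) + 2 * (inner ℝ (y 0) (y 2) : ℝ) + 2 * (inner ℝ (y 1) (y 2) : ℝ) := by
      rw [@norm_add_sq_real, @norm_add_sq_real, inner_add_left]
      ring
    rw [hz] at h3
    rw [h01, h02, h12]
    nlinarith
  have hT0 : 0 ≤ TT y := Finset.sum_nonneg (fun i _ => by positivity)
  rw [hW]
  have hsq : ((‖y 0 - y 1‖ + ‖y 0 - y 2‖ + ‖y 1 - y 2‖) / 2) ^ 2 ≤ ((3 / 2) * Real.sqrt (TT y)) ^ 2 := by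
    rw [mul_pow, Real.sq_sqrt hT0]
    nlinarith [sq_nonneg (‖y 0 - y 1‖ - ‖y 0 - y 2‖), sq_nonneg (‖y 0 - y 1‖ - ‖y 1 - y 2‖),
      sq_nonneg (‖y 0 - y 2‖ - ‖y 1 - y 2‖)]
  exact abs_le_of_sq_le_sq' hsq (by positivity) |>.2

/-- The propeller inequality for three cells. -/
theorem partition_three : PartitionBound 3 := partition_of_vbound vbound_three

end Vale.Agent.Lib.P226K
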