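import Vale.Agent.Lib.P226K.Defs

/-!
The third moment of the shifted maximum `U = h_S + ⟪x, y_S⟫ / b`.
-/

open MeasureTheory ProbabilityTheory

namespace Vale.Agent.Lib.P226K

open Vale.Agent.Lib.P226

variable {k D : ℕ}

/-- `∫ t₊³ dγ₁ = 2 / √(2π)`. -/
theorem integral_pos_cube_gaussian :
    Real.sqrt (2 * Real.pi) * ∫ t, (max 0 t) ^ 3 ∂(gaussianReal 0 1) = 2 := by
  rw [integral_gaussianReal_eq_integral_smul (by norm_num)]
  have h0 : ∫ t, gaussianPDFReal 0 1 t • (max 0 t) ^ 3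
      = ∫ t in Set.Ioi (0 : ℝ), gaussianPDFReal 0 1 t • (max 0 t) ^ 3 := by
    symm
    apply setIntegral_eq_integral_of_forall_compl_eq_zero
    intro x hx
    have hx' : x ≤ 0 := by simpa using hx
    rw [max_eq_left hx']
    simp
  rw [h0]
  have h1 : ∀ t ∈ Set.Ioi (0 : ℝ), gaussianPDFReal 0 1 t • (max 0 t) ^ 3
      = (Real.sqrt (2 * Real.pi))⁻¹ * (t ^ (3 : ℝ) * Real.exp (-(1 / 2) * t ^ (2 : ℝ))) := by
    intro t ht
    have ht' : (0 : ℝ) ≤ t := le_of_lt ht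
    rw [max_eq_right ht']
    simp only [gaussianPDFReal, smul_eq_mul]
    norm_num
    ring_nf
  rw [setIntegral_congr_fun measurableSet_Ioi h1, integral_const_mul]
  have h2 := integral_rpow_mul_exp_neg_mul_rpow (p := 2) (q := 3) (b := 1 / 2) (by norm_num)
    (by norm_num) (by norm_num)
  rw [h2]
  have h3 : Real.Gamma ((3 + 1) / 2) = 1 := by
    have : ((3 : ℝ) + 1) / 2 = 1 + 1 := by norm_num
    rw [this, Real.Gamma_add_one (by norm_num), Real.Gamma_one]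
    norm_num
  rw [h3]
  have h4 : ((1 / 2 : ℝ)) ^ (-((3 : ℝ) + 1) / 2) = 4 := by
    have : (-((3 : ℝ) + 1) / 2) = ((-2 : ℤ) : ℝ) := by norm_num
    rw [this, Real.rpow_intCast]
    norm_num
  rw [h4]
  have hs : Real.sqrt (2 * Real.pi) ≠ 0 := by positivity
  field_simp
  norm_num

theorem integrable_pos_cube_gaussianReal (v : NNReal) :
    Integrable (fun t : ℝ => (max 0 t) ^ 3) (gaussianReal 0 v) := by
  have h := (memLp_id_gaussianReal (μ := 0) (v := v) 3).integrable_norm_pow (by norm_num)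
  refine Integrable.mono' h (by fun_prop) (Filter.Eventually.of_forall fun t => ?_)
  simp only [id, Real.norm_eq_abs]
  rw [abs_of_nonneg (by positivity)]
  have h1 : max 0 t ≤ |t| := max_le (abs_nonneg t) (le_abs_self t)
  have h2 : 0 ≤ max 0 t := le_max_left _ _
  norm_cast
  gcongr

theorem integrable_pos_inner_cube (u : E D) :
    Integrable (fun x : E D => (max 0 (inner ℝ x u : ℝ)) ^ 3) (gam D) := by
  have hL : (gam D).map (innerSL ℝ u) = gaussianReal 0 (‖u‖ ^ 2).toNNReal := by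
    rw [IsGaussian.map_eq_gaussianReal, integral_strongDual_stdGaussian,
      variance_dual_stdGaussian, innerSL_apply_norm]
  have h := integrable_pos_cube_gaussianReal (‖u‖ ^ 2).toNNReal
  rw [← hL] at h
  rw [integrable_map_measure (by fun_prop) (innerSL ℝ u).continuous.aemeasurable] at h
  refine h.congr (Filter.Eventually.of_forall fun x => ?_)
  simp [real_inner_comm]

/-- The third moment of the positive part of a linear form. -/
theorem integral_pos_inner_cube (u : E D) :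
    Real.sqrt (2 * Real.pi) * ∫ x, (max 0 (inner ℝ x u : ℝ)) ^ 3 ∂(gam D) = 2 * ‖u‖ ^ 3 := by
  have hm : Measurable (fun t : ℝ => (max 0 t) ^ 3) := by fun_prop
  rw [integral_comp_inner u (fun t => (max 0 t) ^ 3) hm]
  have h1 : ∀ t : ℝ, (max 0 (‖u‖ * t)) ^ 3 = ‖u‖ ^ 3 * (max 0 t) ^ 3 := by
    intro t
    have : max 0 (‖u‖ * t) = ‖u‖ * max 0 t := by
      rw [mul_max_of_nonneg _ _ (norm_nonneg u), mul_zero]
    rw [this, mul_pow]
  simp_rw [h1]
  rw [integral_const_mul]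
  have := integral_pos_cube_gaussian
  calc Real.sqrt (2 * Real.pi) * (‖u‖ ^ 3 * ∫ t, (max 0 t) ^ 3 ∂(gaussianReal 0 1))
      = ‖u‖ ^ 3 * (Real.sqrt (2 * Real.pi) * ∫ t, (max 0 t) ^ 3 ∂(gaussianReal 0 1)) := by ring
    _ = 2 * ‖u‖ ^ 3 := by rw [this]; ring

/-- Convexity of the cube in the form needed. -/
theorem add_cube_le {u v θ : ℝ} (hu : 0 ≤ u) (hv : 0 ≤ v) (h0 : 0 < θ) (h1 : θ < 1) :
    (u + v) ^ 3 ≤ u ^ 3 / (1 - θ) ^ 2 + v ^ 3 / θ ^ 2 := by
  have hp : 0 < 1 - θ := by linarith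
  obtain ⟨A, hA⟩ : ∃ A, A = u / (1 - θ) := ⟨_, rfl⟩
  obtain ⟨B, hB⟩ : ∃ B, B = v / θ := ⟨_, rfl⟩
  have hA0 : 0 ≤ A := by rw [hA]; positivity
  have hB0 : 0 ≤ B := by rw [hB]; positivity
  have hu' : u = (1 - θ) * A := by rw [hA]; field_simp
  have hv' : v = θ * B := by rw [hB]; field_simp
  have e1 : u ^ 3 / (1 - θ) ^ 2 = (1 - θ) * A ^ 3 := by rw [hu']; field_simp
  have e2 : v ^ 3 / θ ^ 2 = θ * B ^ 3 := by rw [hv']; field_simp
  rw [e1, e2, hu', hv']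
  have key : (1 - θ) * A ^ 3 + θ * B ^ 3 - ((1 - θ) * A + θ * B) ^ 3
      = (1 - θ) * θ * (A - B) ^ 2 * ((2 - θ) * A + (1 + θ) * B) := by ring
  have hn : 0 ≤ (1 - θ) * θ * (A - B) ^ 2 * ((2 - θ) * A + (1 + θ) * B) := by
    have : 0 ≤ 2 - θ := by linarith
    positivity
  linarith

theorem hS_cube_le (y : Fin k → E D) {S : Finset (Fin k)} (hS' : S.Nonempty) (x : E D) :
    (max 0 (hS y S hS' x)) ^ 3 ≤ ∑ s ∈ S, (max 0 (inner ℝ x (y s) : ℝ)) ^ 3 := by
  obtain ⟨s, hs, hse⟩ := Finset.exists_mem_eq_sup' hS' (fun i => (inner ℝ x (y i) : ℝ))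
  have : hS y S hS' x = (inner ℝ x (y s) : ℝ) := hse
  rw [this]
  exact Finset.single_le_sum (f := fun s => (max 0 (inner ℝ x (y s) : ℝ)) ^ 3)
    (fun _ _ => by positivity) hs

/-- The third moment of the shifted maximum. -/
theorem moment_bound {y : Fin k → E D} {S : Finset (Fin k)} (hS' : S.Nonempty) {b θ : ℝ} (hb : 0 < b)
    (h0 : 0 < θ) (h1 : θ < 1) :
    Real.sqrt (2 * Real.pi) * ∫ x, (max 0 (shiftU y S hS' b x)) ^ 3 ∂(gam D) ≤
      2 * ((∑ s ∈ S, ‖y s‖ ^ 3) / (1 - θ) ^ 2 + (‖∑ s ∈ S, y s‖ / b) ^ 3 / θ ^ 2) := by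
  have hp : 0 < 1 - θ := by linarith
  obtain ⟨z, hz⟩ : ∃ z : E D, z = b⁻¹ • ∑ s ∈ S, y s := ⟨_, rfl⟩
  have hzn : ‖z‖ = ‖∑ s ∈ S, y s‖ / b := by
    rw [hz, norm_smul, norm_inv, Real.norm_eq_abs, abs_of_pos hb]
    field_simp
  have hzi : ∀ x : E D, (inner ℝ x z : ℝ) = (inner ℝ x (∑ s ∈ S, y s) : ℝ) / b := by
    intro x
    rw [hz, inner_smul_right]
    field_simp
  -- pointwise bound
  have hpt : ∀ x : E D, (max 0 (shiftU y S hS' b x)) ^ 3 ≤
      (∑ s ∈ S, (max 0 (inner ℝ x (y s) : ℝ)) ^ 3) / (1 - θ) ^ 2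
        + (max 0 (inner ℝ x z : ℝ)) ^ 3 / θ ^ 2 := by
    intro x
    have a1 : 0 ≤ max 0 (hS y S hS' x) := le_max_left _ _
    have a2 : 0 ≤ max 0 (inner ℝ x z : ℝ) := le_max_left _ _
    have a3 : max 0 (shiftU y S hS' b x) ≤ max 0 (hS y S hS' x) + max 0 (inner ℝ x z : ℝ) := by
      refine max_le (by positivity) ?_
      have : shiftU y S hS' b x = hS y S hS' x + (inner ℝ x z : ℝ) := by
        rw [hzi]; rfl
      rw [this]
      exact add_le_add (le_max_right _ _) (le_max_right _ _)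
    have a4 : (max 0 (shiftU y S hS' b x)) ^ 3
        ≤ (max 0 (hS y S hS' x) + max 0 (inner ℝ x z : ℝ)) ^ 3 :=
      pow_le_pow_left₀ (le_max_left _ _) a3 3
    have a5 := add_cube_le a1 a2 h0 h1
    have a6 : (max 0 (hS y S hS' x)) ^ 3 / (1 - θ) ^ 2
        ≤ (∑ s ∈ S, (max 0 (inner ℝ x (y s) : ℝ)) ^ 3) / (1 - θ) ^ 2 := by
      gcongr
      exact hS_cube_le y hS' x
    linarith
  have hi1 : Integrable (fun x : E D => ∑ s ∈ S, (max 0 (inner ℝ x (y s) : ℝ)) ^ 3) (gam D) :=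
    integrable_finsetSum _ (fun s _ => integrable_pos_inner_cube (y s))
  have hi2 : Integrable (fun x : E D => (∑ s ∈ S, (max 0 (inner ℝ x (y s) : ℝ)) ^ 3) / (1 - θ) ^ 2
      + (max 0 (inner ℝ x z : ℝ)) ^ 3 / θ ^ 2) (gam D) :=
    (hi1.div_const _).add ((integrable_pos_inner_cube z).div_const _)
  have hmono := integral_mono_of_nonneg (μ := gam D)
    (f := fun x => (max 0 (shiftU y S hS' b x)) ^ 3)
    (Filter.Eventually.of_forall fun x => by
      show (0 : ℝ) ≤ (max 0 (shiftU y S hS' b x)) ^ 3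
      positivity) hi2 (Filter.Eventually.of_forall hpt)
  rw [integral_add (hi1.div_const _) ((integrable_pos_inner_cube z).div_const _),
    integral_div, integral_div, integral_finsetSum _ (fun s _ => integrable_pos_inner_cube (y s))]
    at hmono
  have hs : 0 < Real.sqrt (2 * Real.pi) := by positivity
  have hmono' := mul_le_mul_of_nonneg_left hmono hs.le
  refine hmono'.trans (le_of_eq ?_)
  have e1 := integral_pos_inner_cube z
  have e2 : Real.sqrt (2 * Real.pi) * ∑ s ∈ S, ∫ x, (max 0 (inner ℝ x (y s) : ℝ)) ^ 3 ∂(gam D)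
      = 2 * ∑ s ∈ S, ‖y s‖ ^ 3 := by
    rw [Finset.mul_sum, Finset.mul_sum]
    exact Finset.sum_congr rfl (fun s _ => integral_pos_inner_cube (y s))
  rw [← hzn]
  calc Real.sqrt (2 * Real.pi) * ((∑ s ∈ S, ∫ x, (max 0 (inner ℝ x (y s) : ℝ)) ^ 3 ∂(gam D)) / (1 - θ) ^ 2
        + (∫ x, (max 0 (inner ℝ x z : ℝ)) ^ 3 ∂(gam D)) / θ ^ 2)
      = (Real.sqrt (2 * Real.pi) * ∑ s ∈ S, ∫ x, (max 0 (inner ℝ x (y s) : ℝ)) ^ 3 ∂(gam D)) / (1 - θ) ^ 2
        + (Real.sqrt (2 * Real.pi) * ∫ x, (max 0 (inner ℝ x z : ℝ)) ^ 3 ∂(gam D)) / θ ^ 2 := by ring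
    _ = _ := by rw [e1, e2]; ring

end Vale.Agent.Lib.P226K
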