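import Vale.Agent.Lib.P226K.Step
import Vale.Agent.Lib.P226K.CapOdd
import Vale.Agent.Lib.P226K.Run6
import Vale.Agent.Lib.P226K.Run7
import Vale.Agent.Lib.P226K.Run9
import Vale.Agent.Lib.P226K.Run11
import Vale.Agent.Lib.P226.Main
import Vale.Agent.Lib.P226K4.Main

/-!
The steps `P(k-1) ⇒ P(k)` for all `k ≥ 6`, and the propeller inequality for every number of cells.
-/

open MeasureTheory ProbabilityTheory

namespace Vale.Agent.Lib.P226K

open Vale.Agent.Lib.P226

variable {k D : ℕ}

/-- A cell of an extremal configuration. -/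
theorem cell_meas [NeZero k] {y : Fin k → E D} {A : Fin k → Set (E D)} (h : Ext y A) (i : Fin k) :
    MeasurableSet (A i) := h.part.meas i

theorem sqrt_two_pi_le : Real.sqrt (2 * Real.pi) ≤ 25067 / 10000 := by
  rw [Real.sqrt_le_left (by norm_num)]
  have := Real.pi_lt_d4
  nlinarith

/-- One tangent line of the isoperimetric type gives one entry of the table. -/
theorem line_iso {a q s Psi Pu sq : ℝ} {P Z : ℕ} (h : a ≤ sq * s * q + Psi) (hPsi : Psi ≤ Pu)
    (hsq : sq ≤ 25067 / 10000) (hq : 0 ≤ q) (hs : 0 ≤ s)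
    (h1 : (P : ℝ) * (25067 / 10000 * s) ≤ 1048576) (h2 : (P : ℝ) * Pu ≤ Z) :
    (P : ℝ) * a - Z ≤ 1048576 * q := by
  have h3 : a ≤ (25067 / 10000 * s) * q + Pu := by
    have : sq * s * q ≤ (25067 / 10000 * s) * q :=
      mul_le_mul_of_nonneg_right (mul_le_mul_of_nonneg_right hsq hs) hq
    linarith
  exact line_of h3 hq h1 h2

/-- The table of lines of `par6`. -/
theorem lines6 {a q : ℝ} (hq : 0 ≤ q) (hz : a ≤ (709 / 200) * q)
    (hc : ∀ s : ℝ, 0 ≤ s → s ≤ 1 → a ≤ (16 / 3) * s * q + (1 - (8 / 3) * s + 2 * s ^ 2 - s ^ 4 / 3)) :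
    ∀ e ∈ BB.par6.l0 :: BB.par6.ls, (e.1 : ℝ) * a - (e.2 : ℝ) ≤ 1048576 * q := by
  intro e he
  have hs : BB.par6.l0 :: BB.par6.ls = [(295790, 0), (1310720, 845194), (983040, 536871), (786432, 359425), (655360, 247268), (561737, 172265), (491520, 120325)] := rfl
  rw [hs] at he
  simp only [List.mem_cons, List.not_mem_nil, or_false] at he
  rcases he with rfl|rfl|rfl|rfl|rfl|rfl|rfl
  · simp only
    push_cast
    linarith
  · exact line_of (hc (3 / 20) (by norm_num) (by norm_num)) hq (by norm_num) (by norm_num)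
  · exact line_of (hc (1 / 5) (by norm_num) (by norm_num)) hq (by norm_num) (by norm_num)
  · exact line_of (hc (1 / 4) (by norm_num) (by norm_num)) hq (by norm_num) (by norm_num)
  · exact line_of (hc (3 / 10) (by norm_num) (by norm_num)) hq (by norm_num) (by norm_num)
  · exact line_of (hc (7 / 20) (by norm_num) (by norm_num)) hq (by norm_num) (by norm_num)
  · exact line_of (hc (2 / 5) (by norm_num) (by norm_num)) hq (by norm_num) (by norm_num)

/-- The table of lines of `par7`. -/
theorem lines7 {a q : ℝ} (hq : 0 ≤ q) (hz : a ≤ (709 / 200) * q)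
    (hc : ∀ s : ℝ, 0 ≤ s → s ≤ 1 → a ≤ (32 / 5) * s * q + ((1 - s ^ 2) ^ 3 - (16 / 5) * s + 6 * s ^ 2 - 4 * s ^ 4 + (6 / 5) * s ^ 6)) :
    ∀ e ∈ BB.par7.l0 :: BB.par7.ls, (e.1 : ℝ) * a - (e.2 : ℝ) ≤ 1048576 * q := by
  intro e he
  have hs : BB.par7.l0 :: BB.par7.ls = [(295790, 0), (1365333, 899746), (1024000, 577688), (819200, 391916), (655360, 251425), (546133, 164958), (468114, 109006)] := rfl
  rw [hs] at he
  simp only [List.mem_cons, List.not_mem_nil, or_false] at he
  rcases he with rfl|rfl|rfl|rfl|rfl|rfl|rfl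
  · simp only
    push_cast
    linarith
  · exact line_of (hc (3 / 25) (by norm_num) (by norm_num)) hq (by norm_num) (by norm_num)
  · exact line_of (hc (4 / 25) (by norm_num) (by norm_num)) hq (by norm_num) (by norm_num)
  · exact line_of (hc (1 / 5) (by norm_num) (by norm_num)) hq (by norm_num) (by norm_num)
  · exact line_of (hc (1 / 4) (by norm_num) (by norm_num)) hq (by norm_num) (by norm_num)
  · exact line_of (hc (3 / 10) (by norm_num) (by norm_num)) hq (by norm_num) (by norm_num)
  · exact line_of (hc (7 / 20) (by norm_num) (by norm_num)) hq (by norm_num) (by norm_num)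

/-- The table of lines of `par9`. -/
theorem lines9 {a q : ℝ} (hq : 0 ≤ q) (hz : a ≤ (709 / 200) * q)
    (hc : ∀ s : ℝ, 0 ≤ s → s ≤ 1 → a ≤ (256 / 35) * s * q + ((1 - s ^ 2) ^ 4 - (128 / 35) * s + 8 * s ^ 2 - 8 * s ^ 4 + (24 / 5) * s ^ 6 - (8 / 7) * s ^ 8)) :
    ∀ e ∈ BB.par9.l0 :: BB.par9.ls, (e.1 : ℝ) * a - (e.2 : ℝ) ≤ 1048576 * q := by
  intro e he
  have hs : BB.par9.l0 :: BB.par9.ls = [(295790, 0), (1433600, 966371), (1024000, 579213), (796444, 373726), (651636, 250511), (551384, 171287), (477866, 118144)] := rfl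
  rw [hs] at he
  simp only [List.mem_cons, List.not_mem_nil, or_false] at he
  rcases he with rfl|rfl|rfl|rfl|rfl|rfl|rfl
  · simp only
    push_cast
    linarith
  · exact line_of (hc (1 / 10) (by norm_num) (by norm_num)) hq (by norm_num) (by norm_num)
  · exact line_of (hc (7 / 50) (by norm_num) (by norm_num)) hq (by norm_num) (by norm_num)
  · exact line_of (hc (9 / 50) (by norm_num) (by norm_num)) hq (by norm_num) (by norm_num)
  · exact line_of (hc (11 / 50) (by norm_num) (by norm_num)) hq (by norm_num) (by norm_num)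
  · exact line_of (hc (13 / 50) (by norm_num) (by norm_num)) hq (by norm_num) (by norm_num)
  · exact line_of (hc (3 / 10) (by norm_num) (by norm_num)) hq (by norm_num) (by norm_num)

/-- The table of lines of `par11`. -/
theorem lines11 {a q : ℝ} (hq : 0 ≤ q) (hz : a ≤ (709 / 200) * q)
    (hc : ∀ s : ℝ, 0 ≤ s → a ≤ Real.sqrt (2 * Real.pi) * s * q + PsiT s) :
    ∀ e ∈ BB.par11.l0 :: BB.par11.ls, (e.1 : ℝ) * a - (e.2 : ℝ) ≤ 1048576 * q := by
  intro e he
  have hs : BB.par11.l0 :: BB.par11.ls = [(295790, 0), (1673237, 1201218), (1045773, 604248), (836618, 414963), (697182, 294839), (597584, 214115), (522886, 157651), (464788, 117081)] := rfl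
  rw [hs] at he
  simp only [List.mem_cons, List.not_mem_nil, or_false] at he
  obtain ⟨-, t1, t2, t3, t4, t5, t6, t7⟩ := PsiT_table
  have hsq : Real.sqrt (2 * Real.pi) ≤ 25067 / 10000 := sqrt_two_pi_le
  rcases he with rfl|rfl|rfl|rfl|rfl|rfl|rfl|rfl
  · simp only
    push_cast
    linarith
  · exact line_iso (hc (1 / 4) (by norm_num)) t1 hsq hq (by norm_num) (by norm_num)
      (by norm_num)
  · exact line_iso (hc (2 / 5) (by norm_num)) t2 hsq hq (by norm_num) (by norm_num)
      (by norm_num)
  · exact line_iso (hc (1 / 2) (by norm_num)) t3 hsq hq (by norm_num) (by norm_num)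
      (by norm_num)
  · exact line_iso (hc (3 / 5) (by norm_num)) t4 hsq hq (by norm_num) (by norm_num)
      (by norm_num)
  · exact line_iso (hc (7 / 10) (by norm_num)) t5 hsq hq (by norm_num) (by norm_num)
      (by norm_num)
  · exact line_iso (hc (4 / 5) (by norm_num)) t6 hsq hq (by norm_num) (by norm_num)
      (by norm_num)
  · exact line_iso (hc (9 / 10) (by norm_num)) t7 hsq hq (by norm_num) (by norm_num)
      (by norm_num)

/-- The step from five to six cells. -/
theorem step6 (hP : PartitionBound 5) : PartitionBound 6 :=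
  step_of (k := 6) (D := 5) BB.par6 (by norm_num) (by norm_num) (fun _ _ h => BB.no6 h le_rfl le_rfl)
    (fun _ _ h hz i => lines6 measureReal_nonneg (hz i) (fun s h0 h1 => by
      have := cap_five (h.part.meas i) (h.cone i) h0 h1
      rwa [h.fix i] at this)) hP

/-- The steps to seven and eight cells. -/
theorem step78 (k : ℕ) [NeZero k] (h7 : 7 ≤ k) (h8 : k ≤ 8) (hP : PartitionBound (k - 1)) :
    PartitionBound k :=
  step_of (k := k) (D := 7) BB.par7 (by omega) (by omega) (fun _ _ h => BB.no7 h (by omega) h7)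
    (fun _ _ h hz i => lines7 measureReal_nonneg (hz i) (fun s h0 h1 => by
      have := cap_seven (h.part.meas i) (h.cone i) h0 h1
      rwa [h.fix i] at this)) hP

/-- The steps to nine and ten cells. -/
theorem step910 (k : ℕ) [NeZero k] (h9 : 9 ≤ k) (h10 : k ≤ 10) (hP : PartitionBound (k - 1)) :
    PartitionBound k :=
  step_of (k := k) (D := 9) BB.par9 (by omega) (by omega) (fun _ _ h => BB.no9 h (by omega) h9)
    (fun _ _ h hz i => lines9 measureReal_nonneg (hz i) (fun s h0 h1 => by
      have := cap_nine (h.part.meas i) (h.cone i) h0 h1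
      rwa [h.fix i] at this)) hP

/-- The steps to eleven or more cells. -/
theorem step11 (k : ℕ) [NeZero k] (h11 : 11 ≤ k) (hP : PartitionBound (k - 1)) :
    PartitionBound k :=
  step_of (k := k) (D := k - 1) BB.par11 le_rfl (by omega) (fun _ _ h => BB.no11 h (by omega) h11)
    (fun _ _ h hz i => lines11 measureReal_nonneg (hz i) (fun s h0 => iso_line h i h0)) hP

/-- All steps. -/
theorem step_all (k : ℕ) (h6 : 6 ≤ k) (hP : PartitionBound (k - 1)) : PartitionBound k := by
  have : NeZero k := ⟨by omega⟩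
  by_cases h1 : k = 6
  · subst h1; exact step6 hP
  by_cases h2 : k ≤ 8
  · exact step78 k (by omega) h2 hP
  by_cases h3 : k ≤ 10
  · exact step910 k (by omega) h3 hP
  · exact step11 k (by omega) hP

/-- The propeller inequality for every number of cells. -/
theorem partitionBound_all (k : ℕ) : PartitionBound k := by
  have h5 : PartitionBound 5 := main_five partitionBound_four
  have up : ∀ k, 5 ≤ k → PartitionBound k := by
    intro k hk
    induction k, hk using Nat.le_induction with
    | base => exact h5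
    | succ n hn ih => exact step_all (n + 1) (by omega) (by simpa using ih)
  have down : ∀ m k, PartitionBound (k + m) → PartitionBound k := by
    intro m
    induction m with
    | zero => intro k h; exact h
    | succ m ih =>
      intro k h
      have h' : PartitionBound (k + m + 1) := by simpa [add_assoc] using h
      exact ih k (PBc_pred (c := 9 / (8 * Real.pi)) (k := k + m) h')
  exact down 5 k (up (k + 5) (by omega))

end Vale.Agent.Lib.P226K
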