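import Vale.Agent.Lib.P226.Law
import Vale.Agent.Lib.P226.Pair

/-!
Definitions for the all-`k` step of the propeller inequality: extremal configurations, the gain of a
group of vertices, the shifted maximum `U`.
-/

open MeasureTheory ProbabilityTheory

namespace Vale.Agent.Lib.P226K

open Vale.Agent.Lib.P226

variable {k D : ℕ}

/-- An extremal configuration: a centered pairwise obtuse family which is a fixed point of
`y ↦ √(2π) z(Voronoi cells of y)`, with `W y = TT y > 9/4`. -/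
structure Ext [NeZero k] (y : Fin k → E D) (A : Fin k → Set (E D)) : Prop where
  sum : ∑ i, y i = 0
  part : IsPart A
  cone : ∀ i, ∀ x ∈ A i, ∀ c : ℝ, 0 < c → c • x ∈ A i
  vor : ∀ i, ∀ x ∈ A i, ∀ j, (inner ℝ x (y j) : ℝ) ≤ inner ℝ x (y i)
  fix : ∀ i, nz (A i) = y i
  wEq : W y = TT y
  big : 9 / 4 < TT y
  neg : ∀ i j, i ≠ j → (inner ℝ (y i) (y j) : ℝ) < 0

/-- The maximum of `⟪x, y i⟫` over `i ∈ S`. -/
noncomputable def hS (y : Fin k → E D) (S : Finset (Fin k)) (h : S.Nonempty) (x : E D) : ℝ :=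
  S.sup' h (fun i => (inner ℝ x (y i) : ℝ))

/-- The gain of the group `S` against the group `B`. -/
noncomputable def gainS (y : Fin k → E D) (S B : Finset (Fin k)) (hS' : S.Nonempty)
    (hB : B.Nonempty) : ℝ :=
  Real.sqrt (2 * Real.pi) * ∫ x, max 0 (hS y S hS' x - hS y B hB x) ∂(gam D)

/-- The shifted maximum `U = h_S + ⟪x, y_S⟫ / b`. -/
noncomputable def shiftU (y : Fin k → E D) (S : Finset (Fin k)) (h : S.Nonempty) (b : ℝ) (x : E D) : ℝ :=
  hS y S h x + (inner ℝ x (∑ s ∈ S, y s) : ℝ) / b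

/-- The one dimensional tail `∫_s^∞ (t - s) e^{-t²/2} dt`. -/
noncomputable def PsiT (s : ℝ) : ℝ := ∫ t in Set.Ioi s, (t - s) * Real.exp (-t ^ 2 / 2)

end Vale.Agent.Lib.P226K
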