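import Vale.Agent.Lib.P226K.Defs
import Vale.Agent.Lib.P226.Deletion

/-!
The multi-deletion identity: removing a group `S` of vertices and recentring the remaining group `B`.
-/

open MeasureTheory ProbabilityTheory

namespace Vale.Agent.Lib.P226K

open Vale.Agent.Lib.P226

variable {k D : ℕ}

theorem del_mx_eq [NeZero k] (y : Fin k → E D) {S B : Finset (Fin k)}
    (hU : S ∪ B = Finset.univ) (hS' : S.Nonempty) (hB : B.Nonempty) (x : E D) :
    mx y x = max (hS y S hS' x) (hS y B hB x) := by
  apply le_antisymm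
  · apply Finset.sup'_le
    intro i _
    have hi : i ∈ S ∪ B := by rw [hU]; exact Finset.mem_univ i
    rcases Finset.mem_union.mp hi with h | h
    · exact le_max_of_le_left (Finset.le_sup' (fun i => (inner ℝ x (y i) : ℝ)) h)
    · exact le_max_of_le_right (Finset.le_sup' (fun i => (inner ℝ x (y i) : ℝ)) h)
  · apply max_le
    · exact Finset.sup'_le _ _ (fun i _ => inner_le_mx y x i)
    · exact Finset.sup'_le _ _ (fun i _ => inner_le_mx y x i)

theorem del_mx_split [NeZero k] (y : Fin k → E D) {S B : Finset (Fin k)}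
    (hU : S ∪ B = Finset.univ) (hS' : S.Nonempty) (hB : B.Nonempty) (x : E D) :
    mx y x = hS y B hB x + max 0 (hS y S hS' x - hS y B hB x) := by
  rw [del_mx_eq y hU hS' hB x]
  rcases le_total (hS y S hS' x) (hS y B hB x) with h | h
  · rw [max_eq_right h, max_eq_left (by linarith)]
    ring
  · rw [max_eq_left h, max_eq_right (by linarith)]
    ring

/-- The group maximum as a maximum over `Fin b`. -/
theorem del_hS_eq_mx (y : Fin k → E D) {B : Finset (Fin k)} (hB : B.Nonempty) [NeZero B.card]
    (x : E D) :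
    hS y B hB x = mx (fun j : Fin B.card => y (B.equivFin.symm j : Fin k)) x := by
  apply le_antisymm
  · apply Finset.sup'_le
    intro i hi
    have h := inner_le_mx (fun j : Fin B.card => y (B.equivFin.symm j : Fin k)) x
      (B.equivFin ⟨i, hi⟩)
    simpa using h
  · apply Finset.sup'_le
    intro j _
    exact Finset.le_sup' (fun i => (inner ℝ x (y i) : ℝ)) (B.equivFin.symm j).2

theorem del_sum_B (B : Finset (Fin k)) {F : Type*} [AddCommMonoid F]
    (f : Fin k → F) :
    ∑ j : Fin B.card, f (B.equivFin.symm j : Fin k) = ∑ i ∈ B, f i := by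
  rw [← Finset.sum_coe_sort B f]
  exact Equiv.sum_comp B.equivFin.symm (fun i : B => f (i : Fin k))

theorem del_sum_eq [NeZero k] {y : Fin k → E D} (hsum : ∑ i, y i = 0) {S B : Finset (Fin k)}
    (hSB : Disjoint S B) (hU : S ∪ B = Finset.univ) :
    ∑ i ∈ B, y i = - ∑ s ∈ S, y s := by
  have h : ∑ i ∈ S ∪ B, y i = 0 := by rw [hU]; exact hsum
  rw [Finset.sum_union hSB] at h
  exact eq_neg_of_add_eq_zero_right h

/-- Multi-deletion: `L(y) > 9/8` and `P(|B|)` give `G_S > (T_S + |y_S|²/|B|) / 2`. -/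
theorem del_gain [NeZero k] {y : Fin k → E D} (hsum : ∑ i, y i = 0)
    (hL : 9 / 8 < W y - TT y / 2) {S B : Finset (Fin k)} (hSB : Disjoint S B)
    (hU : S ∪ B = Finset.univ) (hS' : S.Nonempty) (hB : B.Nonempty)
    (hb : PartitionBound B.card) :
    ((∑ s ∈ S, ‖y s‖ ^ 2) + ‖∑ s ∈ S, y s‖ ^ 2 / (B.card : ℝ)) / 2 < gainS y S B hS' hB := by
  classical
  have hcard : B.card ≠ 0 := Finset.card_ne_zero.mpr hB
  have : NeZero B.card := ⟨hcard⟩
  have hbpos : (0 : ℝ) < (B.card : ℝ) := by exact_mod_cast Nat.pos_of_ne_zero hcard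
  set b : ℝ := (B.card : ℝ) with hbdef
  set yS : E D := ∑ s ∈ S, y s with hyS
  set y' : Fin B.card → E D := fun j => y (B.equivFin.symm j : Fin k) with hy'
  set z : Fin B.card → E D := fun j => y' j + (1 / b : ℝ) • yS with hz
  have hBsum : ∑ j, y' j = - yS := by
    rw [hy', del_sum_B B y]
    exact del_sum_eq hsum hSB hU
  -- the recentred family
  have hzsum : ∑ j, z j = 0 := by
    simp only [hz]
    rw [Finset.sum_add_distrib, hBsum]
    simp only [Finset.sum_const, Finset.card_univ, Fintype.card_fin]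
    rw [← Nat.cast_smul_eq_nsmul ℝ, smul_smul, ← hbdef, mul_one_div_cancel hbpos.ne', one_smul]
    simp
  -- maxima
  have hmxz : ∀ x : E D, mx z x = mx y' x + (inner ℝ x yS : ℝ) / b := by
    intro x
    apply le_antisymm
    · apply Finset.sup'_le
      intro j _
      simp only [hz]
      rw [inner_add_right, real_inner_smul_right]
      have := inner_le_mx y' x j
      have e : (1 / b) * (inner ℝ x yS : ℝ) = (inner ℝ x yS : ℝ) / b := by ring
      linarith
    · obtain ⟨j, hj⟩ := exists_eq_mx y' x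
      rw [← hj]
      have := inner_le_mx z x j
      simp only [hz] at this
      rw [inner_add_right, real_inner_smul_right] at this
      have e : (1 / b) * (inner ℝ x yS : ℝ) = (inner ℝ x yS : ℝ) / b := by ring
      linarith
  have hBmx : ∀ x : E D, hS y B hB x = mx y' x := fun x => del_hS_eq_mx y hB x
  -- W identity
  have hIpos : Integrable (fun x => max 0 (hS y S hS' x - hS y B hB x)) (gam D) := by
    have h := (integrable_mx y (d := D)).sub (integrable_mx y' (d := D))
    refine h.congr (Filter.Eventually.of_forall fun x => ?_)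
    simp only [Pi.sub_apply]
    rw [del_mx_split y hU hS' hB x, hBmx]
    ring
  have hWz : W z = Real.sqrt (2 * Real.pi) * ∫ x, mx y' x ∂(gam D) := by
    unfold W
    congr 1
    simp_rw [hmxz]
    rw [integral_add (integrable_mx y') ((integrable_inner_gam yS).div_const b),
      integral_div, integral_inner_gam]
    simp
  have hWy : W y = W z + gainS y S B hS' hB := by
    rw [hWz]
    unfold W gainS
    rw [← mul_add]
    congr 1
    have h1 : ∀ x : E D, mx y x = mx y' x + max 0 (hS y S hS' x - hS y B hB x) := by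
      intro x
      rw [del_mx_split y hU hS' hB x, hBmx]
    simp_rw [h1]
    rw [integral_add (integrable_mx y') hIpos]
  -- T identity
  have hTy : TT y = ∑ s ∈ S, ‖y s‖ ^ 2 + ∑ i ∈ B, ‖y i‖ ^ 2 := by
    unfold TT
    rw [← Finset.sum_union hSB, hU]
  have hTz : TT z = ∑ i ∈ B, ‖y i‖ ^ 2 - ‖yS‖ ^ 2 / b := by
    have h1 : ∀ j, ‖z j‖ ^ 2 = ‖y' j‖ ^ 2 + (2 / b) * (inner ℝ (y' j) yS : ℝ) +
        (1 / b ^ 2) * ‖yS‖ ^ 2 := by
      intro j
      simp only [hz]
      rw [@norm_add_sq_real, real_inner_smul_right, norm_smul, mul_pow, Real.norm_eq_abs, sq_abs]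
      field_simp
    unfold TT
    simp_rw [h1]
    rw [Finset.sum_add_distrib, Finset.sum_add_distrib, ← Finset.mul_sum, ← sum_inner, hBsum,
      inner_neg_left, real_inner_self_eq_norm_sq]
    have h2 : ∑ j : Fin B.card, ‖y' j‖ ^ 2 = ∑ i ∈ B, ‖y i‖ ^ 2 := by
      rw [hy']
      exact del_sum_B B (fun i => ‖y i‖ ^ 2)
    rw [h2]
    simp only [Finset.sum_const, Finset.card_univ, Fintype.card_fin, nsmul_eq_mul, ← hbdef]
    field_simp
    ring
  -- the bound for `z`
  have hV := vbound_of_partition hb D z hzsum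
  have hTz0 : 0 ≤ TT z := Finset.sum_nonneg fun j _ => by positivity
  have hsq : Real.sqrt (TT z) ^ 2 = TT z := Real.sq_sqrt hTz0
  have hzL : W z - TT z / 2 ≤ 9 / 8 := by
    nlinarith [sq_nonneg (Real.sqrt (TT z) - 3 / 2)]
  rw [hTy] at hL
  rw [hWy] at hL
  rw [hTz] at hzL
  linarith

end Vale.Agent.Lib.P226K
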