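import Vale.Agent.Lib.P226K.TailTent1

/-!
The tail tent bound: integrating out the two Gaussian coordinates orthogonal to the group `S`.
-/

open MeasureTheory Set ProbabilityTheory

namespace Vale.Agent.Lib.P226K

open Vale.Agent.Lib.P226

variable {k D : ℕ}

/-- Tonelli for a function of two Gaussian coordinates and the remaining ones. -/
theorem tl_lintegral_swap {m : ℕ} (G : ℝ → ℝ → (Fin m → ℝ) → ENNReal)
    (hG : Measurable (fun z : (ℝ × ℝ) × (Fin m → ℝ) => G z.1.1 z.1.2 z.2)) :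
    ∫⁻ a, ∫⁻ c, ∫⁻ r, G a c r ∂(Measure.pi fun _ => gstd) ∂gstd ∂gstd =
      ∫⁻ r, ∫⁻ a, ∫⁻ c, G a c r ∂gstd ∂gstd ∂(Measure.pi fun _ => gstd) := by
  have h1 : Measurable (fun z : ℝ × ℝ => ∫⁻ r, G z.1 z.2 r ∂(Measure.pi fun _ => gstd)) :=
    hG.lintegral_prod_right'
  calc ∫⁻ a, ∫⁻ c, ∫⁻ r, G a c r ∂(Measure.pi fun _ => gstd) ∂gstd ∂gstd
      = ∫⁻ z : ℝ × ℝ, ∫⁻ r, G z.1 z.2 r ∂(Measure.pi fun _ => gstd) ∂(gstd.prod gstd) :=
        (lintegral_prod _ h1.aemeasurable).symm
    _ = ∫⁻ r, ∫⁻ z : ℝ × ℝ, G z.1 z.2 r ∂(gstd.prod gstd) ∂(Measure.pi fun _ => gstd) :=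
        lintegral_lintegral_swap hG.aemeasurable
    _ = ∫⁻ r, ∫⁻ a, ∫⁻ c, G a c r ∂gstd ∂gstd ∂(Measure.pi fun _ => gstd) := by
        refine lintegral_congr fun r => ?_
        have h2 : Measurable (fun z : ℝ × ℝ => G z.1 z.2 r) :=
          hG.comp (measurable_id.prodMk measurable_const)
        exact lintegral_prod _ h2.aemeasurable

/-- Fubini in the coordinates of an orthonormal basis, isolating the first two vectors. -/
theorem tl_lintegral_onb {m : ℕ} (b : OrthonormalBasis (Fin (m + 2)) ℝ (E (m + 2)))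
    (F : E (m + 2) → ENNReal) (hF : Measurable F) :
    ∫⁻ x, F x ∂(gam (m + 2)) =
      ∫⁻ r : Fin m → ℝ, ∫⁻ a, ∫⁻ c,
        F (a • b 0 + c • b 1 + ∑ l : Fin m, r l • b l.succ.succ) ∂gstd ∂gstd
        ∂(Measure.pi fun _ => gstd) := by
  have hm : Measurable (fun t : Fin (m + 2) → ℝ => ∑ i, t i • b i) := by fun_prop
  have h1 : ∫⁻ x, F x ∂(gam (m + 2)) =
      ∫⁻ t : Fin (m + 2) → ℝ, F (∑ i, t i • b i) ∂(Measure.pi fun _ => gstd) := by
    rw [gam, stdGaussian_eq_map_pi_orthonormalBasis b, lintegral_map hF hm]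
  have hG : Measurable (fun z : (ℝ × ℝ) × (Fin m → ℝ) =>
      F (z.1.1 • b 0 + z.1.2 • b 1 + ∑ l : Fin m, z.2 l • b l.succ.succ)) :=
    hF.comp (by fun_prop)
  have h2 := lintegral_pi_cons (n := m + 1) (fun t => F (∑ i, t i • b i)) (hF.comp hm)
  rw [h1]
  refine h2.trans ?_
  rw [← tl_lintegral_swap (fun a c r => F (a • b 0 + c • b 1 + ∑ l : Fin m, r l • b l.succ.succ)) hG]
  refine lintegral_congr fun a => ?_
  have h3 : Measurable (fun t : Fin (m + 1) → ℝ => F (∑ i, (Fin.cons a t : Fin (m + 2) → ℝ) i • b i)) :=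
    (hF.comp hm).comp (measurable_cons a)
  rw [lintegral_pi_cons _ h3]
  refine lintegral_congr fun c => lintegral_congr fun r => ?_
  congr 1
  rw [Fin.sum_univ_succ, Fin.sum_univ_succ]
  simp only [Fin.cons_zero, Fin.cons_succ]
  exact (add_assoc _ _ _).symm

/-- Extension of two orthonormal vectors to an orthonormal basis. -/
theorem tl_exists_basis {m : ℕ} {e1 e2 : E (m + 2)} (h1 : ‖e1‖ = 1) (h2 : ‖e2‖ = 1)
    (h12 : (inner ℝ e1 e2 : ℝ) = 0) :
    ∃ b : OrthonormalBasis (Fin (m + 2)) ℝ (E (m + 2)), b 0 = e1 ∧ b 1 = e2 := by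
  let v : Fin (m + 2) → E (m + 2) := fun i => if i = 0 then e1 else e2
  have hv0 : v 0 = e1 := by simp [v]
  have hv1 : v 1 = e2 := by simp [v]
  have hv : Orthonormal ℝ (({0, 1} : Set (Fin (m + 2))).domRestrict v) := by
    constructor
    · rintro ⟨i, hi⟩
      rcases hi with rfl | hi
      · change ‖v 0‖ = 1
        rw [hv0]
        exact h1
      · rw [mem_singleton_iff] at hi
        subst hi
        change ‖v 1‖ = 1
        rw [hv1]
        exact h2
    · rintro ⟨i, hi⟩ ⟨j, hj⟩ hij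
      have hij' : i ≠ j := fun h => hij (by subst h; rfl)
      rcases hi with rfl | hi
      · rcases hj with rfl | hj
        · exact absurd rfl hij'
        · rw [mem_singleton_iff] at hj
          subst hj
          change (inner ℝ (v 0) (v 1) : ℝ) = 0
          rw [hv0, hv1]
          exact h12
      · rw [mem_singleton_iff] at hi
        subst hi
        rcases hj with rfl | hj
        · rw [real_inner_comm] at h12
          change (inner ℝ (v 1) (v 0) : ℝ) = 0
          rw [hv0, hv1]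
          exact h12
        · rw [mem_singleton_iff] at hj
          subst hj
          exact absurd rfl hij'
  obtain ⟨b, hb⟩ := Orthonormal.exists_orthonormalBasis_extension_of_card_eq (𝕜 := ℝ)
    (E := E (m + 2)) (ι := Fin (m + 2)) (by simp) hv
  refine ⟨b, ?_, ?_⟩
  · rw [hb 0 (by simp), hv0]
  · rw [hb 1 (by simp), hv1]

/-- Gram-Schmidt for two vectors. -/
theorem tl_gram_schmidt {Ti Tj : E D} {Dt : ℝ} (hDt : 0 < Dt)
    (hDt2 : Dt ^ 2 = ‖Ti‖ ^ 2 * ‖Tj‖ ^ 2 - (inner ℝ Ti Tj : ℝ) ^ 2) :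
    ∃ (e1 e2 : E D) (al be ga : ℝ), ‖e1‖ = 1 ∧ ‖e2‖ = 1 ∧ (inner ℝ e1 e2 : ℝ) = 0 ∧ 0 < al ∧ 0 < ga ∧
      al * ga = Dt ∧ Ti = al • e1 ∧ Tj = be • e1 + ga • e2 := by
  have hTi : Ti ≠ 0 := by
    rintro rfl
    simp only [norm_zero, inner_zero_left] at hDt2
    have : Dt ^ 2 = 0 := by rw [hDt2]; ring
    have : 0 < Dt ^ 2 := by positivity
    linarith
  have hal : 0 < ‖Ti‖ := norm_pos_iff.2 hTi
  set al := ‖Ti‖ with halD
  set e1 := al⁻¹ • Ti with he1
  have he1n : ‖e1‖ = 1 := by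
    rw [he1, norm_smul, norm_inv, Real.norm_of_nonneg hal.le]
    exact inv_mul_cancel₀ hal.ne'
  have hTie : Ti = al • e1 := by
    rw [he1, smul_smul, mul_inv_cancel₀ hal.ne', one_smul]
  set be := (inner ℝ Tj e1 : ℝ) with hbe
  set T' := Tj - be • e1 with hT'
  have hinnerTT : (inner ℝ Ti Tj : ℝ) = al * be := by
    rw [hTie, real_inner_smul_left, real_inner_comm]
  have hT'e : (inner ℝ e1 T' : ℝ) = 0 := by
    rw [hT', inner_sub_right, real_inner_smul_right, real_inner_comm, real_inner_self_eq_norm_sq, he1n]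
    ring
  have hT'sq : ‖T'‖ ^ 2 = ‖Tj‖ ^ 2 - be ^ 2 := by
    have h1 : Tj = T' + be • e1 := by rw [hT']; abel
    have h2 : ‖T' + be • e1‖ ^ 2 = ‖T'‖ ^ 2 + 2 * inner ℝ T' (be • e1) + ‖be • e1‖ ^ 2 :=
      norm_add_sq_real _ _
    rw [real_inner_smul_right, real_inner_comm, hT'e, norm_smul, he1n, ← h1] at h2
    rw [h2, Real.norm_eq_abs]
    have : |be| ^ 2 = be ^ 2 := sq_abs be
    nlinarith
  have hkey : Dt ^ 2 = (al * ‖T'‖) ^ 2 := by
    have h7 : (al * ‖T'‖) ^ 2 = al ^ 2 * ‖T'‖ ^ 2 := by ring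
    rw [hDt2, hinnerTT, h7, hT'sq]
    ring
  have hga : 0 < ‖T'‖ := by
    rw [norm_pos_iff]
    intro h0
    rw [h0, norm_zero] at hkey
    have : 0 < Dt ^ 2 := by positivity
    rw [hkey] at this
    simp at this
  refine ⟨e1, ‖T'‖⁻¹ • T', al, be, ‖T'‖, he1n, ?_, ?_, hal, hga, ?_, hTie, ?_⟩
  · rw [norm_smul, norm_inv, norm_norm]
    exact inv_mul_cancel₀ hga.ne'
  · rw [real_inner_smul_right, hT'e, mul_zero]
  · have h3 : 0 ≤ al * ‖T'‖ := by positivity
    exact ((pow_left_inj₀ hDt.le h3 (by norm_num)).1 hkey).symm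
  · have h8 : ‖T'‖ • (‖T'‖⁻¹ • T') = T' := by
      rw [smul_smul, mul_inv_cancel₀ hga.ne', one_smul]
    rw [h8, hT']
    abel

/-- The measurability of the maximum of inner products. -/
theorem tl_measurable_hS (y : Fin k → E D) (S : Finset (Fin k)) (h : S.Nonempty) :
    Measurable (hS y S h) := by
  have : hS y S h = S.sup' h (fun (i : Fin k) (x : E D) => (inner ℝ x (y i) : ℝ)) := by
    ext x
    simp [hS, Finset.sup'_apply]
  rw [this]
  exact Finset.measurable_sup' _ (fun i _ => by fun_prop)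

theorem tl_hS_congr (y : Fin k → E D) (S : Finset (Fin k)) (h : S.Nonempty) {x x' : E D}
    (hx : ∀ s ∈ S, (inner ℝ x (y s) : ℝ) = inner ℝ x' (y s)) : hS y S h x = hS y S h x' := by
  unfold hS
  exact Finset.sup'_congr h rfl hx

theorem tl_le_hS (y : Fin k → E D) (S : Finset (Fin k)) (h : S.Nonempty) (x : E D) {i : Fin k}
    (hi : i ∈ S) : (inner ℝ x (y i) : ℝ) ≤ hS y S h x :=
  Finset.le_sup' (fun i => (inner ℝ x (y i) : ℝ)) hi

/-- Integrability of the third moment of the shifted maximum. -/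
theorem tl_integrable_cube (y : Fin k → E D) (S : Finset (Fin k)) (h : S.Nonempty) {b : ℝ}
    (hb : 0 < b) : Integrable (fun x => (max 0 (shiftU y S h b x)) ^ 3) (gam D) := by
  have hmem := (IsGaussian.memLp_id (gam D) 3 (by norm_num)).integrable_norm_pow (by norm_num)
  set L : ℝ := (∑ s ∈ S, ‖y s‖) + ‖∑ s ∈ S, y s‖ / b with hL
  have hL0 : 0 ≤ L := by positivity
  have hmU : Measurable (shiftU y S h b) := by
    unfold shiftU
    exact (tl_measurable_hS y S h).add (by fun_prop)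
  refine Integrable.mono' (hmem.const_mul (L ^ 3)) ?_ (Filter.Eventually.of_forall fun x => ?_)
  · exact ((measurable_const.max hmU).pow_const 3).aestronglyMeasurable
  · have hb1 : shiftU y S h b x ≤ L * ‖x‖ := by
      unfold shiftU
      have h1 : hS y S h x ≤ (∑ s ∈ S, ‖y s‖) * ‖x‖ := by
        unfold hS
        apply Finset.sup'_le
        intro i hi
        have h2 : (inner ℝ x (y i) : ℝ) ≤ ‖x‖ * ‖y i‖ := real_inner_le_norm _ _
        have h3 : ‖y i‖ ≤ ∑ s ∈ S, ‖y s‖ :=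
          Finset.single_le_sum (f := fun s => ‖y s‖) (fun _ _ => norm_nonneg _) hi
        nlinarith [norm_nonneg x]
      have h4 : (inner ℝ x (∑ s ∈ S, y s) : ℝ) / b ≤ ‖∑ s ∈ S, y s‖ / b * ‖x‖ := by
        have h5 : (inner ℝ x (∑ s ∈ S, y s) : ℝ) ≤ ‖x‖ * ‖∑ s ∈ S, y s‖ := real_inner_le_norm _ _
        rw [div_mul_eq_mul_div, div_le_div_iff_of_pos_right hb]
        linarith
      rw [hL, add_mul]
      linarith
    have h6 : max 0 (shiftU y S h b x) ≤ L * ‖x‖ := max_le (by positivity) hb1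
    have h7 : 0 ≤ max 0 (shiftU y S h b x) := le_max_left _ _
    simp only [id]
    rw [Real.norm_of_nonneg (by positivity), ← mul_pow]
    exact pow_le_pow_left₀ h7 h6 3

/-- The pointwise bound by the weighted pyramid. -/
theorem tl_pointwise {y : Fin k → E D} (hsum : ∑ i, y i = 0) {S B : Finset (Fin k)}
    (hSB : Disjoint S B) (hU : S ∪ B = Finset.univ) (hS' : S.Nonempty) (hB : B.Nonempty)
    {i j : Fin k} (hi : i ∈ B) (hj : j ∈ B) (hij : i ≠ j) (hcard : 3 ≤ B.card) (x : E D) :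
    max 0 (hS y S hS' x - hS y B hB x) ≤
      wpyr ((B.card : ℝ) - 2) ((B.card : ℝ) * shiftU y S hS' (B.card : ℝ) x)
        (hS y S hS' x - inner ℝ x (y i)) (hS y S hS' x - inner ℝ x (y j)) := by
  have hbR : (3 : ℝ) ≤ (B.card : ℝ) := by exact_mod_cast hcard
  have hbpos : (0 : ℝ) < (B.card : ℝ) := by linarith
  have hn : (0 : ℝ) < (B.card : ℝ) - 2 := by linarith
  set G := (B.erase i).erase j with hG
  have hjB : j ∈ B.erase i := Finset.mem_erase.2 ⟨hij.symm, hj⟩
  have hGcard : ((G.card : ℕ) : ℝ) = (B.card : ℝ) - 2 := by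
    have h1 : G.card = (B.erase i).card - 1 := Finset.card_erase_of_mem hjB
    have h2 : (B.erase i).card = B.card - 1 := Finset.card_erase_of_mem hi
    have h3 : G.card + 2 = B.card := by omega
    have h4 : ((G.card + 2 : ℕ) : ℝ) = (B.card : ℝ) := by exact_mod_cast h3
    push_cast at h4
    linarith
  have hsumB : ∑ l ∈ B, y l = y i + (y j + ∑ l ∈ G, y l) := by
    rw [← Finset.add_sum_erase B y hi, ← Finset.add_sum_erase (B.erase i) y hjB]
  have hsum0 : ∑ s ∈ S, y s + ∑ l ∈ B, y l = 0 := by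
    rw [← Finset.sum_union hSB, hU]
    exact hsum
  have hinner : (inner ℝ x (∑ s ∈ S, y s) : ℝ) + inner ℝ x (y i) + inner ℝ x (y j)
      + inner ℝ x (∑ l ∈ G, y l) = 0 := by
    have h5 : (inner ℝ x (∑ s ∈ S, y s + (y i + (y j + ∑ l ∈ G, y l))) : ℝ) = 0 := by
      rw [← hsumB, hsum0, inner_zero_right]
    rw [inner_add_right, inner_add_right, inner_add_right] at h5
    linarith
  have hGsum : (inner ℝ x (∑ l ∈ G, y l) : ℝ) / ((B.card : ℝ) - 2) ≤ hS y B hB x := by
    rw [div_le_iff₀ hn, ← hGcard, inner_sum]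
    have h6 : ∑ l ∈ G, (inner ℝ x (y l) : ℝ) ≤ ∑ _l ∈ G, hS y B hB x := by
      apply Finset.sum_le_sum
      intro l hl
      have hl2 : l ∈ B := Finset.mem_of_mem_erase (Finset.mem_of_mem_erase hl)
      exact tl_le_hS y B hB x hl2
    rw [Finset.sum_const, nsmul_eq_mul] at h6
    linarith
  have h3rd : ((B.card : ℝ) * shiftU y S hS' (B.card : ℝ) x - (hS y S hS' x - inner ℝ x (y i))
      - (hS y S hS' x - inner ℝ x (y j))) / ((B.card : ℝ) - 2) =
      hS y S hS' x - (inner ℝ x (∑ l ∈ G, y l) : ℝ) / ((B.card : ℝ) - 2) := by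
    unfold shiftU
    field_simp
    have : (inner ℝ x (∑ s ∈ S, y s) : ℝ) = - (inner ℝ x (y i) + inner ℝ x (y j)
      + inner ℝ x (∑ l ∈ G, y l)) := by linarith
    rw [this]
    ring
  unfold wpyr
  rw [h3rd]
  apply max_le_max le_rfl
  refine le_min ?_ (le_min ?_ ?_)
  · linarith [tl_le_hS y B hB x hi]
  · linarith [tl_le_hS y B hB x hj]
  · linarith

/-- The lifted form of the tail tent bound, in dimension `m + 2`. -/
theorem tl_main {m : ℕ} {y : Fin k → E (m + 2)} (hsum : ∑ i, y i = 0) {S B : Finset (Fin k)}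
    (hSB : Disjoint S B) (hU : S ∪ B = Finset.univ) (hS' : S.Nonempty) (hB : B.Nonempty)
    {i j : Fin k} (hi : i ∈ B) (hj : j ∈ B) (hij : i ≠ j) (hcard : 3 ≤ B.card)
    {Ti Tj : E (m + 2)} (hTi : ∀ s ∈ S, (inner ℝ Ti (y s) : ℝ) = 0)
    (hTj : ∀ s ∈ S, (inner ℝ Tj (y s) : ℝ) = 0)
    (hfi : y i - Ti ∈ Submodule.span ℝ (y '' (S : Set (Fin k))))
    (hfj : y j - Tj ∈ Submodule.span ℝ (y '' (S : Set (Fin k))))
    {e1 e2 : E (m + 2)} {al be ga Dt : ℝ} (he1 : ‖e1‖ = 1) (he2 : ‖e2‖ = 1)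
    (he12 : (inner ℝ e1 e2 : ℝ) = 0) (hal : 0 < al) (hga : 0 < ga) (hDtd : al * ga = Dt)
    (hTie : Ti = al • e1) (hTje : Tj = be • e1 + ga • e2) :
    gainS y S B hS' hB ≤
      ((B.card : ℝ) ^ 2 * Real.sqrt (2 * Real.pi) / (12 * Real.pi * Dt)) *
        ∫ x, (max 0 (shiftU y S hS' (B.card : ℝ) x)) ^ 3 ∂(gam (m + 2)) := by
  obtain ⟨b, hb0, hb1⟩ := tl_exists_basis he1 he2 he12
  set bR : ℝ := (B.card : ℝ) with hbRd
  have hbR : (3 : ℝ) ≤ bR := by rw [hbRd]; exact_mod_cast hcard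
  have hbpos : 0 < bR := by linarith
  have hn : 0 < bR - 2 := by linarith
  set V := Submodule.span ℝ (y '' (S : Set (Fin k))) with hV
  have hDt : 0 < Dt := by rw [← hDtd]; positivity
  -- orthogonality to the span
  have hp1 : ∀ s ∈ S, (inner ℝ e1 (y s) : ℝ) = 0 := by
    intro s hs
    have := hTi s hs
    rw [hTie, real_inner_smul_left] at this
    exact (mul_eq_zero.1 this).resolve_left hal.ne'
  have hp2 : ∀ s ∈ S, (inner ℝ e2 (y s) : ℝ) = 0 := by
    intro s hs
    have := hTj s hs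
    rw [hTje, inner_add_left, real_inner_smul_left, real_inner_smul_left, hp1 s hs, mul_zero,
      zero_add] at this
    exact (mul_eq_zero.1 this).resolve_left hga.ne'
  have hspan : ∀ e : E (m + 2), (∀ s ∈ S, (inner ℝ e (y s) : ℝ) = 0) → ∀ v ∈ V, (inner ℝ e v : ℝ) = 0 := by
    intro e he v hv
    induction hv using Submodule.span_induction with
    | mem x hx =>
      obtain ⟨s, hs, rfl⟩ := hx
      exact he s hs
    | zero => simp
    | add x z _ _ hx hz => rw [inner_add_right, hx, hz, add_zero]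
    | smul c x _ hx => rw [real_inner_smul_right, hx, mul_zero]
  have hV1 := hspan e1 hp1
  have hV2 := hspan e2 hp2
  have hyV : ∀ s ∈ S, y s ∈ V := fun s hs => Submodule.subset_span ⟨s, hs, rfl⟩
  have hySV : ∑ s ∈ S, y s ∈ V := Submodule.sum_mem _ hyV
  -- the coordinate map
  set w : (Fin m → ℝ) → E (m + 2) := fun r => ∑ l : Fin m, r l • b l.succ.succ with hw
  have hw1 : ∀ r, (inner ℝ (w r) e1 : ℝ) = 0 := by
    intro r
    rw [hw, ← hb0]
    simp only
    rw [sum_inner]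
    apply Finset.sum_eq_zero
    intro l _
    rw [real_inner_smul_left, b.orthonormal.2 (Fin.succ_ne_zero _), mul_zero]
  have hw2 : ∀ r, (inner ℝ (w r) e2 : ℝ) = 0 := by
    intro r
    rw [hw, ← hb1]
    simp only
    rw [sum_inner]
    apply Finset.sum_eq_zero
    intro l _
    have hne : (l.succ.succ : Fin (m + 2)) ≠ 1 := by
      intro h
      have h1 : (1 : Fin (m + 2)) = Fin.succ 0 := rfl
      rw [h1] at h
      exact Fin.succ_ne_zero _ (Fin.succ_injective _ h)
    rw [real_inner_smul_left, b.orthonormal.2 hne, mul_zero]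
  set φ : ℝ → ℝ → (Fin m → ℝ) → E (m + 2) := fun a c r => a • e1 + c • e2 + w r with hφ
  have hφV : ∀ a c r, ∀ v ∈ V, (inner ℝ (φ a c r) v : ℝ) = inner ℝ (w r) v := by
    intro a c r v hv
    simp only [hφ]
    rw [inner_add_left, inner_add_left, real_inner_smul_left, real_inner_smul_left, hV1 v hv,
      hV2 v hv]
    ring
  have hφe1 : ∀ a c r, (inner ℝ (φ a c r) e1 : ℝ) = a := by
    intro a c r
    simp only [hφ]
    rw [inner_add_left, inner_add_left, real_inner_smul_left, real_inner_smul_left,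
      real_inner_self_eq_norm_sq, he1, real_inner_comm, he12, hw1]
    ring
  have hφe2 : ∀ a c r, (inner ℝ (φ a c r) e2 : ℝ) = c := by
    intro a c r
    simp only [hφ]
    rw [inner_add_left, inner_add_left, real_inner_smul_left, real_inner_smul_left,
      real_inner_self_eq_norm_sq, he2, he12, hw2]
    ring
  have hφS : ∀ a c r, hS y S hS' (φ a c r) = hS y S hS' (w r) := fun a c r =>
    tl_hS_congr y S hS' (fun s hs => hφV a c r _ (hyV s hs))
  have hφU : ∀ a c r, shiftU y S hS' bR (φ a c r) = shiftU y S hS' bR (w r) := by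
    intro a c r
    unfold shiftU
    rw [hφS, hφV a c r _ hySV]
  have hφi : ∀ a c r, (inner ℝ (φ a c r) (y i) : ℝ) = inner ℝ (w r) (y i - Ti) + al * a := by
    intro a c r
    have h1 : y i = (y i - Ti) + al • e1 := by rw [← hTie]; abel
    calc (inner ℝ (φ a c r) (y i) : ℝ) = inner ℝ (φ a c r) ((y i - Ti) + al • e1) := by rw [← h1]
      _ = inner ℝ (w r) (y i - Ti) + al * a := by
        rw [inner_add_right, hφV a c r _ hfi, real_inner_smul_right, hφe1]
  have hφj : ∀ a c r, (inner ℝ (φ a c r) (y j) : ℝ) =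
      inner ℝ (w r) (y j - Tj) + (be * a + ga * c) := by
    intro a c r
    have h1 : y j = (y j - Tj) + (be • e1 + ga • e2) := by rw [← hTje]; abel
    calc (inner ℝ (φ a c r) (y j) : ℝ) = inner ℝ (φ a c r) ((y j - Tj) + (be • e1 + ga • e2)) := by
          rw [← h1]
      _ = inner ℝ (w r) (y j - Tj) + (be * a + ga * c) := by
        rw [inner_add_right, hφV a c r _ hfj, inner_add_right, real_inner_smul_right,
          real_inner_smul_right, hφe1, hφe2]
  -- measurability
  have hmS : Measurable (hS y S hS') := tl_measurable_hS y S hS'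
  have hmB : Measurable (hS y B hB) := tl_measurable_hS y B hB
  have hmU : Measurable (shiftU y S hS' bR) := by
    unfold shiftU
    exact hmS.add (by fun_prop)
  have hcw : Continuous (fun z : ℝ × ℝ × ℝ => wpyr (bR - 2) z.1 z.2.1 z.2.2) := by
    unfold wpyr
    fun_prop
  set Tent : E (m + 2) → ℝ := fun x =>
    wpyr (bR - 2) (bR * shiftU y S hS' bR x) (hS y S hS' x - inner ℝ x (y i))
      (hS y S hS' x - inner ℝ x (y j)) with hTent
  have hmT : Measurable Tent := by
    have h1 : Measurable (fun x : E (m + 2) => ((bR * shiftU y S hS' bR x,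
        hS y S hS' x - inner ℝ x (y i), hS y S hS' x - inner ℝ x (y j)) : ℝ × ℝ × ℝ)) :=
      (hmU.const_mul _).prodMk ((hmS.sub (by fun_prop)).prodMk (hmS.sub (by fun_prop)))
    exact hcw.measurable.comp h1
  set u3 : E (m + 2) → ℝ := fun x => (max 0 (shiftU y S hS' bR x)) ^ 3 with hu3
  have hmu3 : Measurable u3 := (measurable_const.max hmU).pow_const 3
  have hu30 : ∀ x, 0 ≤ u3 x := fun x => pow_nonneg (le_max_left _ _) 3
  set κ : ℝ := bR ^ 2 / (12 * Real.pi * Dt) with hκ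
  have hκ0 : 0 ≤ κ := by positivity
  -- the tent integral, after integrating out two coordinates
  have hinnerb : ∀ r, ∫⁻ a, ∫⁻ c, ENNReal.ofReal (Tent (φ a c r)) ∂gstd ∂gstd ≤
      ENNReal.ofReal (κ * u3 (w r)) := by
    intro r
    have hT : ∀ a c, Tent (φ a c r) =
        wpyr (bR - 2) (bR * shiftU y S hS' bR (w r))
          ((hS y S hS' (w r) - inner ℝ (w r) (y i - Ti)) - al * a)
          ((hS y S hS' (w r) - inner ℝ (w r) (y j - Tj)) - be * a - ga * c) := by
      intro a c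
      simp only [hTent]
      rw [hφU, hφS, hφi, hφj]
      congr 1 <;> ring
    simp_rw [hT]
    refine (winner_bound hn _ _ _ al be ga hal hga).trans (ENNReal.ofReal_le_ofReal (le_of_eq ?_))
    have h1 : max (bR * shiftU y S hS' bR (w r)) 0 = bR * max 0 (shiftU y S hS' bR (w r)) := by
      rw [max_comm, mul_max_of_nonneg _ _ hbpos.le, mul_zero, max_comm]
    rw [h1, hκ, hu3, ← hDtd]
    simp only
    field_simp
    ring
  have hcube : ∫⁻ x, ENNReal.ofReal (u3 x) ∂(gam (m + 2)) =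
      ∫⁻ r, ENNReal.ofReal (u3 (w r)) ∂(Measure.pi fun _ => gstd) := by
    rw [tl_lintegral_onb b (fun x => ENNReal.ofReal (u3 x)) (ENNReal.measurable_ofReal.comp hmu3)]
    refine lintegral_congr fun r => ?_
    have h1 : ∀ a c : ℝ, ENNReal.ofReal (u3 (a • b 0 + c • b 1 + w r)) = ENNReal.ofReal (u3 (w r)) := by
      intro a c
      rw [hb0, hb1]
      have : u3 (a • e1 + c • e2 + w r) = u3 (w r) := by
        simp only [hu3]
        have := hφU a c r
        simp only [hφ] at this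
        rw [this]
      rw [this]
    simp only [hw] at h1 ⊢
    simp_rw [h1]
    simp
  have hintU := tl_integrable_cube y S hS' hbpos (D := m + 2)
  have htent : ∫⁻ x, ENNReal.ofReal (Tent x) ∂(gam (m + 2)) ≤
      ENNReal.ofReal κ * ∫⁻ x, ENNReal.ofReal (u3 x) ∂(gam (m + 2)) := by
    have hmw : Measurable w := by
      rw [hw]
      fun_prop
    have hmr : Measurable (fun r => ENNReal.ofReal (u3 (w r))) :=
      ENNReal.measurable_ofReal.comp (hmu3.comp hmw)
    rw [tl_lintegral_onb b (fun x => ENNReal.ofReal (Tent x)) (ENNReal.measurable_ofReal.comp hmT), hcube,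
      ← lintegral_const_mul _ hmr]
    refine lintegral_mono fun r => ?_
    rw [← ENNReal.ofReal_mul hκ0]
    have := hinnerb r
    simp only [hφ] at this
    rw [hb0, hb1]
    exact this
  -- the final estimate
  have hG : ∫ x, max 0 (hS y S hS' x - hS y B hB x) ∂(gam (m + 2)) ≤ κ * ∫ x, u3 x ∂(gam (m + 2)) := by
    have hnn : 0 ≤ᵐ[gam (m + 2)] fun x => max 0 (hS y S hS' x - hS y B hB x) :=
      Filter.Eventually.of_forall fun x => le_max_left _ _
    have hm : Measurable (fun x => max 0 (hS y S hS' x - hS y B hB x)) :=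
      measurable_const.max (hmS.sub hmB)
    rw [integral_eq_lintegral_of_nonneg_ae hnn hm.aestronglyMeasurable]
    apply ENNReal.toReal_le_of_le_ofReal (mul_nonneg hκ0 (integral_nonneg hu30))
    rw [ENNReal.ofReal_mul hκ0, ofReal_integral_eq_lintegral_ofReal hintU
      (Filter.Eventually.of_forall hu30)]
    refine le_trans (lintegral_mono fun x => ?_) htent
    exact ENNReal.ofReal_le_ofReal (tl_pointwise hsum hSB hU hS' hB hi hj hij hcard x)
  unfold gainS
  have hs : 0 < Real.sqrt (2 * Real.pi) := Real.sqrt_pos.2 (by positivity)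
  have := mul_le_mul_of_nonneg_left hG hs.le
  refine this.trans (le_of_eq ?_)
  rw [hκ]
  ring

/-- The tail tent bound: `Ti`, `Tj` are the projections of `y i`, `y j` on the orthogonal complement
of the span `V` of the group `S`. -/
theorem tent_tail [NeZero k] {y : Fin k → E D} (hsum : ∑ i, y i = 0) {S B : Finset (Fin k)}
    (hSB : Disjoint S B) (hU : S ∪ B = Finset.univ) (hS' : S.Nonempty) (hB : B.Nonempty)
    {i j : Fin k} (hi : i ∈ B) (hj : j ∈ B) (hij : i ≠ j) (hcard : 3 ≤ B.card)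
    {Ti Tj : E D} (hTi : ∀ s ∈ S, (inner ℝ Ti (y s) : ℝ) = 0) (hTj : ∀ s ∈ S, (inner ℝ Tj (y s) : ℝ) = 0)
    (hfi : y i - Ti ∈ Submodule.span ℝ (y '' (S : Set (Fin k))))
    (hfj : y j - Tj ∈ Submodule.span ℝ (y '' (S : Set (Fin k))))
    {Dt : ℝ} (hDt : 0 < Dt) (hDt2 : Dt ^ 2 = ‖Ti‖ ^ 2 * ‖Tj‖ ^ 2 - (inner ℝ Ti Tj : ℝ) ^ 2) :
    gainS y S B hS' hB ≤
      ((B.card : ℝ) ^ 2 * Real.sqrt (2 * Real.pi) / (12 * Real.pi * Dt)) *
        ∫ x, (max 0 (shiftU y S hS' (B.card : ℝ) x)) ^ 3 ∂(gam D) := by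
  obtain ⟨e1, e2, al, be, ga, he1, he2, he12, hal, hga, hDtd, hTie, hTje⟩ :=
    tl_gram_schmidt hDt hDt2
  have hD2 : 2 ≤ D := by
    have hon : Orthonormal ℝ ![e1, e2] := by
      constructor
      · intro l
        fin_cases l
        · simpa using he1
        · simpa using he2
      · intro l l' hll
        fin_cases l <;> fin_cases l'
        · exact absurd rfl hll
        · simpa using he12
        · rw [real_inner_comm] at he12
          simpa using he12
        · exact absurd rfl hll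
    have := hon.linearIndependent.fintype_card_le_finrank
    simpa using this
  obtain ⟨m, rfl⟩ : ∃ m, D = m + 2 := ⟨D - 2, by omega⟩
  exact tl_main hsum hSB hU hS' hB hi hj hij hcard hTi hTj hfi hfj he1 he2 he12 hal hga hDtd hTie hTje

end Vale.Agent.Lib.P226K
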