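import Vale.Agent.Lib.P226K.Defs

/-!
Thickness: the projections of two vectors of the family away from the span of a group keep a wedge
bounded below by the wedge of the two vectors, minus the mass of the group.
-/

namespace Vale.Agent.Lib.P226K

open Vale.Agent.Lib.P226

variable {k D : ℕ}

private lemma sum_inner_right_eq_zero {y : Fin k → E D} (hsum : ∑ i, y i = 0) (s : Fin k) :
    ∑ q, (inner ℝ (y s) (y q) : ℝ) = 0 := by
  rw [← inner_sum, hsum, inner_zero_right]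

/-- The energy of a combination over `S` dominates the Laplacian part. -/
private lemma lap_lower {y : Fin k → E D} (S : Finset (Fin k))
    (hneg : ∀ i j, i ≠ j → (inner ℝ (y i) (y j) : ℝ) < 0) (c : Fin k → ℝ) :
    ∑ s ∈ S, c s ^ 2 * ∑ t ∈ S, (inner ℝ (y s) (y t) : ℝ) ≤ ‖∑ s ∈ S, c s • y s‖ ^ 2 := by
  have h1 : ‖∑ s ∈ S, c s • y s‖ ^ 2 =
      ∑ s ∈ S, ∑ t ∈ S, c s * c t * (inner ℝ (y s) (y t) : ℝ) := by
    rw [← real_inner_self_eq_norm_sq, sum_inner]
    refine Finset.sum_congr rfl fun s _ => ?_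
    rw [inner_sum]
    refine Finset.sum_congr rfl fun t _ => ?_
    rw [inner_smul_left, inner_smul_right]
    simp [mul_assoc]
  have h2 : ∑ s ∈ S, c s ^ 2 * ∑ t ∈ S, (inner ℝ (y s) (y t) : ℝ) =
      ∑ s ∈ S, ∑ t ∈ S, c t ^ 2 * (inner ℝ (y s) (y t) : ℝ) := by
    rw [Finset.sum_comm]
    refine Finset.sum_congr rfl fun s _ => ?_
    rw [Finset.mul_sum]
    refine Finset.sum_congr rfl fun t _ => ?_
    rw [real_inner_comm]
  have h3 : ∑ s ∈ S, c s ^ 2 * ∑ t ∈ S, (inner ℝ (y s) (y t) : ℝ) =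
      ∑ s ∈ S, ∑ t ∈ S, c s ^ 2 * (inner ℝ (y s) (y t) : ℝ) := by
    refine Finset.sum_congr rfl fun s _ => ?_
    rw [Finset.mul_sum]
  have h4 : ∑ s ∈ S, ∑ t ∈ S, (c s ^ 2 + c t ^ 2) * (inner ℝ (y s) (y t) : ℝ) ≤
      ∑ s ∈ S, ∑ t ∈ S, (2 * (c s * c t * (inner ℝ (y s) (y t) : ℝ))) := by
    refine Finset.sum_le_sum fun s _ => Finset.sum_le_sum fun t _ => ?_
    by_cases hst : s = t
    · subst hst
      nlinarith
    · have := hneg s t hst
      nlinarith [sq_nonneg (c s - c t), mul_nonneg (sq_nonneg (c s - c t)) (le_of_lt (neg_pos.mpr this))]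
  have h5 : ∑ s ∈ S, ∑ t ∈ S, (c s ^ 2 + c t ^ 2) * (inner ℝ (y s) (y t) : ℝ) =
      (∑ s ∈ S, c s ^ 2 * ∑ t ∈ S, (inner ℝ (y s) (y t) : ℝ)) +
      ∑ s ∈ S, c s ^ 2 * ∑ t ∈ S, (inner ℝ (y s) (y t) : ℝ) := by
    conv_rhs => arg 1; rw [h3]
    conv_rhs => arg 2; rw [h2]
    rw [← Finset.sum_add_distrib]
    refine Finset.sum_congr rfl fun s _ => ?_
    rw [← Finset.sum_add_distrib]
    refine Finset.sum_congr rfl fun t _ => ?_
    ring
  have h6 : ∑ s ∈ S, ∑ t ∈ S, (2 * (c s * c t * (inner ℝ (y s) (y t) : ℝ))) =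
      2 * ∑ s ∈ S, ∑ t ∈ S, c s * c t * (inner ℝ (y s) (y t) : ℝ) := by
    rw [Finset.mul_sum]
    refine Finset.sum_congr rfl fun s _ => ?_
    rw [Finset.mul_sum]
  rw [h1]
  linarith

/-- The key bound: a vector of the span of `S` which is the projection of the sum over `I`
has square norm at most the total weight between `I` and `S`. -/
private lemma proj_bound {y : Fin k → E D} (hsum : ∑ i, y i = 0)
    (hneg : ∀ i j, i ≠ j → (inner ℝ (y i) (y j) : ℝ) < 0) {S B : Finset (Fin k)}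
    (hSB : Disjoint S B) (hU : S ∪ B = Finset.univ) {I : Finset (Fin k)} (hI : I ⊆ B)
    {f : E D} (hf : f ∈ Submodule.span ℝ (y '' (S : Set (Fin k))))
    (hvf : (inner ℝ (∑ q ∈ I, y q) f : ℝ) = ‖f‖ ^ 2) :
    ‖f‖ ^ 2 ≤ ∑ s ∈ S, ∑ q ∈ I, (-(inner ℝ (y s) (y q) : ℝ)) := by
  classical
  obtain ⟨c, hc⟩ : ∃ c : Fin k → ℝ, f = ∑ s ∈ S, c s • y s := by
    obtain ⟨c, hc⟩ := (Submodule.mem_span_image_finset_iff_exists_fun ℝ).1 hf
    refine ⟨fun s => if h : s ∈ S then c ⟨s, h⟩ else 0, ?_⟩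
    rw [← hc, ← Finset.sum_coe_sort S]
    refine Finset.sum_congr rfl fun s _ => ?_
    simp
  -- weights
  set Wt : Fin k → ℝ := fun s => ∑ q ∈ I, (-(inner ℝ (y s) (y q) : ℝ)) with hWt
  have hne : ∀ s ∈ S, ∀ q ∈ B, s ≠ q := by
    intro s hs q hq h
    subst h
    exact Finset.disjoint_left.1 hSB hs hq
  have hWt0 : ∀ s ∈ S, 0 ≤ Wt s := by
    intro s hs
    refine Finset.sum_nonneg fun q hq => ?_
    have := hneg s q (hne s hs q (hI hq))
    linarith
  -- inner sum split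
  have hsplit : ∀ s ∈ S, Wt s ≤ ∑ t ∈ S, (inner ℝ (y s) (y t) : ℝ) := by
    intro s hs
    have h0 := sum_inner_right_eq_zero hsum s
    have hunion : ∑ q, (inner ℝ (y s) (y q) : ℝ) =
        ∑ t ∈ S, (inner ℝ (y s) (y t) : ℝ) + ∑ q ∈ B, (inner ℝ (y s) (y q) : ℝ) := by
      rw [← Finset.sum_union hSB, hU]
    have hle : ∑ q ∈ I, (-(inner ℝ (y s) (y q) : ℝ)) ≤ ∑ q ∈ B, (-(inner ℝ (y s) (y q) : ℝ)) := by
      refine Finset.sum_le_sum_of_subset_of_nonneg hI fun q hq _ => ?_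
      have := hneg s q (hne s hs q hq)
      linarith
    simp only [Finset.sum_neg_distrib] at hle
    simp only [hWt]
    rw [Finset.sum_neg_distrib]
    linarith
  -- energy lower bound
  have hen : ∑ s ∈ S, Wt s * c s ^ 2 ≤ ‖f‖ ^ 2 := by
    rw [hc]
    refine le_trans ?_ (lap_lower S hneg c)
    refine Finset.sum_le_sum fun s hs => ?_
    have := hsplit s hs
    nlinarith [sq_nonneg (c s)]
  -- the norm as a pairing
  have hpair : ‖f‖ ^ 2 = ∑ s ∈ S, (-(c s * Wt s)) := by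
    rw [← hvf]
    conv_lhs => rw [hc]
    rw [inner_sum]
    refine Finset.sum_congr rfl fun s _ => ?_
    rw [inner_smul_right, sum_inner]
    simp only [hWt]
    rw [Finset.sum_neg_distrib, mul_neg, neg_neg]
    congr 1
    refine Finset.sum_congr rfl fun q _ => ?_
    rw [real_inner_comm]
  -- Cauchy
  have hCS : (∑ s ∈ S, (-(c s * Wt s))) ^ 2 ≤ (∑ s ∈ S, Wt s * c s ^ 2) * ∑ s ∈ S, Wt s := by
    refine Finset.sum_sq_le_sum_mul_sum_of_sq_le_mul S (fun s hs => ?_) (fun s hs => hWt0 s hs)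
      (fun s _ => le_of_eq (by ring))
    exact mul_nonneg (hWt0 s hs) (sq_nonneg _)
  have hWsum : 0 ≤ ∑ s ∈ S, Wt s := Finset.sum_nonneg hWt0
  have hfn : 0 ≤ ‖f‖ ^ 2 := sq_nonneg _
  by_cases h0 : ‖f‖ ^ 2 = 0
  · rw [h0]
    exact hWsum
  · have hpos : 0 < ‖f‖ ^ 2 := lt_of_le_of_ne hfn (Ne.symm h0)
    rw [← hpair] at hCS
    have h7 : (‖f‖ ^ 2) ^ 2 ≤ ‖f‖ ^ 2 * ∑ s ∈ S, Wt s :=
      le_trans hCS (mul_le_mul_of_nonneg_right hen hWsum)
    have h8 : ‖f‖ ^ 2 * ‖f‖ ^ 2 ≤ ‖f‖ ^ 2 * ∑ s ∈ S, Wt s := by nlinarith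
    exact le_of_mul_le_mul_left h8 hpos

/-- The sum over the other vectors of the weight at `s` is the square norm of `y s`. -/
private lemma weight_pair_le {y : Fin k → E D} (hsum : ∑ i, y i = 0)
    (hneg : ∀ i j, i ≠ j → (inner ℝ (y i) (y j) : ℝ) < 0) {s : Fin k} {I : Finset (Fin k)}
    (hI : s ∉ I) : ∑ q ∈ I, (-(inner ℝ (y s) (y q) : ℝ)) ≤ ‖y s‖ ^ 2 := by
  classical
  have h0 := sum_inner_right_eq_zero hsum s
  have h1 : ∑ q ∈ Finset.univ.erase s, (inner ℝ (y s) (y q) : ℝ) + (inner ℝ (y s) (y s) : ℝ) = 0 := by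
    rw [Finset.sum_erase_add _ _ (Finset.mem_univ s)]
    exact h0
  rw [real_inner_self_eq_norm_sq] at h1
  have h2 : ∑ q ∈ I, (-(inner ℝ (y s) (y q) : ℝ)) ≤
      ∑ q ∈ Finset.univ.erase s, (-(inner ℝ (y s) (y q) : ℝ)) := by
    refine Finset.sum_le_sum_of_subset_of_nonneg ?_ fun q hq _ => ?_
    · intro q hq
      refine Finset.mem_erase.2 ⟨?_, Finset.mem_univ q⟩
      rintro rfl
      exact hI hq
    · have := hneg s q (Finset.ne_of_mem_erase hq).symm
      linarith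
  simp only [Finset.sum_neg_distrib] at h2
  rw [Finset.sum_neg_distrib]
  linarith

/-- Thickness: projections away from the group `S` and a lower bound for their wedge. -/
theorem thick [NeZero k] {y : Fin k → E D} (hsum : ∑ i, y i = 0)
    (hneg : ∀ i j, i ≠ j → (inner ℝ (y i) (y j) : ℝ) < 0) {S B : Finset (Fin k)}
    (hSB : Disjoint S B) (hU : S ∪ B = Finset.univ)
    {i j : Fin k} (hi : i ∈ B) (hj : j ∈ B) (hij : i ≠ j) :
    ∃ Ti Tj : E D, (∀ s ∈ S, (inner ℝ Ti (y s) : ℝ) = 0) ∧ (∀ s ∈ S, (inner ℝ Tj (y s) : ℝ) = 0) ∧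
      y i - Ti ∈ Submodule.span ℝ (y '' (S : Set (Fin k))) ∧
      y j - Tj ∈ Submodule.span ℝ (y '' (S : Set (Fin k))) ∧
      ‖y i‖ ^ 2 * ‖y j‖ ^ 2 - (inner ℝ (y i) (y j) : ℝ) ^ 2
          - max (‖y i‖ ^ 2) (‖y j‖ ^ 2) * ∑ s ∈ S, ‖y s‖ ^ 2
        ≤ ‖Ti‖ ^ 2 * ‖Tj‖ ^ 2 - (inner ℝ Ti Tj : ℝ) ^ 2 := by
  classical
  set V := Submodule.span ℝ (y '' (S : Set (Fin k))) with hV
  obtain ⟨fi, hfi, Ti, hTi, hdi⟩ := Submodule.exists_add_mem_mem_orthogonal (K := V) (y i)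
  obtain ⟨fj, hfj, Tj, hTj, hdj⟩ := Submodule.exists_add_mem_mem_orthogonal (K := V) (y j)
  have hys : ∀ s ∈ S, y s ∈ V := fun s hs => Submodule.subset_span ⟨s, hs, rfl⟩
  refine ⟨Ti, Tj, ?_, ?_, ?_, ?_, ?_⟩
  · intro s hs
    rw [real_inner_comm]
    exact hTi _ (hys s hs)
  · intro s hs
    rw [real_inner_comm]
    exact hTj _ (hys s hs)
  · simpa [hdi] using hfi
  · simpa [hdj] using hfj
  -- orthogonality relations
  have hor : ∀ {g T : E D}, g ∈ V → T ∈ Vᗮ → (inner ℝ g T : ℝ) = 0 := fun hg hT => hT _ hg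
  have hor' : ∀ {g T : E D}, g ∈ V → T ∈ Vᗮ → (inner ℝ T g : ℝ) = 0 := fun hg hT => by
    rw [real_inner_comm]; exact hT _ hg
  set Ri := ‖y i‖ ^ 2 with hRi
  set Rj := ‖y j‖ ^ 2 with hRj
  set p := ‖fi‖ ^ 2 with hp
  set r := ‖fj‖ ^ 2 with hr
  set m : ℝ := inner ℝ fi fj with hm
  set w : ℝ := -(inner ℝ (y i) (y j) : ℝ) with hw
  have hTi2 : ‖Ti‖ ^ 2 = Ri - p := by
    have : ‖y i‖ ^ 2 = ‖fi‖ ^ 2 + ‖Ti‖ ^ 2 := by
      rw [hdi, ← real_inner_self_eq_norm_sq, inner_add_left, inner_add_right, inner_add_right,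
        hor hfi hTi, hor' hfi hTi, real_inner_self_eq_norm_sq, real_inner_self_eq_norm_sq]
      ring
    rw [hRi, hp]; linarith
  have hTj2 : ‖Tj‖ ^ 2 = Rj - r := by
    have : ‖y j‖ ^ 2 = ‖fj‖ ^ 2 + ‖Tj‖ ^ 2 := by
      rw [hdj, ← real_inner_self_eq_norm_sq, inner_add_left, inner_add_right, inner_add_right,
        hor hfj hTj, hor' hfj hTj, real_inner_self_eq_norm_sq, real_inner_self_eq_norm_sq]
      ring
    rw [hRj, hr]; linarith
  have hTT : (inner ℝ Ti Tj : ℝ) = -w - m := by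
    have : (inner ℝ (y i) (y j) : ℝ) = m + inner ℝ Ti Tj := by
      rw [hdi, hdj, inner_add_left, inner_add_right, inner_add_right, hor hfi hTj, hor' hfj hTi]
      ring
    rw [hw]; linarith
  have hij' : (inner ℝ (y i) (y j) : ℝ) = -w := by rw [hw]; ring
  -- the three bounds
  set Wi := ∑ s ∈ S, ∑ q ∈ ({i} : Finset (Fin k)), (-(inner ℝ (y s) (y q) : ℝ)) with hWi
  set Wj := ∑ s ∈ S, ∑ q ∈ ({j} : Finset (Fin k)), (-(inner ℝ (y s) (y q) : ℝ)) with hWj
  have hpW : p ≤ Wi := by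
    refine proj_bound hsum hneg hSB hU (by simpa using hi) hfi ?_
    simp only [Finset.sum_singleton]
    rw [hdi, inner_add_left, hor' hfi hTi, real_inner_self_eq_norm_sq]
    ring
  have hrW : r ≤ Wj := by
    refine proj_bound hsum hneg hSB hU (by simpa using hj) hfj ?_
    simp only [Finset.sum_singleton]
    rw [hdj, inner_add_left, hor' hfj hTj, real_inner_self_eq_norm_sq]
    ring
  have hpair : ‖fi + fj‖ ^ 2 ≤ ∑ s ∈ S, ∑ q ∈ ({i, j} : Finset (Fin k)), (-(inner ℝ (y s) (y q) : ℝ)) := by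
    refine proj_bound hsum hneg hSB hU ?_ (V.add_mem hfi hfj) ?_
    · intro q hq
      simp only [Finset.mem_insert, Finset.mem_singleton] at hq
      rcases hq with rfl | rfl <;> assumption
    · rw [Finset.sum_pair hij, hdi, hdj]
      have e1 : (inner ℝ (fi + Ti + (fj + Tj)) (fi + fj) : ℝ) =
          (inner ℝ (fi + fj) (fi + fj) : ℝ) + inner ℝ (Ti + Tj) (fi + fj) := by
        rw [← inner_add_left]
        congr 1
        abel
      rw [e1, real_inner_self_eq_norm_sq, inner_add_left, hor' (V.add_mem hfi hfj) hTi,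
        hor' (V.add_mem hfi hfj) hTj]
      ring
  have hpair2 : ‖fi + fj‖ ^ 2 = p + r + 2 * m := by
    rw [← real_inner_self_eq_norm_sq, inner_add_left, inner_add_right, inner_add_right,
      real_inner_self_eq_norm_sq, real_inner_self_eq_norm_sq, real_inner_comm fi fj, hp, hr, hm]
    ring
  have hWsum : ∑ s ∈ S, ∑ q ∈ ({i, j} : Finset (Fin k)), (-(inner ℝ (y s) (y q) : ℝ)) = Wi + Wj := by
    rw [hWi, hWj, ← Finset.sum_add_distrib]
    refine Finset.sum_congr rfl fun s _ => ?_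
    rw [Finset.sum_pair hij]
    simp
  set σ := ∑ s ∈ S, ‖y s‖ ^ 2 with hσ
  have hWσ : Wi + Wj ≤ σ := by
    rw [← hWsum]
    refine Finset.sum_le_sum fun s hs => ?_
    refine weight_pair_le hsum hneg ?_
    simp only [Finset.mem_insert, Finset.mem_singleton, not_or]
    constructor
    · rintro rfl
      exact Finset.disjoint_left.1 hSB hs hi
    · rintro rfl
      exact Finset.disjoint_left.1 hSB hs hj
  -- w
  have hw0 : 0 < w := by
    have := hneg i j hij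
    rw [hw]; linarith
  have hwRi : w ≤ Ri := by
    have := weight_pair_le (s := i) (I := {j}) hsum hneg (by simpa using hij)
    simpa [hw, hRi] using this
  set M := max Ri Rj with hM
  have hRiM : Ri ≤ M := le_max_left _ _
  have hRjM : Rj ≤ M := le_max_right _ _
  have hp0 : 0 ≤ p := sq_nonneg _
  have hr0 : 0 ≤ r := sq_nonneg _
  have hM0 : 0 ≤ M := le_trans (sq_nonneg _) hRiM
  have hwM : w ≤ M := le_trans hwRi hRiM
  -- Cauchy in `V`
  have hCS : m ^ 2 ≤ p * r := by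
    have h := real_inner_mul_inner_self_le fi fj
    rw [real_inner_self_eq_norm_sq, real_inner_self_eq_norm_sq] at h
    rw [hm, hp, hr, sq]
    exact h
  have hmain : p * Rj + r * Ri + 2 * w * m ≤ M * σ := by
    by_cases hm0 : 0 ≤ m
    · have h1 : p * Rj ≤ p * M := mul_le_mul_of_nonneg_left hRjM hp0
      have h2 : r * Ri ≤ r * M := mul_le_mul_of_nonneg_left hRiM hr0
      have h3 : w * m ≤ M * m := mul_le_mul_of_nonneg_right hwM hm0
      have h4 : M * (p + r + 2 * m) ≤ M * σ :=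
        mul_le_mul_of_nonneg_left (by rw [← hpair2]; linarith) hM0
      nlinarith
    · have hm1 : m < 0 := not_le.1 hm0
      have h1 : p * Rj ≤ p * M := mul_le_mul_of_nonneg_left hRjM hp0
      have h2 : r * Ri ≤ r * M := mul_le_mul_of_nonneg_left hRiM hr0
      have h3 : w * m ≤ 0 := mul_nonpos_of_nonneg_of_nonpos hw0.le hm1.le
      have h4 : M * (p + r) ≤ M * σ :=
        mul_le_mul_of_nonneg_left (by linarith) hM0
      nlinarith
  rw [hTi2, hTj2, hTT, hij']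
  nlinarith

end Vale.Agent.Lib.P226K
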