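import Vale.Agent.Lib.P226K.Delete
import Vale.Agent.Lib.P226K.TailTent
import Vale.Agent.Lib.P226K.Moment
import Vale.Agent.Lib.P226K.Thick

/-!
The floor lemma of the all-`k` step: if two vectors of the group `B` keep a wedge of area `Dd` away
from the group `S`, and the group `S` has small total mass, then the largest vector of the group `S`
can not be small.
-/

open MeasureTheory ProbabilityTheory

namespace Vale.Agent.Lib.P226K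

open Vale.Agent.Lib.P226

variable {k D : ℕ}

/-- The norm of a sum of pairwise obtuse vectors is at most the sum of the squares of the norms. -/
private lemma norm_sum_sq_le_of_neg {y : Fin k → E D}
    (hneg : ∀ i j, i ≠ j → (inner ℝ (y i) (y j) : ℝ) < 0) (S : Finset (Fin k)) :
    ‖∑ s ∈ S, y s‖ ^ 2 ≤ ∑ s ∈ S, ‖y s‖ ^ 2 := by
  rw [← real_inner_self_eq_norm_sq, sum_inner]
  refine Finset.sum_le_sum fun s hs => ?_
  rw [inner_sum, ← real_inner_self_eq_norm_sq]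
  rw [← Finset.add_sum_erase S _ hs]
  have : ∑ t ∈ S.erase s, (inner ℝ (y s) (y t) : ℝ) ≤ 0 := by
    refine Finset.sum_nonpos fun t ht => ?_
    exact (hneg s t (Finset.ne_of_mem_erase ht).symm).le
  linarith

/-- The real algebra of the floor lemma. -/
private lemma floor_alg {T N b G I Dt Dd θ a0 A3 r : ℝ} (hT0 : 0 ≤ T) (hb : 0 < b) (hDd : 0 < Dd)
    (hDt : Dd ≤ Dt) (h0 : 0 < θ) (h1 : θ < 1) (hN0 : 0 ≤ N) (hA3 : A3 ≤ a0 * T) (hA30 : 0 ≤ A3)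
    (hr : 0 < r)
    (hdel : (T + N ^ 2 / b) / 2 < G)
    (htail : G ≤ (b ^ 2 * r / (12 * Real.pi * Dt)) * I)
    (hmom : r * I ≤ 2 * (A3 / (1 - θ) ^ 2 + (N / b) ^ 3 / θ ^ 2))
    (hN : N ≤ 3 * Real.pi * Dd * θ ^ 2) :
    3 * Real.pi * Dd * (1 - θ) ^ 2 / b ^ 2 < a0 := by
  have hpi := Real.pi_pos
  have h1θ : 0 < 1 - θ := by linarith
  have hDt0 : 0 < Dt := lt_of_lt_of_le hDd hDt
  -- step 1
  have e1 : (b ^ 2 * r / (12 * Real.pi * Dt)) * I = (b ^ 2 / (12 * Real.pi * Dt)) * (r * I) := by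
    field_simp
  have hc0 : 0 ≤ b ^ 2 / (12 * Real.pi * Dt) := by positivity
  have hG1 : G ≤ (b ^ 2 / (12 * Real.pi * Dt)) * (2 * (A3 / (1 - θ) ^ 2 + (N / b) ^ 3 / θ ^ 2)) := by
    rw [e1] at htail
    exact htail.trans (mul_le_mul_of_nonneg_left hmom hc0)
  have hX0 : 0 ≤ 2 * (A3 / (1 - θ) ^ 2 + (N / b) ^ 3 / θ ^ 2) := by positivity
  have hc1 : b ^ 2 / (12 * Real.pi * Dt) ≤ b ^ 2 / (12 * Real.pi * Dd) := by
    apply div_le_div_of_nonneg_left (by positivity) (by positivity)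
    exact mul_le_mul_of_nonneg_left hDt (by positivity)
  have hG2 : G ≤ (b ^ 2 / (12 * Real.pi * Dd)) * (2 * (A3 / (1 - θ) ^ 2 + (N / b) ^ 3 / θ ^ 2)) :=
    hG1.trans (mul_le_mul_of_nonneg_right hc1 hX0)
  -- step 2: the term in `N` cancels
  have e2 : (b ^ 2 / (12 * Real.pi * Dd)) * (2 * ((N / b) ^ 3 / θ ^ 2)) =
      (N ^ 2 / b) / 2 * (N / (3 * Real.pi * Dd * θ ^ 2)) := by
    field_simp
    ring
  have hN' : N / (3 * Real.pi * Dd * θ ^ 2) ≤ 1 := by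
    rw [div_le_one (by positivity)]
    exact hN
  have e3 : (b ^ 2 / (12 * Real.pi * Dd)) * (2 * ((N / b) ^ 3 / θ ^ 2)) ≤ (N ^ 2 / b) / 2 := by
    rw [e2]
    exact mul_le_of_le_one_right (by positivity) hN'
  have e4 : (b ^ 2 / (12 * Real.pi * Dd)) * (2 * (A3 / (1 - θ) ^ 2)) ≤
      (b ^ 2 / (12 * Real.pi * Dd)) * (2 * (a0 * T / (1 - θ) ^ 2)) := by
    apply mul_le_mul_of_nonneg_left _ (by positivity)
    apply mul_le_mul_of_nonneg_left _ (by norm_num)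
    exact div_le_div_of_nonneg_right hA3 (by positivity)
  have e5 : (b ^ 2 / (12 * Real.pi * Dd)) * (2 * (A3 / (1 - θ) ^ 2 + (N / b) ^ 3 / θ ^ 2)) =
      (b ^ 2 / (12 * Real.pi * Dd)) * (2 * (A3 / (1 - θ) ^ 2)) +
        (b ^ 2 / (12 * Real.pi * Dd)) * (2 * ((N / b) ^ 3 / θ ^ 2)) := by ring
  have hmain : T / 2 < (b ^ 2 / (12 * Real.pi * Dd)) * (2 * (a0 * T / (1 - θ) ^ 2)) := by
    have : (T + N ^ 2 / b) / 2 = T / 2 + (N ^ 2 / b) / 2 := by ring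
    rw [this] at hdel
    linarith
  -- step 3: `T > 0` and conclusion
  have e6 : (b ^ 2 / (12 * Real.pi * Dd)) * (2 * (a0 * T / (1 - θ) ^ 2)) =
      T * (a0 * b ^ 2 / (6 * Real.pi * Dd * (1 - θ) ^ 2)) := by
    field_simp
    ring
  rw [e6] at hmain
  have hTpos : 0 < T := by
    rcases hT0.lt_or_eq with h | h
    · exact h
    · rw [← h] at hmain
      simp at hmain
  have h12 : 1 / 2 < a0 * b ^ 2 / (6 * Real.pi * Dd * (1 - θ) ^ 2) := by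
    have : T * (1 / 2) < T * (a0 * b ^ 2 / (6 * Real.pi * Dd * (1 - θ) ^ 2)) := by linarith
    exact lt_of_mul_lt_mul_left this hT0
  rw [lt_div_iff₀ (by positivity)] at h12
  rw [div_lt_iff₀ (by positivity)]
  linarith

/-- The floor lemma (paper proof in notes/P226K_blueprint.md): deletion of the group `S`, the tail
tent and the third moment. -/
theorem floor_core [NeZero k] {y : Fin k → E D} {A : Fin k → Set (E D)} (h : Ext y A)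
    {S B : Finset (Fin k)} (hSB : Disjoint S B) (hU : S ∪ B = Finset.univ) (hS' : S.Nonempty)
    (hB : B.Nonempty) (hbc : 3 ≤ B.card) (hb : PartitionBound B.card)
    {i j : Fin k} (hi : i ∈ B) (hj : j ∈ B) (hij : i ≠ j)
    {Dd θ a0 : ℝ} (hDd : 0 < Dd) (h0 : 0 < θ) (h1 : θ < 1)
    (hthick : Dd ^ 2 ≤ ‖y i‖ ^ 2 * ‖y j‖ ^ 2 - (inner ℝ (y i) (y j) : ℝ) ^ 2
          - max (‖y i‖ ^ 2) (‖y j‖ ^ 2) * ∑ s ∈ S, ‖y s‖ ^ 2)
    (ha0 : ∀ s ∈ S, ‖y s‖ ≤ a0)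
    (hT : ∑ s ∈ S, ‖y s‖ ^ 2 ≤ (3 * Real.pi * Dd * θ ^ 2) ^ 2) :
    3 * Real.pi * Dd * (1 - θ) ^ 2 / (B.card : ℝ) ^ 2 < a0 := by
  have hb0 : (0 : ℝ) < (B.card : ℝ) := by
    have : 0 < B.card := by omega
    exact_mod_cast this
  have hL : 9 / 8 < W y - TT y / 2 := by
    rw [h.wEq]
    linarith [h.big]
  have hdel := del_gain h.sum hL hSB hU hS' hB hb
  obtain ⟨Ti, Tj, hTi, hTj, hfi, hfj, hthk⟩ := thick h.sum h.neg hSB hU hi hj hij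
  have hDt2 := hthick.trans hthk
  have hDt2pos : 0 ≤ ‖Ti‖ ^ 2 * ‖Tj‖ ^ 2 - (inner ℝ Ti Tj : ℝ) ^ 2 := le_trans (by positivity) hDt2
  have hDtsq : Real.sqrt (‖Ti‖ ^ 2 * ‖Tj‖ ^ 2 - (inner ℝ Ti Tj : ℝ) ^ 2) ^ 2 =
      ‖Ti‖ ^ 2 * ‖Tj‖ ^ 2 - (inner ℝ Ti Tj : ℝ) ^ 2 := Real.sq_sqrt hDt2pos
  have hDdDt : Dd ≤ Real.sqrt (‖Ti‖ ^ 2 * ‖Tj‖ ^ 2 - (inner ℝ Ti Tj : ℝ) ^ 2) :=
    Real.le_sqrt_of_sq_le hDt2
  have hDt : 0 < Real.sqrt (‖Ti‖ ^ 2 * ‖Tj‖ ^ 2 - (inner ℝ Ti Tj : ℝ) ^ 2) :=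
    lt_of_lt_of_le hDd hDdDt
  have htail := tent_tail h.sum hSB hU hS' hB hi hj hij hbc hTi hTj hfi hfj hDt hDtsq
  have hmom := moment_bound (y := y) (D := D) hS' hb0 h0 h1
  have hA0 : 0 ≤ a0 := by
    obtain ⟨s, hs⟩ := hS'
    exact (norm_nonneg _).trans (ha0 s hs)
  have hA3 : ∑ s ∈ S, ‖y s‖ ^ 3 ≤ a0 * ∑ s ∈ S, ‖y s‖ ^ 2 := by
    rw [Finset.mul_sum]
    refine Finset.sum_le_sum fun s hs => ?_
    have := ha0 s hs
    have h2 : 0 ≤ ‖y s‖ ^ 2 := by positivity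
    calc ‖y s‖ ^ 3 = ‖y s‖ * ‖y s‖ ^ 2 := by ring
      _ ≤ a0 * ‖y s‖ ^ 2 := mul_le_mul_of_nonneg_right this h2
  have hN2 : ‖∑ s ∈ S, y s‖ ^ 2 ≤ (3 * Real.pi * Dd * θ ^ 2) ^ 2 :=
    (norm_sum_sq_le_of_neg h.neg S).trans hT
  have hN : ‖∑ s ∈ S, y s‖ ≤ 3 * Real.pi * Dd * θ ^ 2 :=
    abs_le_of_sq_le_sq' hN2 (by positivity) |>.2
  have hr : 0 < Real.sqrt (2 * Real.pi) := Real.sqrt_pos.mpr (by positivity)
  exact floor_alg (Finset.sum_nonneg fun s _ => by positivity) hb0 hDd hDdDt h0 h1 (norm_nonneg _)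
    hA3 (Finset.sum_nonneg fun s _ => by positivity) hr hdel htail hmom hN

end Vale.Agent.Lib.P226K
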