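import Vale.Agent.Lib.P226K.FloorCore
import Vale.Agent.Lib.P226R.Main

/-!
The floor lemma for a sorted configuration.
-/

open MeasureTheory ProbabilityTheory

namespace Vale.Agent.Lib.P226K

open Vale.Agent.Lib.P226

variable {k D : ℕ}

/-- Sequence of the norms. -/
noncomputable def aSeq (y : Fin k → E D) (n : ℕ) : ℝ := if h : n < k then ‖y ⟨n, h⟩‖ else 0

/-- Sequence of the masses. -/
noncomputable def qSeq (A : Fin k → Set (E D)) (n : ℕ) : ℝ :=
  if h : n < k then (gam D).real (A ⟨n, h⟩) else 0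

/-- The partition bound passes to fewer cells. -/
theorem partitionBound_mono {b m : ℕ} (hbm : b ≤ m) (h : PartitionBound m) : PartitionBound b := by
  induction m, hbm using Nat.le_induction with
  | base => exact h
  | succ m _ ih => exact ih (PBc_pred (c := 9 / (8 * Real.pi)) (k := m) h)

/-- Pigeonhole: a vertex of the group `P` has a small edge to the vertex `j`. -/
theorem exists_small_edge [NeZero k] {y : Fin k → E D} (hsum : ∑ i, y i = 0)
    (hneg : ∀ i j, i ≠ j → (inner ℝ (y i) (y j) : ℝ) < 0) (j : Fin k) {P : Finset (Fin k)}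
    (hjP : j ∉ P) (hP : P.Nonempty) :
    ∃ i ∈ P, (inner ℝ (y i) (y j) : ℝ) ^ 2 ≤ (‖y j‖ ^ 2 / (P.card : ℝ)) ^ 2 := by
  have h0 : ∑ s, (inner ℝ (y s) (y j) : ℝ) = 0 := by
    rw [← sum_inner, hsum, inner_zero_left]
  have h1 : ∑ s ∈ P, (-(inner ℝ (y s) (y j) : ℝ)) ≤ ‖y j‖ ^ 2 := by
    have h2 : ∑ s ∈ Finset.univ.erase j, (-(inner ℝ (y s) (y j) : ℝ)) = ‖y j‖ ^ 2 := by
      rw [Finset.sum_neg_distrib]
      have := Finset.add_sum_erase Finset.univ (fun s => (inner ℝ (y s) (y j) : ℝ)) (Finset.mem_univ j)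
      rw [h0, real_inner_self_eq_norm_sq] at this
      linarith
    rw [← h2]
    apply Finset.sum_le_sum_of_subset_of_nonneg
    · intro s hs
      simp only [Finset.mem_erase, Finset.mem_univ, and_true]
      rintro rfl
      exact hjP hs
    · intro s hs _
      simp only [Finset.mem_erase, Finset.mem_univ, and_true] at hs
      linarith [hneg s j hs]
  have hc : (0 : ℝ) < P.card := by exact_mod_cast Finset.card_pos.2 hP
  have h3 : ∑ s ∈ P, (-(inner ℝ (y s) (y j) : ℝ)) ≤ ∑ _s ∈ P, ‖y j‖ ^ 2 / (P.card : ℝ) := by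
    rw [Finset.sum_const, nsmul_eq_mul]
    rw [mul_div_cancel₀ _ hc.ne']
    exact h1
  obtain ⟨i, hi, hle⟩ := Finset.exists_le_of_sum_le hP h3
  refine ⟨i, hi, ?_⟩
  have hij : i ≠ j := fun e => hjP (e ▸ hi)
  have hw := hneg i j hij
  have : 0 ≤ -(inner ℝ (y i) (y j) : ℝ) := by linarith
  calc (inner ℝ (y i) (y j) : ℝ) ^ 2 = (-(inner ℝ (y i) (y j) : ℝ)) ^ 2 := by ring
    _ ≤ _ := pow_le_pow_left₀ this hle 2

/-- The algebra of the thickness. -/
theorem thick_algebra {Dd Ri Rj Rm T w n2 : ℝ} (hDd : 0 < Dd) (hm0 : 0 ≤ Rm) (hmi : Rm ≤ Ri)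
    (hn2 : 0 < n2) (hD : Dd ^ 2 ≤ Rm * (Rj - T) - Rj ^ 2 / n2) (hw : w ≤ Rj ^ 2 / n2) :
    Dd ^ 2 ≤ Ri * Rj - w - Ri * T := by
  have h1 : 0 ≤ Rj ^ 2 / n2 := by positivity
  have h2 : 0 < Rm * (Rj - T) := by nlinarith [pow_pos hDd 2]
  have h3 : 0 < Rj - T := by
    by_contra h
    push Not at h
    nlinarith
  nlinarith [mul_le_mul_of_nonneg_right hmi h3.le]

/-- Floor lemma for a sorted configuration: `S = {s ≥ b}`, `B = {s < b}`, `j = n`, and a pigeonhole
choice of `i < n` with `-⟪y i, y n⟫ ≤ R_n / n`. -/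
theorem floor_sorted [NeZero k] {y : Fin k → E D} {A : Fin k → Set (E D)} (h : Ext y A)
    (hanti : ∀ i j : Fin k, i ≤ j → ‖y j‖ ≤ ‖y i‖) (hP : PartitionBound (k - 1))
    (b n : ℕ) (Dd θ : ℝ) (hb : 3 ≤ b) (hbk : b < k) (hn : 1 ≤ n) (hnb : n < b) (hDd : 0 < Dd)
    (h0 : 0 < θ) (h1 : θ < 1)
    (hD : Dd ^ 2 ≤ (aSeq y (n - 1)) ^ 2 *
        ((aSeq y n) ^ 2 - ∑ i ∈ Finset.Ico b k, (aSeq y i) ^ 2) - (aSeq y n) ^ 4 / (n : ℝ) ^ 2)
    (hT : ∑ i ∈ Finset.Ico b k, (aSeq y i) ^ 2 ≤ (3 * Real.pi * Dd * θ ^ 2) ^ 2) :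
    3 * Real.pi * Dd * (1 - θ) ^ 2 / (b : ℝ) ^ 2 < aSeq y b := by
  have hnk : n < k := by omega
  have hmk : n - 1 < k := by omega
  have ha : ∀ {m : ℕ} (hm : m < k), aSeq y m = ‖y ⟨m, hm⟩‖ := fun hm => by simp [aSeq, hm]
  rw [ha hnk, ha hmk] at hD
  rw [ha hbk]
  -- the two groups
  set S : Finset (Fin k) := Finset.univ.filter (fun s => b ≤ s.val) with hSdef
  set B : Finset (Fin k) := Finset.univ.filter (fun s => s.val < b) with hBdef
  have hSB : Disjoint S B := by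
    rw [Finset.disjoint_left]
    intro s hs hs'
    simp only [hSdef, hBdef, Finset.mem_filter, Finset.mem_univ, true_and] at hs hs'
    omega
  have hU : S ∪ B = Finset.univ := by
    ext s
    simp only [hSdef, hBdef, Finset.mem_union, Finset.mem_filter, Finset.mem_univ, true_and, iff_true]
    omega
  have hS' : S.Nonempty := ⟨⟨b, hbk⟩, by simp [hSdef]⟩
  have hBne : B.Nonempty := ⟨⟨n, hnk⟩, by simp [hBdef]; omega⟩
  have hcard : B.card = b := by
    rw [hBdef, Fin.card_filter_val_lt]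
    omega
  have hsum : ∑ s ∈ S, ‖y s‖ ^ 2 = ∑ i ∈ Finset.Ico b k, (aSeq y i) ^ 2 := by
    have h1 : Finset.Ico b k = (Finset.range k).filter (fun i => b ≤ i) := by
      ext i; simp only [Finset.mem_Ico, Finset.mem_filter, Finset.mem_range]; omega
    rw [h1, Finset.sum_filter, Finset.sum_filter, Finset.sum_range]
    refine Finset.sum_congr rfl fun s _ => ?_
    by_cases hs : b ≤ s.val
    · simp [hs, aSeq]
    · simp [hs]
  rw [← hsum] at hD hT
  -- the pigeonhole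
  set j : Fin k := ⟨n, hnk⟩ with hj
  set P : Finset (Fin k) := Finset.univ.filter (fun s => s.val < n) with hPdef
  have hjP : j ∉ P := by simp [hPdef, hj]
  have hPcard : P.card = n := by
    rw [hPdef, Fin.card_filter_val_lt]
    omega
  have hPne : P.Nonempty := by
    rw [← Finset.card_pos, hPcard]; omega
  obtain ⟨i, hiP, hw⟩ := exists_small_edge h.sum h.neg j hjP hPne
  rw [hPcard] at hw
  have hin : i.val < n := by
    simpa [hPdef] using hiP
  have hnR : (0 : ℝ) < (n : ℝ) ^ 2 := by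
    have : (0 : ℝ) < n := by exact_mod_cast (by omega : 0 < n)
    positivity
  have hij : i ≠ j := fun e => hjP (e ▸ hiP)
  have hmi : ‖y ⟨n - 1, hmk⟩‖ ≤ ‖y i‖ := hanti _ _ (by
    rw [Fin.le_def]; simp only; omega)
  have hji : ‖y j‖ ≤ ‖y i‖ := hanti _ _ (by
    rw [Fin.le_def]; simp only [hj]; omega)
  have hmax : max (‖y i‖ ^ 2) (‖y j‖ ^ 2) = ‖y i‖ ^ 2 :=
    max_eq_left (pow_le_pow_left₀ (norm_nonneg _) hji 2)
  have hthick : Dd ^ 2 ≤ ‖y i‖ ^ 2 * ‖y j‖ ^ 2 - (inner ℝ (y i) (y j) : ℝ) ^ 2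
          - max (‖y i‖ ^ 2) (‖y j‖ ^ 2) * ∑ s ∈ S, ‖y s‖ ^ 2 := by
    rw [hmax]
    refine thick_algebra (Rm := ‖y ⟨n - 1, hmk⟩‖ ^ 2) (n2 := (n : ℝ) ^ 2) hDd (by positivity)
      (pow_le_pow_left₀ (norm_nonneg _) hmi 2) hnR ?_ ?_
    · have : (‖y j‖ ^ 2) ^ 2 = ‖y j‖ ^ 4 := by ring
      rw [this]
      exact hD
    · rw [div_pow] at hw
      exact hw
  have ha0 : ∀ s ∈ S, ‖y s‖ ≤ ‖y ⟨b, hbk⟩‖ := by
    intro s hs
    apply hanti
    rw [Fin.le_def]
    simpa [hSdef] using hs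
  have hPb : PartitionBound B.card := by
    rw [hcard]
    exact partitionBound_mono (by omega) hP
  have hiB : i ∈ B := by
    simp only [hBdef, Finset.mem_filter, Finset.mem_univ, true_and]; omega
  have hjB : j ∈ B := by
    simp only [hBdef, hj, Finset.mem_filter, Finset.mem_univ, true_and]; omega
  have := floor_core h hSB hU hS' hBne (by rw [hcard]; exact hb) hPb hiB hjB hij hDd h0 h1 hthick ha0 hT
  rwa [hcard] at this

end Vale.Agent.Lib.P226K
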