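import Vale.Agent.Lib.P226K.Defs
import Vale.Agent.Lib.P226R.TentR
import Vale.Agent.Lib.P226R.Dual
import Vale.Agent.Lib.P226R.Bdry

/-!
The hazard bound for the gain of one vertex of an extremal configuration: by the tent bound of the
reduction (log-concavity of the translates of the open cell, Cameron-Martin shift, layer cake), with
the cell identified with the open cell up to a null set.
-/

open MeasureTheory ProbabilityTheory

namespace Vale.Agent.Lib.P226K

open Vale.Agent.Lib.P226

variable {k D : ℕ}

/-- The vertices other than `i`. -/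
private theorem hS_singleton (y : Fin k → E D) (i : Fin k) (x : E D) :
    hS y {i} (Finset.singleton_nonempty i) x = inner ℝ x (y i) := by
  simp [hS]

private theorem hS_erase {n : ℕ} [NeZero n] (y : Fin (n + 1) → E D) (i : Fin (n + 1))
    (hB : (Finset.univ.erase i).Nonempty) (x : E D) :
    hS y (Finset.univ.erase i) hB x = mx (fun l : Fin n => y (i.succAbove l)) x := by
  apply le_antisymm
  · apply Finset.sup'_le
    intro j hj
    have hji : j ≠ i := (Finset.mem_erase.mp hj).1
    obtain ⟨l, rfl⟩ := Fin.exists_succAbove_eq hji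
    exact inner_le_mx (fun l : Fin n => y (i.succAbove l)) x l
  · obtain ⟨l, hl⟩ := exists_eq_mx (fun l : Fin n => y (i.succAbove l)) x
    rw [← hl]
    exact Finset.le_sup' (fun j => (inner ℝ x (y j) : ℝ))
      (Finset.mem_erase.mpr ⟨Fin.succAbove_ne i l, Finset.mem_univ _⟩)

/-- The cell of an extremal configuration agrees with the open cell up to a null set. -/
private theorem cell_ae {n : ℕ} [NeZero (n + 1)] {y : Fin (n + 1) → E D} {A : Fin (n + 1) → Set (E D)}
    (h : Ext y A) (i : Fin (n + 1)) :
    A i =ᵐ[gam D] cellO (y i) (fun l : Fin n => y (i.succAbove l)) := by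
  have hne : ∀ j, j ≠ i → y j ≠ y i := by
    intro j hj he
    have h1 := h.neg j i hj
    rw [he, real_inner_self_eq_norm_sq] at h1
    nlinarith [sq_nonneg ‖y i‖]
  have hne' : ∀ l : Fin n, (fun l : Fin n => y (i.succAbove l)) l ≠ y i :=
    fun l => hne _ (Fin.succAbove_ne i l)
  have hC := cell_ae_eq (y i) (fun l : Fin n => y (i.succAbove l)) hne'
  refine Filter.EventuallyEq.trans ?_ hC
  -- `A i` agrees with the closed cell
  have hnull : ∀ j : Fin (n + 1), j ≠ i →
      ∀ᵐ x ∂(gam D), (inner ℝ x (y j) : ℝ) ≠ inner ℝ x (y i) := by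
    intro j hj
    have h0 := gam_hyperplane_null (y j - y i) (sub_ne_zero.mpr (hne j hj))
    rw [ae_iff]
    refine measure_mono_null (fun x hx => ?_) h0
    have hx' : (inner ℝ x (y j) : ℝ) = inner ℝ x (y i) := by simpa using hx
    simp [inner_sub_right, hx']
  have hall : ∀ᵐ x ∂(gam D), ∀ j : Fin (n + 1), j ≠ i →
      (inner ℝ x (y j) : ℝ) ≠ inner ℝ x (y i) := by
    rw [ae_all_iff]
    intro j
    by_cases hj : j = i
    · exact Filter.Eventually.of_forall fun x hx => absurd hj hx
    · filter_upwards [hnull j hj] with x hx _ using hx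
  filter_upwards [hall] with x hx
  apply propext
  change x ∈ A i ↔ ∀ l : Fin n, (inner ℝ x (y (i.succAbove l)) : ℝ) ≤ inner ℝ x (y i)
  constructor
  · intro hxA l
    exact h.vor i x hxA _
  · intro hle
    have hcov : x ∈ ⋃ j, A j := by rw [h.part.cover]; exact Set.mem_univ x
    obtain ⟨j, hj⟩ := Set.mem_iUnion.mp hcov
    by_cases hji : j = i
    · exact hji ▸ hj
    · exfalso
      obtain ⟨l, rfl⟩ := Fin.exists_succAbove_eq hji
      have h1 := hle l
      have h2 := h.vor _ x hj i
      exact hx _ hji (le_antisymm h1 h2)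

/-- The hazard bound for the gain of one vertex: `G_i ≤ 2π (k/(k-1)) q_i²`. -/
theorem gain_single_le [NeZero k] {y : Fin k → E D} {A : Fin k → Set (E D)} (h : Ext y A)
    (hk : 2 ≤ k) (i : Fin k) (hB : (Finset.univ.erase i).Nonempty) :
    gainS y {i} (Finset.univ.erase i) (Finset.singleton_nonempty i) hB ≤
      2 * Real.pi * ((k : ℝ) / ((k : ℝ) - 1)) * ((gam D).real (A i)) ^ 2 := by
  obtain ⟨n, rfl⟩ : ∃ n, k = n + 1 := ⟨k - 1, by omega⟩
  have hn : 1 ≤ n := by omega
  have : NeZero n := ⟨by omega⟩
  set v : Fin n → E D := fun l => y (i.succAbove l) with hv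
  have hsum : y i + ∑ l, v l = 0 := by
    have := h.sum
    rwa [Fin.sum_univ_succAbove _ i] at this
  obtain ⟨u, hu⟩ := exists_dual (y i) v hsum
    (fun l => h.neg i _ (Fin.succAbove_ne i l).symm)
    (fun l m hlm => h.neg _ _ (fun he => hlm (Fin.succAbove_right_injective he)))
  have hae := cell_ae h i
  have hmomeq : mom (cellO (y i) v) = mom (A i) := by
    unfold mom
    exact setIntegral_congr_set hae.symm
  have hmom : Real.sqrt (2 * Real.pi) • mom (cellO (y i) v) = y i := by
    rw [hmomeq]
    exact h.fix i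
  have hreal : (gam D).real (cellO (y i) v) = (gam D).real (A i) := by
    unfold Measure.real
    rw [measure_congr hae.symm]
  have hT := tent_boundR (y i) u v hsum hu hmom
  rw [hreal] at hT
  have hG : gainS y {i} (Finset.univ.erase i) (Finset.singleton_nonempty i) hB =
      Real.sqrt (2 * Real.pi) * ∫ x, max 0 (inner ℝ x (y i) - mx v x) ∂(gam D) := by
    unfold gainS
    congr 2
    ext x
    rw [hS_singleton, hS_erase]
  rw [hG]
  refine hT.trans (le_of_eq ?_)
  have hn' : (n : ℝ) ≠ 0 := by
    have : (1 : ℝ) ≤ n := by exact_mod_cast hn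
    linarith
  push_cast
  have : (n : ℝ) + 1 - 1 = n := by ring
  rw [this]
  ring

end Vale.Agent.Lib.P226K
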