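import Vale.Agent.Lib.P226K.Delete
import Vale.Agent.Lib.P226K.Hazard

/-!
The hazard bound: `‖y i‖ ≤ 2 √π q_i`, from the deletion of one vertex and the gain bound.
-/

open MeasureTheory ProbabilityTheory

namespace Vale.Agent.Lib.P226K

open Vale.Agent.Lib.P226

variable {k D : ℕ}

/-- The hazard bound: `‖y i‖ < 2 √π q_i`. From `del_gain` with `S = {i}`, `B = univ.erase i` and
`gain_single_le`. -/
theorem hazard_step [NeZero k] {y : Fin k → E D} {A : Fin k → Set (E D)} (h : Ext y A)
    (hk : 2 ≤ k) (hP : PartitionBound (k - 1)) (i : Fin k) :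
    ‖y i‖ ≤ (709 / 200) * (gam D).real (A i) := by
  have hL : 9 / 8 < W y - TT y / 2 := by
    rw [h.wEq]; linarith [h.big]
  have hS : ({i} : Finset (Fin k)).Nonempty := Finset.singleton_nonempty i
  have hcard : (Finset.univ.erase i).card = k - 1 := by
    rw [Finset.card_erase_of_mem (Finset.mem_univ i), Finset.card_univ, Fintype.card_fin]
  have hB : (Finset.univ.erase i).Nonempty := by
    rw [← Finset.card_pos, hcard]; omega
  have hb : PartitionBound (Finset.univ.erase i).card := by rwa [hcard]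
  have hdisj : Disjoint ({i} : Finset (Fin k)) (Finset.univ.erase i) := by simp
  have hU : ({i} : Finset (Fin k)) ∪ Finset.univ.erase i = Finset.univ := by
    ext j; by_cases hj : j = i <;> simp [hj]
  have h1 := del_gain h.sum hL hdisj hU hS hB hb
  have h2 := gain_single_le h hk i hB
  have hk1 : (1 : ℝ) < k := by exact_mod_cast (by omega : 1 < k)
  have hcast : ((Finset.univ.erase i).card : ℝ) = (k : ℝ) - 1 := by
    rw [hcard, Nat.cast_sub (by omega)]; simp
  rw [hcast, Finset.sum_singleton, Finset.sum_singleton] at h1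
  set R : ℝ := ‖y i‖ ^ 2 with hR
  set q : ℝ := (gam D).real (A i) with hq
  have hq0 : 0 ≤ q := measureReal_nonneg
  have hr : (R + R / ((k : ℝ) - 1)) / 2 = (R / 2) * ((k : ℝ) / ((k : ℝ) - 1)) := by
    have : (k : ℝ) - 1 ≠ 0 := by linarith [hk1] |> ne_of_gt
    field_simp
    ring
  rw [hr] at h1
  have hpos : 0 < (k : ℝ) / ((k : ℝ) - 1) := div_pos (by linarith) (by linarith)
  have h3 : (R / 2) * ((k : ℝ) / ((k : ℝ) - 1)) <
      (2 * Real.pi * q ^ 2) * ((k : ℝ) / ((k : ℝ) - 1)) := by
    calc _ < _ := h1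
      _ ≤ _ := h2
      _ = _ := by ring
  have h4 : R / 2 < 2 * Real.pi * q ^ 2 := lt_of_mul_lt_mul_right h3 hpos.le
  have hpi := Real.pi_lt_d4
  have h5 : ‖y i‖ ^ 2 ≤ ((709 / 200) * q) ^ 2 := by
    have : q ^ 2 * Real.pi ≤ q ^ 2 * 3.1416 :=
      mul_le_mul_of_nonneg_left hpi.le (by positivity)
    rw [← hR]
    nlinarith
  exact (abs_le_of_sq_le_sq' h5 (by positivity)).2
end Vale.Agent.Lib.P226K
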