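import Vale.Agent.Lib.P226K.Defs

/-!
The tangent line bound for the norm of the moment of a set, and closed forms for `PsiT`.
-/

open MeasureTheory ProbabilityTheory

namespace Vale.Agent.Lib.P226K

open Vale.Agent.Lib.P226

variable {k D : ℕ}

theorem integrable_mul_exp_sub (s : ℝ) :
    IntegrableOn (fun t : ℝ => (t - s) * Real.exp (-t ^ 2 / 2)) (Set.Ioi s) := by
  have h1 : Integrable (fun t : ℝ => t * Real.exp (-(1 / 2) * t ^ 2)) :=
    integrable_mul_exp_neg_mul_sq (by norm_num)
  have h2 : Integrable (fun t : ℝ => Real.exp (-(1 / 2) * t ^ 2)) :=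
    integrable_exp_neg_mul_sq (by norm_num)
  have h3 : Integrable (fun t : ℝ => (t - s) * Real.exp (-t ^ 2 / 2)) := by
    refine (h1.sub (h2.const_mul s)).congr (Filter.Eventually.of_forall fun t => ?_)
    have : -(1 / 2) * t ^ 2 = -t ^ 2 / 2 := by ring
    simp only [Pi.sub_apply, this]
    ring
  exact h3.integrableOn

theorem PsiT_nonneg (s : ℝ) : 0 ≤ PsiT s := by
  unfold PsiT
  refine setIntegral_nonneg measurableSet_Ioi (fun t ht => ?_)
  have : 0 ≤ t - s := by
    have : s < t := ht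
    linarith
  positivity

/-- `√(2π) E (N - s)₊ = PsiT s`. -/
theorem sqrt_integral_pos_sub (s : ℝ) :
    Real.sqrt (2 * Real.pi) * ∫ t, max 0 (t - s) ∂(gaussianReal 0 1) = PsiT s := by
  rw [integral_gaussianReal_eq_integral_smul (by norm_num)]
  have h0 : ∫ t, gaussianPDFReal 0 1 t • max 0 (t - s)
      = ∫ t in Set.Ioi s, gaussianPDFReal 0 1 t • max 0 (t - s) := by
    symm
    apply setIntegral_eq_integral_of_forall_compl_eq_zero
    intro x hx
    have hx' : x ≤ s := by simpa using hx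
    rw [max_eq_left (by linarith)]
    simp
  rw [h0]
  have h1 : ∀ t ∈ Set.Ioi s, gaussianPDFReal 0 1 t • max 0 (t - s)
      = (Real.sqrt (2 * Real.pi))⁻¹ * ((t - s) * Real.exp (-t ^ 2 / 2)) := by
    intro t ht
    have ht' : 0 ≤ t - s := by
      have : s < t := ht
      linarith
    rw [max_eq_right ht']
    simp only [gaussianPDFReal, smul_eq_mul]
    norm_num
    ring_nf
  rw [setIntegral_congr_fun measurableSet_Ioi h1, integral_const_mul]
  have hs : Real.sqrt (2 * Real.pi) ≠ 0 := by positivity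
  unfold PsiT
  field_simp

theorem integrable_pos_inner_sub (u : E D) (s : ℝ) :
    Integrable (fun x : E D => max 0 ((inner ℝ x u : ℝ) - s)) (gam D) :=
  (integrable_const (0 : ℝ)).sup ((integrable_inner_gam u).sub (integrable_const s))

/-- The tangent line bound for an arbitrary measurable set. -/
theorem norm_nz_le {C : Set (E D)} {s : ℝ} (hs : 0 ≤ s) :
    ‖nz C‖ ≤ Real.sqrt (2 * Real.pi) * s * (gam D).real C + PsiT s := by
  have hS : 0 < Real.sqrt (2 * Real.pi) := by positivity
  by_cases h0 : nz C = 0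
  · rw [h0, norm_zero]
    have := PsiT_nonneg s
    positivity
  have hn : 0 < ‖nz C‖ := norm_pos_iff.mpr h0
  obtain ⟨u, hu⟩ : ∃ u : E D, u = ‖nz C‖⁻¹ • nz C := ⟨_, rfl⟩
  have hun : ‖u‖ = 1 := by
    rw [hu, norm_smul, norm_inv, norm_norm]
    field_simp
  have h1 : ‖nz C‖ = Real.sqrt (2 * Real.pi) * ∫ x in C, (inner ℝ x u : ℝ) ∂(gam D) := by
    rw [← inner_mom]
    have : (inner ℝ (nz C) u : ℝ) = Real.sqrt (2 * Real.pi) * inner ℝ (mom C) u := by
      rw [nz, inner_smul_left]
      simp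
    rw [← this, hu, inner_smul_right, real_inner_self_eq_norm_sq]
    field_simp
  have h2 : ∫ x in C, (inner ℝ x u : ℝ) ∂(gam D)
      ≤ ∫ x in C, (s + max 0 ((inner ℝ x u : ℝ) - s)) ∂(gam D) := by
    refine setIntegral_mono (integrable_inner_gam u).integrableOn
      ((integrable_const s).add (integrable_pos_inner_sub u s)).integrableOn (fun x => ?_)
    have := le_max_right 0 ((inner ℝ x u : ℝ) - s)
    simp only
    linarith
  have h3 : ∫ x in C, (s + max 0 ((inner ℝ x u : ℝ) - s)) ∂(gam D)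
      = s * (gam D).real C + ∫ x in C, max 0 ((inner ℝ x u : ℝ) - s) ∂(gam D) := by
    rw [integral_add (integrable_const s).integrableOn (integrable_pos_inner_sub u s).integrableOn,
      setIntegral_const]
    simp [mul_comm]
  have h4 : ∫ x in C, max 0 ((inner ℝ x u : ℝ) - s) ∂(gam D)
      ≤ ∫ x, max 0 ((inner ℝ x u : ℝ) - s) ∂(gam D) :=
    setIntegral_le_integral (integrable_pos_inner_sub u s)
      (Filter.Eventually.of_forall fun x => le_max_left _ _)
  have h5 : Real.sqrt (2 * Real.pi) * ∫ x, max 0 ((inner ℝ x u : ℝ) - s) ∂(gam D) = PsiT s := by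
    have hm : Measurable (fun t : ℝ => max 0 (t - s)) := by fun_prop
    rw [integral_comp_inner u (fun t => max 0 (t - s)) hm, hun]
    simp only [one_mul]
    exact sqrt_integral_pos_sub s
  calc ‖nz C‖ = Real.sqrt (2 * Real.pi) * ∫ x in C, (inner ℝ x u : ℝ) ∂(gam D) := h1
    _ ≤ Real.sqrt (2 * Real.pi) * (s * (gam D).real C
          + ∫ x, max 0 ((inner ℝ x u : ℝ) - s) ∂(gam D)) := by
        refine mul_le_mul_of_nonneg_left ?_ hS.le
        linarith
    _ = Real.sqrt (2 * Real.pi) * s * (gam D).real C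
          + Real.sqrt (2 * Real.pi) * ∫ x, max 0 ((inner ℝ x u : ℝ) - s) ∂(gam D) := by ring
    _ = _ := by rw [h5]

theorem iso_line [NeZero k] {y : Fin k → E D} {A : Fin k → Set (E D)} (h : Ext y A) (i : Fin k)
    {s : ℝ} (hs : 0 ≤ s) :
    ‖y i‖ ≤ Real.sqrt (2 * Real.pi) * s * (gam D).real (A i) + PsiT s := by
  rw [← h.fix i]
  exact norm_nz_le hs

/-- Integration by parts: `PsiT s = e^{-s²/2} - s ∫_s^∞ e^{-t²/2} dt`. -/
theorem PsiT_eq (s : ℝ) :
    PsiT s = Real.exp (-s ^ 2 / 2) - s * ∫ t in Set.Ioi s, Real.exp (-t ^ 2 / 2) := by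
  have h2 : Integrable (fun t : ℝ => Real.exp (-t ^ 2 / 2)) := by
    have := integrable_exp_neg_mul_sq (b := 1 / 2) (by norm_num)
    refine this.congr (Filter.Eventually.of_forall fun t => ?_)
    have : -(1 / 2) * t ^ 2 = -t ^ 2 / 2 := by ring
    simp only [this]
  have h1 : Integrable (fun t : ℝ => t * Real.exp (-t ^ 2 / 2)) := by
    have := integrable_mul_exp_neg_mul_sq (b := 1 / 2) (by norm_num)
    refine this.congr (Filter.Eventually.of_forall fun t => ?_)
    have : -(1 / 2) * t ^ 2 = -t ^ 2 / 2 := by ring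
    simp only [this]
  have h3 : ∫ t in Set.Ioi s, t * Real.exp (-t ^ 2 / 2) = Real.exp (-s ^ 2 / 2) := by
    have hd : ∀ t ∈ Set.Ioi s, HasDerivAt (fun t : ℝ => -Real.exp (-t ^ 2 / 2))
        (t * Real.exp (-t ^ 2 / 2)) t := by
      intro t _
      have a1 : HasDerivAt (fun t : ℝ => -t ^ 2 / 2) (-t) t :=
        HasDerivAt.congr_deriv (((hasDerivAt_pow 2 t).neg).div_const 2) (by push_cast; ring)
      exact HasDerivAt.congr_deriv ((a1.exp).neg) (by ring)
    have hl : Filter.Tendsto (fun t : ℝ => -Real.exp (-t ^ 2 / 2)) Filter.atTop (nhds 0) := by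
      have a1 : Filter.Tendsto (fun t : ℝ => -t ^ 2 / 2) Filter.atTop Filter.atBot := by
        have : Filter.Tendsto (fun t : ℝ => t ^ 2) Filter.atTop Filter.atTop :=
          Filter.tendsto_pow_atTop (by norm_num)
        have b := (Filter.tendsto_neg_atTop_atBot.comp this)
        have b2 := b.atBot_div_const (r := 2) (by norm_num)
        refine b2.congr (fun t => ?_)
        simp
      have a2 := (Real.tendsto_exp_atBot.comp a1).neg
      simpa using a2
    have := integral_Ioi_of_hasDerivAt_of_tendsto (f := fun t : ℝ => -Real.exp (-t ^ 2 / 2))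
      (f' := fun t => t * Real.exp (-t ^ 2 / 2)) (a := s) (m := 0)
      (by fun_prop) hd h1.integrableOn hl
    rw [this]
    ring
  unfold PsiT
  have h4 : ∀ t : ℝ, (t - s) * Real.exp (-t ^ 2 / 2)
      = t * Real.exp (-t ^ 2 / 2) - s * Real.exp (-t ^ 2 / 2) := fun t => by ring
  simp_rw [h4]
  rw [integral_sub h1.integrableOn (h2.const_mul s).integrableOn, integral_const_mul, h3]

/-- The Gaussian tail in terms of the error function integral. -/
theorem integral_Ioi_exp_eq (s : ℝ) :
    ∫ t in Set.Ioi s, Real.exp (-t ^ 2 / 2)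
      = Real.sqrt (Real.pi / 2) - ∫ t in (0 : ℝ)..s, Real.exp (-t ^ 2 / 2) := by
  have h2 : Integrable (fun t : ℝ => Real.exp (-t ^ 2 / 2)) := by
    have := integrable_exp_neg_mul_sq (b := 1 / 2) (by norm_num)
    refine this.congr (Filter.Eventually.of_forall fun t => ?_)
    have : -(1 / 2) * t ^ 2 = -t ^ 2 / 2 := by ring
    simp only [this]
  have h3 : ∫ t in Set.Ioi (0 : ℝ), Real.exp (-t ^ 2 / 2) = Real.sqrt (Real.pi / 2) := by
    have := integral_gaussian_Ioi (1 / 2)
    have e : ∀ t : ℝ, -(1 / 2) * t ^ 2 = -t ^ 2 / 2 := fun t => by ring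
    simp_rw [e] at this
    rw [this]
    have e2 : Real.pi / (1 / 2) = 4 * (Real.pi / 2) := by ring
    rw [e2, Real.sqrt_mul (by norm_num)]
    have : Real.sqrt 4 = 2 := by
      rw [show (4 : ℝ) = 2 ^ 2 by norm_num]
      exact Real.sqrt_sq (by norm_num)
    rw [this]
    ring
  have h4 := intervalIntegral.integral_interval_add_Ioi (f := fun t : ℝ => Real.exp (-t ^ 2 / 2))
    (μ := volume) (a := 0) (b := s) h2.integrableOn h2.integrableOn
  rw [h3] at h4
  linarith

end Vale.Agent.Lib.P226K
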