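import Vale.Agent.Lib.P226K.Iso

/-!
Numerical upper bounds for `PsiT`.
-/

open MeasureTheory ProbabilityTheory

namespace Vale.Agent.Lib.P226K

open Vale.Agent.Lib.P226

/-- Upper bound for the exponential on the negative unit interval. -/
theorem exp_neg_le_poly {u : ℝ} (h0 : 0 ≤ u) (h1 : u ≤ 1) :
    Real.exp (-u) ≤ 1 - u + u ^ 2 / 2 - u ^ 3 / 6 + u ^ 4 / 24 - u ^ 5 / 120 + 7 * u ^ 6 / 4320 := by
  have hx : |(-u)| ≤ 1 := by
    rw [abs_neg, abs_of_nonneg h0]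
    exact h1
  have h := Real.exp_bound hx (n := 6) (by norm_num)
  have h2 := (abs_le.mp h).2
  have e1 : ∑ m ∈ Finset.range 6, (-u) ^ m / (m.factorial : ℝ)
      = 1 - u + u ^ 2 / 2 - u ^ 3 / 6 + u ^ 4 / 24 - u ^ 5 / 120 := by
    simp only [Finset.sum_range_succ, Finset.sum_range_zero, Nat.factorial]
    push_cast
    ring
  rw [e1, abs_neg, abs_of_nonneg h0] at h2
  have e2 : u ^ 6 * ((Nat.succ 6 : ℕ) / ((Nat.factorial 6 : ℕ) * (6 : ℕ)) : ℝ)
      = 7 * u ^ 6 / 4320 := by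
    simp only [Nat.factorial]
    push_cast
    ring
  rw [e2] at h2
  linarith

/-- Antiderivative of the polynomial majorant of the Gaussian. -/
noncomputable def gaussPrim (s : ℝ) : ℝ :=
  s - s ^ 3 / 6 + s ^ 5 / 40 - s ^ 7 / 336 + s ^ 9 / 3456 - s ^ 11 / 42240
    + 7 * s ^ 13 / 3594240

theorem integral_gauss_le {s : ℝ} (h0 : 0 ≤ s) (h1 : s ≤ 1) :
    ∫ t in (0 : ℝ)..s, Real.exp (-t ^ 2 / 2) ≤ gaussPrim s := by
  have hprim : ∫ t in (0 : ℝ)..s, (1 - t ^ 2 / 2 + t ^ 4 / 8 - t ^ 6 / 48 + t ^ 8 / 384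
      - t ^ 10 / 3840 + 7 * t ^ 12 / 276480) = gaussPrim s := by
    have hd : ∀ t ∈ Set.uIcc (0 : ℝ) s, HasDerivAt gaussPrim
        (1 - t ^ 2 / 2 + t ^ 4 / 8 - t ^ 6 / 48 + t ^ 8 / 384
          - t ^ 10 / 3840 + 7 * t ^ 12 / 276480) t := by
      intro t _
      unfold gaussPrim
      have := (((((((hasDerivAt_id t).sub ((hasDerivAt_pow 3 t).div_const 6)).add
        ((hasDerivAt_pow 5 t).div_const 40)).sub ((hasDerivAt_pow 7 t).div_const 336)).add
        ((hasDerivAt_pow 9 t).div_const 3456)).sub ((hasDerivAt_pow 11 t).div_const 42240)).add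
        (((hasDerivAt_pow 13 t).const_mul 7).div_const 3594240))
      refine HasDerivAt.congr_deriv (f := fun t => _) this ?_
      push_cast
      ring
    rw [intervalIntegral.integral_eq_sub_of_hasDerivAt hd (Continuous.intervalIntegrable
      (by fun_prop) _ _)]
    simp [gaussPrim]
  rw [← hprim]
  refine intervalIntegral.integral_mono_on h0 (Continuous.intervalIntegrable (by fun_prop) _ _)
    (Continuous.intervalIntegrable (by fun_prop) _ _) (fun t ht => ?_)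
  have ht0 : 0 ≤ t ^ 2 / 2 := by positivity
  have ht1 : t ^ 2 / 2 ≤ 1 := by
    have : t ^ 2 ≤ 1 := by nlinarith [ht.1, ht.2]
    linarith
  have := exp_neg_le_poly ht0 ht1
  have e : -t ^ 2 / 2 = -(t ^ 2 / 2) := by ring
  rw [e]
  refine this.trans (le_of_eq ?_)
  ring

theorem sqrt_pi_half_ge : (1.253314 : ℝ) ≤ Real.sqrt (Real.pi / 2) := by
  apply Real.le_sqrt_of_sq_le
  have := Real.pi_gt_d6
  norm_num at this ⊢
  linarith

/-- The general numerical upper bound for `PsiT`. -/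
theorem PsiT_le_num {s : ℝ} (h0 : 0 ≤ s) (h1 : s ≤ 1) :
    PsiT s ≤ (1 - s ^ 2 / 2 + (s ^ 2 / 2) ^ 2 / 2 - (s ^ 2 / 2) ^ 3 / 6 + (s ^ 2 / 2) ^ 4 / 24
      - (s ^ 2 / 2) ^ 5 / 120 + 7 * (s ^ 2 / 2) ^ 6 / 4320)
      - s * (1.253314 - gaussPrim s) := by
  rw [PsiT_eq, integral_Ioi_exp_eq]
  have ht0 : 0 ≤ s ^ 2 / 2 := by positivity
  have ht1 : s ^ 2 / 2 ≤ 1 := by
    have : s ^ 2 ≤ 1 := by nlinarith
    linarith
  have a1 := exp_neg_le_poly ht0 ht1
  have e : -s ^ 2 / 2 = -(s ^ 2 / 2) := by ring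
  rw [e]
  have a2 := integral_gauss_le h0 h1
  have a3 := sqrt_pi_half_ge
  have a4 : s * (1.253314 - gaussPrim s)
      ≤ s * (Real.sqrt (Real.pi / 2) - ∫ t in (0 : ℝ)..s, Real.exp (-t ^ 2 / 2)) :=
    mul_le_mul_of_nonneg_left (by linarith) h0
  linarith

theorem PsiT_table : PsiT 0 ≤ 1 ∧ PsiT (1 / 4) ≤ 7179 / 10000 ∧ PsiT (2 / 5) ≤ 2889 / 5000 ∧
    PsiT (1 / 2) ≤ 62 / 125 ∧ PsiT (3 / 5) ≤ 4229 / 10000 ∧ PsiT (7 / 10) ≤ 3583 / 10000 ∧
    PsiT (4 / 5) ≤ 603 / 2000 ∧ PsiT (9 / 10) ≤ 2519 / 10000 := by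
  refine ⟨?_, ?_, ?_, ?_, ?_, ?_, ?_, ?_⟩
  · refine (PsiT_le_num (le_refl _) (by norm_num)).trans ?_
    norm_num [gaussPrim]
  · refine (PsiT_le_num (by norm_num) (by norm_num)).trans ?_
    norm_num [gaussPrim]
  · refine (PsiT_le_num (by norm_num) (by norm_num)).trans ?_
    norm_num [gaussPrim]
  · refine (PsiT_le_num (by norm_num) (by norm_num)).trans ?_
    norm_num [gaussPrim]
  · refine (PsiT_le_num (by norm_num) (by norm_num)).trans ?_
    norm_num [gaussPrim]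
  · refine (PsiT_le_num (by norm_num) (by norm_num)).trans ?_
    norm_num [gaussPrim]
  · refine (PsiT_le_num (by norm_num) (by norm_num)).trans ?_
    norm_num [gaussPrim]
  · refine (PsiT_le_num (by norm_num) (by norm_num)).trans ?_
    norm_num [gaussPrim]

end Vale.Agent.Lib.P226K
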