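import Vale.Agent.Lib.P226K.Par6

namespace Vale.Agent.Lib.P226K.BB

theorem lf6_0 : cover par6 45 0 0 0 0 0 2048 4096 4096 4096 4096 = true := by decide +kernel

theorem lf6_1 : cover par6 45 2048 0 0 0 0 4096 2048 4096 4096 4096 = true := by decide +kernel

theorem lf6_2 : cover par6 45 2048 2048 0 0 0 4096 4096 2048 4096 4096 = true := by decide +kernel

theorem lf6_3 : cover par6 45 2048 2048 2048 0 0 4096 4096 4096 2048 4096 = true := by decide +kernel

theorem lf6_4 : cover par6 45 2048 2048 2048 2048 0 3072 4096 4096 4096 2048 = true := by decide +kernel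

theorem lf6_5 : cover par6 45 3072 2048 2048 2048 0 4096 3072 4096 4096 1024 = true := by decide +kernel

theorem lf6_6 : cover par6 45 3072 2048 2048 2048 1024 4096 3072 4096 4096 2048 = true := by decide +kernel

theorem lf6_7 : cover par6 45 3072 3072 2048 2048 0 3584 4096 2560 4096 1024 = true := by decide +kernel

theorem lf6_8 : cover par6 45 3072 3072 2560 2048 0 3584 4096 3072 2560 1024 = true := by decide +kernel

theorem lf6_9 : cover par6 45 3072 3072 2560 2560 0 3584 4096 3072 4096 1024 = true := by decide +kernel

theorem lf6_10 : cover par6 45 3584 3072 2048 2048 0 4096 4096 3072 4096 1024 = true := by decide +kernel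

theorem lf6_11 : cover par6 45 3072 3072 2048 2048 1024 4096 4096 3072 4096 2048 = true := by decide +kernel

theorem lf6_12 : cover par6 45 3072 3072 3072 2048 0 4096 4096 4096 4096 2048 = true := by decide +kernel

theorem lf6_13 : cover par6 45 2048 2048 2048 2048 2048 4096 4096 4096 4096 4096 = true := by decide +kernel

end Vale.Agent.Lib.P226K.BB
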