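import Vale.Agent.Lib.P226K.Defs

/-!
An extremal configuration can be reindexed so that the norms decrease.
-/

open MeasureTheory ProbabilityTheory

namespace Vale.Agent.Lib.P226K

open Vale.Agent.Lib.P226

variable {k D : ℕ}

/-- An extremal configuration can be sorted. -/
theorem exists_sorted_ext [NeZero k] {y : Fin k → E D} {A : Fin k → Set (E D)} (h : Ext y A) :
    ∃ (y' : Fin k → E D) (A' : Fin k → Set (E D)), Ext y' A' ∧
      ∀ i j : Fin k, i ≤ j → ‖y' j‖ ≤ ‖y' i‖ := by
  classical
  let f : Fin k → ℝ := fun i => -‖y i‖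
  let σ : Equiv.Perm (Fin k) := Tuple.sort f
  have hmono : Monotone (f ∘ σ) := Tuple.monotone_sort f
  have hsum : ∀ {F : Type} [AddCommMonoid F] (g : Fin k → F), ∑ i, g (σ i) = ∑ i, g i :=
    fun g => Equiv.sum_comp σ g
  have hpart : IsPart (A ∘ σ) := by
    refine ⟨fun i => h.part.meas (σ i), ?_, ?_⟩
    · intro i j hij
      exact h.part.disj (fun e => hij (σ.injective e))
    · rw [← h.part.cover]
      exact σ.surjective.iUnion_comp A
  have hmx : ∀ x, mx (y ∘ σ) x = mx y x := by
    intro x
    simp only [mx]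
    apply le_antisymm
    · refine Finset.sup'_le _ _ (fun i _ => ?_)
      exact Finset.le_sup' (fun i => (inner ℝ x (y i) : ℝ)) (Finset.mem_univ (σ i))
    · refine Finset.sup'_le _ _ (fun i _ => ?_)
      have := Finset.le_sup' (fun j => (inner ℝ x ((y ∘ σ) j) : ℝ)) (Finset.mem_univ (σ.symm i))
      simp only [Function.comp, Equiv.apply_symm_apply] at this
      exact this
  have hW : W (y ∘ σ) = W y := by
    simp only [W, hmx]
  have hTT : TT (y ∘ σ) = TT y := by
    simp only [TT]
    exact Equiv.sum_comp σ (fun i => ‖y i‖ ^ 2)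
  refine ⟨y ∘ σ, A ∘ σ, ⟨?_, hpart, ?_, ?_, ?_, ?_, ?_, ?_⟩, ?_⟩
  · exact (Equiv.sum_comp σ y).trans h.sum
  · intro i x hx c hc
    exact h.cone (σ i) x hx c hc
  · intro i x hx j
    exact h.vor (σ i) x hx (σ j)
  · intro i
    exact h.fix (σ i)
  · rw [hW, hTT]; exact h.wEq
  · rw [hTT]; exact h.big
  · intro i j hij
    exact h.neg (σ i) (σ j) (fun e => hij (σ.injective e))
  · intro i j hij
    have := hmono hij
    simp only [Function.comp, f] at this
    simpa using this

end Vale.Agent.Lib.P226K
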