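import Vale.Agent.Lib.P226K.FloorSorted
import Vale.Agent.Lib.P226K.HazardStep
import Vale.Agent.Lib.P226K.Sorted
import Vale.Agent.Lib.P226K.IsoNum
import Vale.Agent.Lib.P226K.Extremal
import Vale.Agent.Lib.P226K.Iso
import Vale.Agent.Lib.P226K.BBCover

/-!
The inductive step `P(k-1) ⇒ P(k)` from the analysis modules, a table of tangent lines and a
successful run of the branch and bound checker.
-/

open MeasureTheory ProbabilityTheory

namespace Vale.Agent.Lib.P226K

open Vale.Agent.Lib.P226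

variable {k D : ℕ}

theorem aSeq_of_lt (y : Fin k → E D) {n : ℕ} (h : n < k) : aSeq y n = ‖y ⟨n, h⟩‖ := by
  simp [aSeq, h]

theorem aSeq_of_ge (y : Fin k → E D) {n : ℕ} (h : ¬ n < k) : aSeq y n = 0 := by
  simp [aSeq, h]

theorem qSeq_of_lt (A : Fin k → Set (E D)) {n : ℕ} (h : n < k) :
    qSeq A n = (gam D).real (A ⟨n, h⟩) := by
  simp [qSeq, h]

theorem qSeq_of_ge (A : Fin k → Set (E D)) {n : ℕ} (h : ¬ n < k) : qSeq A n = 0 := by
  simp [qSeq, h]

theorem aSeq_nonneg (y : Fin k → E D) (n : ℕ) : 0 ≤ aSeq y n := by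
  by_cases h : n < k
  · rw [aSeq_of_lt y h]; exact norm_nonneg _
  · rw [aSeq_of_ge y h]

theorem qSeq_nonneg (A : Fin k → Set (E D)) (n : ℕ) : 0 ≤ qSeq A n := by
  by_cases h : n < k
  · rw [qSeq_of_lt A h]; exact measureReal_nonneg
  · rw [qSeq_of_ge A h]

/-- The sequences of a sorted extremal configuration satisfy the hypotheses of the closure. -/
theorem hyp_of_ext [NeZero k] (p : BB.Par) {y : Fin k → E D} {A : Fin k → Set (E D)} (h : Ext y A)
    (hanti : ∀ i j : Fin k, i ≤ j → ‖y j‖ ≤ ‖y i‖) (hk : 2 ≤ k) (hP : PartitionBound (k - 1))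
    (hl : ∀ i, ∀ e ∈ p.l0 :: p.ls, (e.1 : ℝ) * ‖y i‖ - (e.2 : ℝ) ≤ 1048576 * (gam D).real (A i))
    (hone : ∀ i, ‖y i‖ ≤ 1) : BB.Hyp p k (aSeq y) (qSeq A) where
  aNN := aSeq_nonneg y
  qNN := qSeq_nonneg A
  anti := by
    intro m n hmn hn
    have hm : m < k := lt_of_le_of_lt hmn hn
    rw [aSeq_of_lt y hn, aSeq_of_lt y hm]
    exact hanti _ _ hmn
  one := by
    intro n
    by_cases hn : n < k
    · rw [aSeq_of_lt y hn]; exact hone _
    · rw [aSeq_of_ge y hn]; norm_num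
  sum1 := by
    rw [Finset.sum_range]
    have : ∀ i : Fin k, qSeq A i = (gam D).real (A i) := fun i => by
      rw [qSeq_of_lt A i.2]
    simp only [this]
    exact sum_real_eq_one h.part
  haz := by
    intro n hn
    rw [aSeq_of_lt y hn, qSeq_of_lt A hn]
    exact hazard_step h hk hP _
  lines := by
    intro e he n hn
    rw [aSeq_of_lt y hn, qSeq_of_lt A hn]
    exact hl _ e he
  big := by
    rw [Finset.sum_range]
    have : ∀ i : Fin k, aSeq y i = ‖y i‖ := fun i => by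
      rw [aSeq_of_lt y i.2]
    simp only [this]
    exact h.big
  floor := by
    intro b n Dd θ hb hbk hn hnb hDd h0 h1 hD hT
    exact floor_sorted h hanti hP b n Dd θ hb hbk hn hnb hDd h0 h1 hD hT

/-- One tangent line gives one entry of the table. -/
theorem line_of {a q Ac Ee : ℝ} {P Z : ℕ} (h : a ≤ Ac * q + Ee) (hq : 0 ≤ q)
    (h1 : (P : ℝ) * Ac ≤ 1048576) (h2 : (P : ℝ) * Ee ≤ Z) : (P : ℝ) * a - Z ≤ 1048576 * q := by
  have hP : (0 : ℝ) ≤ P := Nat.cast_nonneg P
  nlinarith [mul_le_mul_of_nonneg_left h hP, mul_le_mul_of_nonneg_right h1 hq]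

/-- The inductive step from a table of lines and a run of the checker. -/
theorem step_of [NeZero k] (p : BB.Par) (hD : k - 1 ≤ D) (hk : 2 ≤ k)
    (hno : ∀ a q : ℕ → ℝ, BB.Hyp p k a q → False)
    (hl : ∀ (y : Fin k → E D) (A : Fin k → Set (E D)), Ext y A →
      (∀ i, ‖y i‖ ≤ (709 / 200) * (gam D).real (A i)) → ∀ i, ∀ e ∈ p.l0 :: p.ls,
        (e.1 : ℝ) * ‖y i‖ - (e.2 : ℝ) ≤ 1048576 * (gam D).real (A i))
    (hP : PartitionBound (k - 1)) : PartitionBound k := by
  by_contra h2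
  obtain ⟨y0, A0, h0⟩ := exists_ext hk hD hP h2
  obtain ⟨y, A, h, hanti⟩ := exists_sorted_ext h0
  have hhaz := fun i => hazard_step h (by omega) hP i
  have hone : ∀ i, ‖y i‖ ≤ 1 := by
    intro i
    have h1 := iso_line h i (s := 0) le_rfl
    have h2 := PsiT_table.1
    simp only [mul_zero, zero_mul, zero_add] at h1
    exact h1.trans h2
  exact hno _ _ (hyp_of_ext p h hanti (by omega) hP (hl y A h hhaz) hone)

end Vale.Agent.Lib.P226K
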