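import Vale.Agent.Lib.P226K.Defs
import Vale.Agent.Lib.P226.Tent

/-!
The weighted pyramid integral and the inner Gaussian bound.
-/

open MeasureTheory Set ProbabilityTheory

namespace Vale.Agent.Lib.P226K

open Vale.Agent.Lib.P226

/-- The weighted pyramid over the triangle `u, v, C - u - v ≥ 0`. -/
noncomputable def wpyr (n C u v : ℝ) : ℝ := max 0 (min u (min v ((C - u - v) / n)))

theorem wpyr_nonneg (n C u v : ℝ) : 0 ≤ wpyr n C u v := le_max_left _ _

theorem continuous_wpyr (n C : ℝ) : Continuous (fun z : ℝ × ℝ => wpyr n C z.1 z.2) := by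
  unfold wpyr
  fun_prop

theorem wpyr_eq_zero {n C u v : ℝ} (hn : 0 < n) (h : u ≤ 0 ∨ v ≤ 0 ∨ C - u - v ≤ 0) :
    wpyr n C u v = 0 := by
  unfold wpyr
  apply max_eq_left
  rcases h with h | h | h
  · exact (min_le_left _ _).trans h
  · exact (min_le_right _ _).trans ((min_le_left _ _).trans h)
  · refine (min_le_right _ _).trans ((min_le_right _ _).trans ?_)
    exact div_nonpos_of_nonpos_of_nonneg h hn.le

theorem hasCompactSupport_wpyr {n : ℝ} (hn : 0 < n) (C : ℝ) :
    HasCompactSupport (fun z : ℝ × ℝ => wpyr n C z.1 z.2) := by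
  apply HasCompactSupport.intro (K := Icc 0 |C| ×ˢ Icc 0 |C|) (isCompact_Icc.prod isCompact_Icc)
  rintro ⟨u, v⟩ hz
  apply wpyr_eq_zero hn
  by_contra hcon
  push Not at hcon
  obtain ⟨hu, hv, huv⟩ := hcon
  apply hz
  have : C ≤ |C| := le_abs_self C
  exact ⟨⟨hu.le, by simp only; linarith⟩, ⟨hv.le, by simp only; linarith⟩⟩

theorem integrable_wpyr {n : ℝ} (hn : 0 < n) (C : ℝ) :
    Integrable (fun z : ℝ × ℝ => wpyr n C z.1 z.2) (volume.prod volume) :=
  (continuous_wpyr n C).integrable_of_hasCompactSupport (hasCompactSupport_wpyr hn C)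

theorem integrable_wpyr_slice {n : ℝ} (hn : 0 < n) (C u : ℝ) :
    Integrable (fun v : ℝ => wpyr n C u v) := by
  have hc : Continuous (fun v : ℝ => wpyr n C u v) := by unfold wpyr; fun_prop
  apply hc.integrable_of_hasCompactSupport
  apply HasCompactSupport.intro (K := Icc (-|C| - |u|) (|C| + |u|)) isCompact_Icc
  intro v hv
  apply wpyr_eq_zero hn
  by_contra hcon
  push Not at hcon
  obtain ⟨hu, hv', huv⟩ := hcon
  apply hv
  have : C ≤ |C| := le_abs_self C
  have h2 : u ≤ |u| := le_abs_self u
  have h3 : 0 ≤ |C| := abs_nonneg C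
  have h4 : 0 ≤ |u| := abs_nonneg u
  exact ⟨by linarith, by linarith⟩

theorem integrable_integral_wpyr {n : ℝ} (hn : 0 < n) (C : ℝ) :
    Integrable (fun u : ℝ => ∫ v, wpyr n C u v) :=
  (integrable_wpyr hn C).integral_prod_left

/-- The weighted trapezoid integral. -/
theorem wtrap_int {n a u : ℝ} (hn : 0 < n) (ha : 0 ≤ a) (hu : 0 < u) :
    ∫ v : ℝ, max 0 (min u (min v ((a - v) / n))) =
      min u (a / (n + 1)) * a - (n + 1) * (min u (a / (n + 1))) ^ 2 / 2 := by
  have hc : Continuous (fun v : ℝ => max 0 (min u (min v ((a - v) / n)))) := by fun_prop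
  have h0 : ∫ v : ℝ, max 0 (min u (min v ((a - v) / n))) =
      ∫ v in (0 : ℝ)..a, max 0 (min u (min v ((a - v) / n))) := by
    rw [intervalIntegral.integral_of_le ha]
    symm
    apply setIntegral_eq_integral_of_forall_compl_eq_zero
    intro v hv
    apply max_eq_left
    simp only [mem_Ioc, not_and_or, not_lt, not_le] at hv
    rcases hv with hv | hv
    · exact (min_le_right _ _).trans ((min_le_left _ _).trans hv)
    · refine (min_le_right _ _).trans ((min_le_right _ _).trans ?_)
      exact div_nonpos_of_nonpos_of_nonneg (by linarith) hn.le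
  rw [h0]
  have hi : ∀ p q : ℝ, IntervalIntegrable (fun v : ℝ => max 0 (min u (min v ((a - v) / n)))) volume p q :=
    fun p q => hc.intervalIntegrable p q
  set h := min u (a / (n + 1)) with hh
  have hn1 : 0 < n + 1 := by linarith
  have hh0 : 0 ≤ h := le_min hu.le (by positivity)
  have hhu : h ≤ u := min_le_left _ _
  have hha : h * (n + 1) ≤ a := by
    have : h ≤ a / (n + 1) := min_le_right _ _
    rwa [le_div_iff₀ hn1] at this
  -- on `[0, h]`
  have h1 : ∫ v in (0 : ℝ)..h, max 0 (min u (min v ((a - v) / n))) = h ^ 2 / 2 := by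
    have : ∫ v in (0 : ℝ)..h, max 0 (min u (min v ((a - v) / n))) = ∫ v in (0 : ℝ)..h, v := by
      apply intervalIntegral.integral_congr
      intro v hv
      rw [uIcc_of_le hh0] at hv
      have h1 := hv.1
      have h2 := hv.2
      have h3 : v ≤ (a - v) / n := by
        rw [le_div_iff₀ hn]
        nlinarith
      simp only
      rw [min_eq_left h3, min_eq_right (h2.trans hhu), max_eq_right h1]
    rw [this]
    simp
  -- on `[h, a - n h]`
  have hmid : h ≤ a - n * h := by nlinarith
  have h2 : ∫ v in h..(a - n * h), max 0 (min u (min v ((a - v) / n))) = (a - (n + 1) * h) * h := by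
    have : ∫ v in h..(a - n * h), max 0 (min u (min v ((a - v) / n))) = ∫ _v in h..(a - n * h), h := by
      apply intervalIntegral.integral_congr
      intro v hv
      rw [uIcc_of_le hmid] at hv
      have h1 := hv.1
      have h2 := hv.2
      simp only
      by_cases hcase : h = u
      · have h3 : u ≤ (a - v) / n := by
          rw [le_div_iff₀ hn, ← hcase]
          nlinarith
        have h4 : u ≤ v := by rw [← hcase]; exact h1
        rw [min_eq_left (le_min h4 h3), max_eq_right hu.le, hcase]
      · have h5 : h = a / (n + 1) := by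
          rw [hh]
          rw [hh] at hcase
          rcases min_choice u (a / (n + 1)) with h6 | h6
          · exfalso; exact hcase h6
          · exact h6
        have h6 : h * (n + 1) = a := by
          rw [h5]; field_simp
        have h7 : v = h := by nlinarith
        have h8 : (a - v) / n = h := by
          rw [div_eq_iff hn.ne', h7]
          nlinarith
        rw [h8, h7, min_self, min_eq_right hhu, max_eq_right hh0]
    rw [this, intervalIntegral.integral_const, smul_eq_mul]
    ring
  -- on `[a - n h, a]`
  have hend : a - n * h ≤ a := by nlinarith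
  have h3 : ∫ v in (a - n * h)..a, max 0 (min u (min v ((a - v) / n))) = n * h ^ 2 / 2 := by
    have : ∫ v in (a - n * h)..a, max 0 (min u (min v ((a - v) / n))) =
        ∫ v in (a - n * h)..a, (a - v) / n := by
      apply intervalIntegral.integral_congr
      intro v hv
      rw [uIcc_of_le hend] at hv
      have h1 := hv.1
      have h2 := hv.2
      have h3 : (a - v) / n ≤ h := by
        rw [div_le_iff₀ hn]
        nlinarith
      have h4 : (a - v) / n ≤ v := h3.trans (by linarith)
      have h5 : 0 ≤ (a - v) / n := div_nonneg (by linarith) hn.le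
      simp only
      rw [min_eq_right h4, min_eq_right (h3.trans hhu), max_eq_right h5]
    rw [this, intervalIntegral.integral_div,
      intervalIntegral.integral_comp_sub_left (fun x : ℝ => x) a]
    simp only [sub_self, integral_id]
    have : a - (a - n * h) = n * h := by ring
    rw [this]
    field_simp
    ring
  rw [← intervalIntegral.integral_add_adjacent_intervals (hi 0 h) (hi h a), ←
    intervalIntegral.integral_add_adjacent_intervals (hi h (a - n * h)) (hi (a - n * h) a), h1, h2, h3]
  ring

/-- The slice of the weighted pyramid. -/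
theorem slice_wpyr {n C u : ℝ} (hn : 0 < n) (hu : 0 < u) (huC : u ≤ C) :
    ∫ v : ℝ, wpyr n C u v =
      min u ((C - u) / (n + 1)) * (C - u) - (n + 1) * (min u ((C - u) / (n + 1))) ^ 2 / 2 := by
  have : (fun v : ℝ => wpyr n C u v) = fun v => max 0 (min u (min v (((C - u) - v) / n))) := rfl
  rw [this, wtrap_int hn (by linarith) hu]

/-- The weighted pyramid integral. -/
theorem wpyr_int {n : ℝ} (hn : 0 < n) (C : ℝ) :
    ∫ u : ℝ, ∫ v : ℝ, wpyr n C u v = (max C 0) ^ 3 / (6 * (n + 2)) := by
  have hn2 : 0 < n + 2 := by linarith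
  have hn1 : 0 < n + 1 := by linarith
  by_cases hC : 0 < C
  · rw [max_eq_left hC.le]
    set K : ℝ → ℝ := fun u => ∫ v : ℝ, wpyr n C u v with hK
    have hKi : Integrable K := integrable_integral_wpyr hn C
    have h0 : ∫ u, K u = ∫ u in (0 : ℝ)..C, K u := by
      rw [intervalIntegral.integral_of_le hC.le]
      symm
      apply setIntegral_eq_integral_of_forall_compl_eq_zero
      intro u hu
      simp only [mem_Ioc, not_and_or, not_lt, not_le] at hu
      rw [hK]
      simp only
      rcases hu with hu | hu
      · simp [wpyr_eq_zero hn (C := C) (u := u) (Or.inl hu)]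
      · have : (fun v : ℝ => wpyr n C u v) = fun v => max 0 (wpyr n C u v - wpyr n C u v) := by
          funext v
          by_cases hv : v ≤ 0
          · rw [wpyr_eq_zero hn (Or.inr (Or.inl hv))]; simp
          · rw [wpyr_eq_zero hn (Or.inr (Or.inr (by push Not at hv; linarith)))]; simp
        rw [this]; simp
    rw [h0]
    have hi : ∀ p q : ℝ, IntervalIntegrable K volume p q := fun p q => hKi.intervalIntegrable
    set u0 := C / (n + 2) with hu0
    have hu0pos : 0 < u0 := by positivity
    have hu0C : u0 ≤ C := by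
      rw [hu0, div_le_iff₀ hn2]
      nlinarith
    have h1 : ∫ u in (0 : ℝ)..u0, K u = C * u0 ^ 2 / 2 - (n + 3) * u0 ^ 3 / 6 := by
      have : ∫ u in (0 : ℝ)..u0, K u = ∫ u in (0 : ℝ)..u0, (C * u - ((n + 3) / 2) * u ^ 2) := by
        apply intervalIntegral.integral_congr_ae
        refine Filter.Eventually.of_forall (fun u hu => ?_)
        rw [uIoc_of_le hu0pos.le] at hu
        rw [hK]
        simp only
        have hu1 : u ≤ (C - u) / (n + 1) := by
          rw [le_div_iff₀ hn1]
          have h5 : u * (n + 2) ≤ C := by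
            have := hu.2
            rw [hu0, le_div_iff₀ hn2] at this
            exact this
          nlinarith
        rw [slice_wpyr hn hu.1 (hu.2.trans hu0C), min_eq_left hu1]
        ring
      rw [this, intervalIntegral.integral_sub ((by fun_prop : Continuous fun u : ℝ => C * u).intervalIntegrable _ _)
        ((by fun_prop : Continuous fun u : ℝ => ((n + 3) / 2) * u ^ 2).intervalIntegrable _ _),
        intervalIntegral.integral_const_mul, intervalIntegral.integral_const_mul, integral_id, integral_pow]
      simp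
      ring
    have h2 : ∫ u in u0..C, K u = (C - u0) ^ 3 / (6 * (n + 1)) := by
      have : ∫ u in u0..C, K u = ∫ u in u0..C, (C - u) ^ 2 / (2 * (n + 1)) := by
        apply intervalIntegral.integral_congr_ae
        refine Filter.Eventually.of_forall (fun u hu => ?_)
        rw [uIoc_of_le hu0C] at hu
        rw [hK]
        simp only
        have hu0' : 0 < u := hu0pos.trans hu.1
        have hu1 : (C - u) / (n + 1) ≤ u := by
          rw [div_le_iff₀ hn1]
          have h5 : C ≤ u * (n + 2) := by
            have := hu.1.le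
            rw [hu0, div_le_iff₀ hn2] at this
            exact this
          nlinarith
        rw [slice_wpyr hn hu0' hu.2, min_eq_right hu1]
        field_simp
        ring
      rw [this, intervalIntegral.integral_div, intervalIntegral.integral_comp_sub_left (fun x : ℝ => x ^ 2) C,
        integral_pow]
      simp
      field_simp
      ring
    rw [← intervalIntegral.integral_add_adjacent_intervals (hi 0 u0) (hi u0 C), h1, h2, hu0]
    field_simp
    ring
  · push Not at hC
    rw [max_eq_right hC]
    have : ∀ u v : ℝ, wpyr n C u v = 0 := by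
      intro u v
      apply wpyr_eq_zero hn
      by_contra hcon
      push Not at hcon
      obtain ⟨h1, h2, h3⟩ := hcon
      linarith
    simp [this]

/-- The inner bound for the weighted pyramid. -/
theorem winner_bound {n : ℝ} (hn : 0 < n) (C α β b1 b2 b3 : ℝ) (h1 : 0 < b1) (h3 : 0 < b3) :
    ∫⁻ c, ∫⁻ d, ENNReal.ofReal (wpyr n C (α - b1 * c) (β - b2 * c - b3 * d)) ∂gstd ∂gstd ≤
      ENNReal.ofReal ((1 / (2 * Real.pi * b1 * b3)) * ((max C 0) ^ 3 / (6 * (n + 2)))) := by
  set K : ℝ → ℝ := fun u => ∫ v, wpyr n C u v with hK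
  have hKi : Integrable K := integrable_integral_wpyr hn C
  have hK0 : ∀ u, 0 ≤ K u := fun u => integral_nonneg fun v => wpyr_nonneg n C u v
  have hsq : (Real.sqrt (2 * Real.pi))⁻¹ * (Real.sqrt (2 * Real.pi))⁻¹ = 1 / (2 * Real.pi) := by
    rw [← mul_inv, Real.mul_self_sqrt (by positivity), one_div]
  -- inner integral
  have hin : ∀ c : ℝ, ∫ d, wpyr n C (α - b1 * c) (β - b2 * c - b3 * d) ∂gstd ≤
      (Real.sqrt (2 * Real.pi))⁻¹ * (b3⁻¹ * K (α - b1 * c)) := by
    intro c
    have := gauss_le_leb (f := fun d => wpyr n C (α - b1 * c) (β - b2 * c - b3 * d))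
      (fun d => wpyr_nonneg _ _ _ _)
      (integrable_affine (integrable_wpyr_slice hn C (α - b1 * c)) (β - b2 * c) h3)
    rwa [integral_affine (fun v => wpyr n C (α - b1 * c) v) (β - b2 * c) h3] at this
  -- outer integral
  have hKa : Integrable (fun c => (Real.sqrt (2 * Real.pi))⁻¹ * (b3⁻¹ * K (α - b1 * c))) gstd := by
    exact gauss_integrable (((integrable_affine hKi α h1).const_mul _).const_mul _)
  have hout : ∫⁻ c, ∫⁻ d, ENNReal.ofReal (wpyr n C (α - b1 * c) (β - b2 * c - b3 * d)) ∂gstd ∂gstd ≤
      ENNReal.ofReal (∫ c, (Real.sqrt (2 * Real.pi))⁻¹ * (b3⁻¹ * K (α - b1 * c)) ∂gstd) := by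
    rw [ofReal_integral_eq_lintegral_ofReal hKa (Filter.Eventually.of_forall fun c => by
      have := hK0 (α - b1 * c)
      simp only [Pi.zero_apply]
      positivity)]
    apply lintegral_mono
    intro c
    simp only
    rw [← ofReal_integral_eq_lintegral_ofReal
      (gauss_integrable (integrable_affine (integrable_wpyr_slice hn C (α - b1 * c)) (β - b2 * c) h3))
      (Filter.Eventually.of_forall fun d => wpyr_nonneg _ _ _ _)]
    exact ENNReal.ofReal_le_ofReal (hin c)
  refine hout.trans (ENNReal.ofReal_le_ofReal ?_)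
  have h2 := gauss_le_leb (f := fun c => (Real.sqrt (2 * Real.pi))⁻¹ * (b3⁻¹ * K (α - b1 * c)))
    (fun c => by have := hK0 (α - b1 * c); positivity)
    (((integrable_affine hKi α h1).const_mul _).const_mul _)
  refine h2.trans (le_of_eq ?_)
  rw [integral_const_mul, integral_const_mul, integral_affine K α h1]
  have hH : ∫ u, K u = (max C 0) ^ 3 / (6 * (n + 2)) := wpyr_int hn C
  rw [hH]
  have hb : (1 / (2 * Real.pi * b1 * b3)) = (1 / (2 * Real.pi)) * (b1⁻¹ * b3⁻¹) := by
    field_simp
  rw [hb, ← hsq]
  ring

end Vale.Agent.Lib.P226K
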